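import Vale.Agent.P042.H232.Out

/-!
# P042, seam [B] → [C]: the bounds of block [C] for a law on a finite product
-/

set_option linter.unusedSectionVars false

namespace Vale.Agent.P042.H232

open Finset Vale.Agent.P042.H461 Vale.Agent.P042.H742 Vale.Agent.P042.H159
open Vale.Agent.P042.H779 (marg m1)

lemma le_of_sq_le_sq' {x y : ℝ} (h : x ^ 2 ≤ y ^ 2) (hy : 0 ≤ y) : x ≤ y :=
  (le_abs_self x).trans (abs_le_of_sq_le_sq h hy)

section law

variable {ι : Type*} [Fintype ι] [DecidableEq ι] {V : ι → Type*} [∀ i, Fintype (V i)]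
  [∀ i, DecidableEq (V i)] {lam : ∀ i, V i → ℝ} {mu : (∀ i, V i) → ℝ} {ρ : ι → ℝ}

/-- The weights `rho_i lam_i(a)`. -/
def wm (lam : ∀ i, V i → ℝ) (ρ : ι → ℝ) (ω : Σ i, V i) : ℝ := lam ω.1 ω.2 * ρ ω.1

lemma wm_nonneg (h0 : ∀ i a, 0 ≤ lam i a) (hρ : ∀ i, 0 ≤ ρ i) (ω : Σ i, V i) :
    0 ≤ wm lam ρ ω := mul_nonneg (h0 _ _) (hρ _)

/-- The squared row over the sets of size `e`. -/
noncomputable def QI (lam : ∀ i, V i → ℝ) (mu : (∀ i, V i) → ℝ) (ρ : ι → ℝ) (e : ℕ) (i : ι)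
    (a : V i) : ℝ :=
  ∑ B ∈ powersetCard e ({i} : Finset ι)ᶜ, (∏ j ∈ B, ρ j) *
    ∑ x, W lam x * kI lam mu i B (Function.update x i a) ^ 2

lemma QI_nonneg (h0 : ∀ i a, 0 ≤ lam i a) (hρ : ∀ i, 0 ≤ ρ i) (e : ℕ) (i : ι) (a : V i) :
    0 ≤ QI lam mu ρ e i a :=
  Finset.sum_nonneg fun _ _ => mul_nonneg (Finset.prod_nonneg fun _ _ => hρ _)
    (Finset.sum_nonneg fun _ _ => mul_nonneg (W_nonneg h0 _) (sq_nonneg _))

/-- The mean of `1[x_i = a]/lam i a - 1`. -/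
noncomputable def g1 (lam : ∀ i, V i → ℝ) (mu : (∀ i, V i) → ℝ) (i : ι) (a : V i) : ℝ :=
  ∑ x, mu x * uh lam ⟨i, a⟩ x

lemma nrm_ite {Ω : Type*} [Fintype Ω] {m : Ω → ℝ} (hm : ∀ a, 0 ≤ m a) (e : ℕ)
    (P : Multiset Ω → Prop) [DecidablePred P] (T : Multiset Ω → ℝ) :
    nrm m e (fun S => if P S then T S else 0) ^ 2
      = I m e (fun S => if P S then T S ^ 2 else 0) := by
  rw [nrm_sq hm]
  refine I_congr e fun S => ?_
  by_cases h : P S <;> simp [h]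

/-- The row of the centred cumulants at a non-null atom. -/
theorem row_law (hmu : ∑ x, mu x = 1) (h0 : ∀ i a, 0 ≤ lam i a) (h1 : ∀ i, ∑ a, lam i a = 1)
    (hρ : ∀ i, 0 ≤ ρ i) {e : ℕ} (he : 1 ≤ e) (i : ι) (a : V i) :
    nrm (wm lam ρ) e (fun S => if Dst Sigma.fst ((⟨i, a⟩ : Σ i, V i) ::ₘ S) then
      cumT (Mh lam mu) (⟨i, a⟩ ::ₘ S) else 0) ^ 2 = e.factorial * QI lam mu ρ e i a := by
  classical
  rw [nrm_ite (wm_nonneg h0 hρ)]
  have h2 := I_sets h1 (fun i _ => ρ i) e {i}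
    (fun S => cumT (Mh lam mu) ((⟨i, a⟩ : Σ i, V i) ::ₘ S) ^ 2)
  have h3 : I (wm lam ρ) e (fun S => if Dst Sigma.fst ((⟨i, a⟩ : Σ i, V i) ::ₘ S) then
      cumT (Mh lam mu) (⟨i, a⟩ ::ₘ S) ^ 2 else 0)
      = I (fun ω : Σ i, V i => lam ω.1 ω.2 * ρ ω.1) e
        (fun S => if Dst Sigma.fst S ∧ Av {i} S then
          cumT (Mh lam mu) ((⟨i, a⟩ : Σ i, V i) ::ₘ S) ^ 2 else 0) := by
    refine I_congr (m := fun ω : Σ i, V i => lam ω.1 ω.2 * ρ ω.1) e fun S => ?_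
    have : Dst Sigma.fst ((⟨i, a⟩ : Σ i, V i) ::ₘ S) ↔ (Dst Sigma.fst S ∧ Av {i} S) := by
      unfold Dst Av
      rw [Multiset.map_cons, Multiset.nodup_cons]
      constructor
      · rintro ⟨h3, h4⟩
        refine ⟨h4, fun ω' hω' h6 => h3 ?_⟩
        rw [Finset.mem_singleton] at h6
        show i ∈ _
        rw [← h6]
        exact Multiset.mem_map_of_mem _ hω'
      · rintro ⟨h4, h5⟩
        refine ⟨fun h3 => ?_, h4⟩
        obtain ⟨ω', h6, h7⟩ := Multiset.mem_map.1 h3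
        exact h5 ω' h6 (by rw [h7]; exact Finset.mem_singleton_self _)
    simp only [this]
  rw [h3, h2]
  unfold QI
  congr 1
  refine Finset.sum_congr rfl fun B hB => ?_
  have hiB : i ∉ B := fun h => by
    have := (Finset.mem_powersetCard.1 hB).1 h
    simp at this
  have hBc : B.card = e := (Finset.mem_powersetCard.1 hB).2
  rw [Finset.mul_sum]
  refine Finset.sum_congr rfl fun z _ => ?_
  have h4 : cumT (Mh lam mu) ((⟨i, a⟩ : Σ i, V i) ::ₘ tup B z)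
      = kI lam mu i B (Function.update z i a) := by
    unfold kI
    have e1 : (⟨i, a⟩ : Σ i, V i) ::ₘ tup B z
        = ⟨i, Function.update z i a i⟩ ::ₘ tup B (Function.update z i a) := by
      rw [Function.update_self, tup_update hiB]
    rw [e1]
    have e2 : (⟨i, Function.update z i a i⟩ : Σ i, V i) ::ₘ tup B (Function.update z i a)
        = tup (insert i B) (Function.update z i a) := (tup_insert hiB _).symm
    rw [e2, cumT_Mh hmu (dst_tup _ _), if_neg, sub_zero]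
    · rw [tup_card, Finset.card_insert_of_notMem hiB]
      omega
    · rw [Ne, ← Multiset.card_eq_zero, tup_card, Finset.card_insert_of_notMem hiB]
      omega
  rw [h4]
  ring

/-- The row at a null atom vanishes in positive order. -/
theorem row_null (hmu : ∑ x, mu x = 1) {e : ℕ} (he : 1 ≤ e) {i : ι} {a : V i}
    (ha : lam i a = 0) (m : (Σ i, V i) → ℝ) :
    nrm m e (fun S => if Dst Sigma.fst ((⟨i, a⟩ : Σ i, V i) ::ₘ S) then
      cumT (Mh lam mu) (⟨i, a⟩ ::ₘ S) else 0) = 0 := by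
  have h1 : ∀ (x : ∀ i, V i), uh lam (⟨i, a⟩ : Σ i, V i) x = -1 := by
    intro x
    simp [uh, ug, ha]
  -- on multisets of size `e ≥ 1` the function vanishes
  have h2 : ∀ S : Multiset (Σ i, V i), Multiset.card S ≠ 0 →
      (if Dst Sigma.fst ((⟨i, a⟩ : Σ i, V i) ::ₘ S) then
      cumT (Mh lam mu) (⟨i, a⟩ ::ₘ S) else 0) = 0 := by
    intro S hS
    by_cases hd : Dst Sigma.fst ((⟨i, a⟩ : Σ i, V i) ::ₘ S)
    · rw [if_pos hd]
      have := cum_const' Sigma.fst univ mu (uh lam) hmu h1 hd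
      rw [if_neg hS] at this
      exact this
    · rw [if_neg hd]
  obtain ⟨e, rfl⟩ : ∃ k, e = k + 1 := ⟨e - 1, by omega⟩
  unfold nrm
  rw [I_Ls]
  have : ∑ l ∈ Ls (Σ i, V i) (e + 1), (l.map m).prod *
      (if Dst Sigma.fst ((⟨i, a⟩ : Σ i, V i) ::ₘ (l : Multiset (Σ i, V i))) then
      cumT (Mh lam mu) (⟨i, a⟩ ::ₘ (l : Multiset (Σ i, V i))) else 0) ^ 2 = 0 := by
    apply Finset.sum_eq_zero
    intro l hl
    rw [h2]
    · ring
    · rw [Multiset.coe_card, mem_Ls.1 hl]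
      omega
  rw [this, Real.sqrt_zero]

/-- Order zero of the rows. -/
lemma row_zero (hmu : ∑ x, mu x = 1) (m : (Σ i, V i) → ℝ) (i : ι) (a : V i) :
    nrm m 0 (fun S => if Dst Sigma.fst ((⟨i, a⟩ : Σ i, V i) ::ₘ S) then
      cumT (Mh lam mu) (⟨i, a⟩ ::ₘ S) else 0) = |g1 lam mu i a| := by
  have hd : Dst Sigma.fst ((⟨i, a⟩ : Σ i, V i) ::ₘ 0) := by simp [Dst]
  rw [nrm_zero, if_pos hd]
  congr 1
  exact cum_first Sigma.fst univ mu (uh lam) hmu _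

/-- **Rows for a law.** -/
theorem rows_law (hmu : ∑ x, mu x = 1) (h0 : ∀ i a, 0 ≤ lam i a) (h1 : ∀ i, ∑ a, lam i a = 1)
    (hρ : ∀ i, 0 ≤ ρ i) {K θ : ℝ} (hK : 0 ≤ K) (hθ : 0 ≤ θ) {b0 : ℕ}
    (hg : ∀ i a, |g1 lam mu i a| ≤ K)
    (hD1 : ∀ i a, lam i a ≠ 0 → ∀ e, 1 ≤ e → e ≤ b0 →
      QI lam mu ρ e i a ≤ K ^ 2 * (e.factorial * θ ^ (2 * e))) :
    ∀ e ≤ b0, ∀ ω : Σ i, V i, nrm (wm lam ρ) e
      (fun S => if Dst Sigma.fst (ω ::ₘ S) then cumT (Mh lam mu) (ω ::ₘ S) else 0)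
      ≤ K * (e.factorial * θ ^ e) := by
  rintro e he ⟨i, a⟩
  rcases Nat.eq_zero_or_pos e with rfl | he1
  · rw [row_zero hmu]
    simpa using hg i a
  by_cases ha : lam i a = 0
  · rw [row_null hmu he1 ha]
    positivity
  · have h2 := row_law (lam := lam) (mu := mu) hmu h0 h1 hρ he1 i a
    have h3 : nrm (wm lam ρ) e (fun S => if Dst Sigma.fst ((⟨i, a⟩ : Σ i, V i) ::ₘ S) then
      cumT (Mh lam mu) (⟨i, a⟩ ::ₘ S) else 0) ^ 2 ≤ (K * (e.factorial * θ ^ e)) ^ 2 := by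
      rw [h2]
      calc _ ≤ (e.factorial : ℝ) * (K ^ 2 * (e.factorial * θ ^ (2 * e))) :=
            mul_le_mul_of_nonneg_left (hD1 i a ha e he1 he) (Nat.cast_nonneg _)
        _ = _ := by rw [pow_mul]; ring
    exact le_of_sq_le_sq' h3 (by positivity)

/-- **Totals for a law.** -/
theorem totals_law (hmu : ∑ x, mu x = 1) (h0 : ∀ i a, 0 ≤ lam i a) (h1 : ∀ i, ∑ a, lam i a = 1)
    (hρ : ∀ i, 0 ≤ ρ i) {A θ : ℝ} (hA : 0 ≤ A) (hθ : 0 ≤ θ) {b0 : ℕ}
    (hD0 : ∑ i, ρ i * ∑ a, lam i a * g1 lam mu i a ^ 2 ≤ A ^ 2)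
    (hD2 : ∀ e, 1 ≤ e → e + 1 ≤ b0 → ∑ i, ρ i * ∑ a, lam i a * QI lam mu ρ e i a
      ≤ A ^ 2 * (e.factorial * θ ^ (2 * e))) :
    ∀ j, 1 ≤ j → j ≤ b0 → nrm (wm lam ρ) j
      (fun S => if Dst Sigma.fst S then cumT (Mh lam mu) S else 0)
      ≤ A * (j.factorial * θ ^ (j - 1)) := by
  intro j hj1 hj
  obtain ⟨e, rfl⟩ : ∃ k, j = k + 1 := ⟨j - 1, by omega⟩
  rw [Nat.add_sub_cancel]
  have hm := wm_nonneg (ρ := ρ) h0 hρ
  have h2 : nrm (wm lam ρ) (e + 1)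
      (fun S => if Dst Sigma.fst S then cumT (Mh lam mu) S else 0) ^ 2
      = ∑ i, ρ i * ∑ a, lam i a * nrm (wm lam ρ) e
        (fun S => if Dst Sigma.fst ((⟨i, a⟩ : Σ i, V i) ::ₘ S) then
          cumT (Mh lam mu) (⟨i, a⟩ ::ₘ S) else 0) ^ 2 := by
    rw [nrm_sq hm, I_succ, Fintype.sum_sigma]
    refine Finset.sum_congr rfl fun i _ => ?_
    rw [Finset.mul_sum]
    refine Finset.sum_congr rfl fun a _ => ?_
    rw [nrm_sq hm]
    unfold wm
    ring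
  have h3 : nrm (wm lam ρ) (e + 1)
      (fun S => if Dst Sigma.fst S then cumT (Mh lam mu) S else 0) ^ 2
      ≤ (A * ((e + 1).factorial * θ ^ e)) ^ 2 := by
    rcases Nat.eq_zero_or_pos e with rfl | he1
    · rw [h2]
      simp only [row_zero hmu, sq_abs]
      simpa using hD0
    · rw [h2]
      have h4 : ∑ i, ρ i * ∑ a, lam i a * nrm (wm lam ρ) e
          (fun S => if Dst Sigma.fst ((⟨i, a⟩ : Σ i, V i) ::ₘ S) then
            cumT (Mh lam mu) (⟨i, a⟩ ::ₘ S) else 0) ^ 2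
          = e.factorial * ∑ i, ρ i * ∑ a, lam i a * QI lam mu ρ e i a := by
        rw [Finset.mul_sum]
        refine Finset.sum_congr rfl fun i _ => ?_
        simp only [row_law (lam := lam) (mu := mu) hmu h0 h1 hρ he1 i]
        simp only [Finset.mul_sum]
        refine Finset.sum_congr rfl fun a _ => ?_
        ring
      rw [h4]
      calc _ ≤ (e.factorial : ℝ) * (A ^ 2 * (e.factorial * θ ^ (2 * e))) :=
            mul_le_mul_of_nonneg_left (hD2 e he1 hj) (Nat.cast_nonneg _)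
        _ = A ^ 2 * θ ^ (2 * e) * (e.factorial : ℝ) ^ 2 := by ring
        _ ≤ A ^ 2 * θ ^ (2 * e) * ((e + 1).factorial : ℝ) ^ 2 := by
          apply mul_le_mul_of_nonneg_left _ (by positivity)
          apply pow_le_pow_left₀ (by positivity)
          exact_mod_cast Nat.factorial_le (Nat.le_succ e)
        _ = _ := by rw [pow_mul]; ring
  exact le_of_sq_le_sq' h3 (by positivity)

end law

end Vale.Agent.P042.H232
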