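import Vale.Agent.P042.H232.BdLaw

/-!
# P042, seam [B] → [C]: the operator norm of the second cumulant
-/

set_option linter.unusedSectionVars false

namespace Vale.Agent.P042.H232

open Finset Vale.Agent.P042.H461 Vale.Agent.P042.H742
open Vale.Agent.P042.H779 (marg m1)

section gen

variable {Ω : Type*} [Fintype Ω] {ι : Type*} [Fintype ι] [DecidableEq ι] {X : Type*} (c : Ω → ι)
  (D : Finset X) (μ : X → ℝ) (U : Ω → X → ℝ)

/-- The bilinear form of the second cumulant. -/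
theorem bilin_eq (h : ∑ x ∈ D, μ x = 1) (w u v : Ω → ℝ) :
    ∑ p, ∑ q, u p * (w p * w q * cumT (mom c D μ U) (p ::ₘ q ::ₘ 0)) * v q
      = ∑ x ∈ D, μ x * ((∑ p, u p * w p * U p x) * (∑ q, v q * w q * U q x))
        - (∑ x ∈ D, μ x * ∑ p, u p * w p * U p x) * (∑ x ∈ D, μ x * ∑ q, v q * w q * U q x)
        - ∑ i, ∑ x ∈ D, μ x * ((∑ p, if c p = i then u p * w p * U p x else 0) *
            (∑ q, if c q = i then v q * w q * U q x else 0)) := by
  have hexp : ∀ (z : ℝ) (A B : Ω → ℝ), z * ((∑ p, A p) * (∑ q, B q))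
      = ∑ p, ∑ q, z * (A p * B q) := by
    intro z A B
    rw [Finset.sum_mul_sum, Finset.mul_sum]
    exact Finset.sum_congr rfl fun p _ => Finset.mul_sum _ _ _
  have h1 : ∑ x ∈ D, μ x * ((∑ p, u p * w p * U p x) * (∑ q, v q * w q * U q x))
      = ∑ p, ∑ q, u p * w p * (v q * w q) * ∑ x ∈ D, μ x * (U p x * U q x) := by
    rw [Finset.sum_congr rfl (fun x _ => hexp _ _ _), Finset.sum_comm]
    refine Finset.sum_congr rfl fun p _ => ?_
    rw [Finset.sum_comm]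
    refine Finset.sum_congr rfl fun q _ => ?_
    rw [Finset.mul_sum]
    refine Finset.sum_congr rfl fun x _ => ?_
    ring
  have h2 : ∀ (f : Ω → ℝ), ∑ x ∈ D, μ x * ∑ p, f p * w p * U p x
      = ∑ p, f p * w p * ∑ x ∈ D, μ x * U p x := by
    intro f
    simp only [Finset.mul_sum]
    rw [Finset.sum_comm]
    refine Finset.sum_congr rfl fun p _ => Finset.sum_congr rfl fun x _ => ?_
    ring
  have h3 : ∑ i, ∑ x ∈ D, μ x * ((∑ p, if c p = i then u p * w p * U p x else 0) *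
            (∑ q, if c q = i then v q * w q * U q x else 0))
      = ∑ p, ∑ q, u p * w p * (v q * w q) *
          (if c p = c q then ∑ x ∈ D, μ x * (U p x * U q x) else 0) := by
    rw [Finset.sum_comm]
    have h4 : ∀ x ∈ D, ∑ i : ι, μ x * ((∑ p, if c p = i then u p * w p * U p x else 0) *
            (∑ q, if c q = i then v q * w q * U q x else 0))
        = ∑ p, ∑ q, u p * w p * (v q * w q) * (if c p = c q then μ x * (U p x * U q x) else 0) := by
      intro x _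
      rw [Finset.sum_congr rfl (fun i _ => hexp _ _ _), Finset.sum_comm]
      refine Finset.sum_congr rfl fun p _ => ?_
      rw [Finset.sum_comm]
      refine Finset.sum_congr rfl fun q _ => ?_
      rw [Finset.sum_eq_single (c p)]
      · rw [if_pos rfl]
        by_cases hpq : c p = c q
        · rw [if_pos hpq.symm, if_pos hpq]; ring
        · rw [if_neg (Ne.symm hpq), if_neg hpq]; ring
      · intro i _ hi
        rw [if_neg (Ne.symm hi)]; ring
      · intro h; exact absurd (Finset.mem_univ _) h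
    rw [Finset.sum_congr rfl h4, Finset.sum_comm]
    refine Finset.sum_congr rfl fun p _ => ?_
    rw [Finset.sum_comm]
    refine Finset.sum_congr rfl fun q _ => ?_
    by_cases hpq : c p = c q
    · simp only [if_pos hpq, Finset.mul_sum]
    · simp only [if_neg hpq, mul_zero, Finset.sum_const_zero]
  rw [h1, h2, h2, h3, Finset.sum_mul_sum, ← Finset.sum_sub_distrib, ← Finset.sum_sub_distrib]
  refine Finset.sum_congr rfl fun p _ => ?_
  rw [← Finset.sum_sub_distrib, ← Finset.sum_sub_distrib]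
  refine Finset.sum_congr rfl fun q _ => ?_
  rw [cum_second c D μ U h]
  ring

end gen

section law

variable {ι : Type*} [Fintype ι] [DecidableEq ι] {V : ι → Type*} [∀ i, Fintype (V i)]
  [∀ i, DecidableEq (V i)] {lam : ∀ i, V i → ℝ} {mu : (∀ i, V i) → ℝ} {ρ t : ι → ℝ}

/-- mean of a one-coordinate function. -/
noncomputable def mn (mu : (∀ i, V i) → ℝ) (φ : ∀ i, V i → ℝ) (i : ι) : ℝ :=
  ∑ x, mu x * φ i (x i)

/-- integral of a function of one coordinate against the reference -/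
lemma sum_W_one (h1 : ∀ i, ∑ a, lam i a = 1) (i : ι) (f : V i → ℝ) :
    ∑ x, W lam x * f (x i) = ∑ a, lam i a * f a := by
  have := sum_W_coord h1 i (fun a (_ : ∀ i, V i) => f a) (fun _ _ _ => rfl)
  rw [← this]
  refine Finset.sum_congr rfl fun a _ => ?_
  rw [← Finset.sum_mul, sum_W h1, one_mul]

/-- Variance of a linear statistic from near-orthogonality in degree one. -/
theorem var_of_nearOrth {M : ℝ} {D0 : ℕ} (hNO : NearOrth lam t M D0 mu) (hD0 : 1 ≤ D0)
    (hmu : ∑ x, mu x = 1) (h1 : ∀ i, ∑ a, lam i a = 1) (φ : ∀ i, V i → ℝ) :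
    ∑ x, mu x * (∑ i, (φ i (x i) - mn mu φ i)) ^ 2
      ≤ M * ∑ i, (t i)⁻¹ * ∑ a, lam i a * (φ i a - mn mu φ i) ^ 2 := by
  classical
  set T : Finset ι → (∀ i, V i) → ℝ := fun D x =>
    ∑ i, if D = {i} then φ i (x i) - mn mu φ i else 0 with hT
  have hTs : ∀ i x, T {i} x = φ i (x i) - mn mu φ i := by
    intro i x
    simp only [hT, Finset.singleton_inj]
    rw [Finset.sum_eq_single i]
    · rw [if_pos rfl]
    · intro j _ hj; rw [if_neg (Ne.symm hj)]
    · intro h; exact absurd (Finset.mem_univ _) h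
  have hT0 : ∀ D x, D.card ≠ 1 → T D x = 0 := by
    intro D x hD
    simp only [hT]
    apply Finset.sum_eq_zero
    intro i _
    rw [if_neg]
    rintro rfl
    exact hD (Finset.card_singleton i)
  have hsum : ∀ G : Finset ι → ℝ, (∀ D : Finset ι, D.card ≠ 1 → G D = 0) →
      ∑ D, G D = ∑ i, G {i} := by
    intro G hG
    symm
    rw [← Finset.sum_image (f := G) (g := fun i : ι => ({i} : Finset ι)) (s := univ)]
    · apply Finset.sum_subset (Finset.subset_univ _)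
      intro D _ hD
      apply hG
      intro hc
      obtain ⟨i, rfl⟩ := Finset.card_eq_one.1 hc
      exact hD (Finset.mem_image_of_mem _ (Finset.mem_univ i))
    · intro i _ j _ hij
      exact Finset.singleton_injective hij
  have hfam : IsFam mu ∅ 1 T := by
    refine ⟨fun D hD => funext fun x => hT0 D x hD, fun D hD => absurd (by simp) hD, ?_, ?_⟩
    · intro D x y hxy
      by_cases hc : D.card = 1
      · obtain ⟨i, rfl⟩ := Finset.card_eq_one.1 hc
        rw [hTs, hTs, hxy i (by simp)]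
      · rw [hT0 D x hc, hT0 D y hc]
    · intro J hJ z
      have hJ0 : J = ∅ := Finset.card_eq_zero.1 (by omega)
      subst hJ0
      simp only [Finset.empty_subset, Finset.filter_true, Finset.piecewise_empty]
      rw [hsum (fun D => ∑ x, mu x * T D x)]
      · apply Finset.sum_eq_zero
        intro i _
        simp only [hTs, mul_sub, Finset.sum_sub_distrib]
        rw [← Finset.sum_mul, hmu, one_mul]
        exact sub_self _
      · intro D hD
        apply Finset.sum_eq_zero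
        intro x _
        rw [hT0 D x hD, mul_zero]
  by_cases hne : Nonempty (∀ i, V i)
  · obtain ⟨w⟩ := hne
    have h2 := hNO 1 ∅ w T (by simpa using hD0) hfam
    have h3 : pint mu ∅ w (fun x => (∑ D, T D x) ^ 2)
        = ∑ x, mu x * (∑ i, (φ i (x i) - mn mu φ i)) ^ 2 := by
      unfold pint
      refine Finset.sum_congr rfl fun x _ => ?_
      rw [if_pos (by simp)]
      beta_reduce
      rw [hsum (fun D => T D x) (fun D hD => hT0 D x hD)]
      simp only [hTs]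
    have h4 : H742.nrm lam t T = ∑ i, (t i)⁻¹ * ∑ a, lam i a * (φ i a - mn mu φ i) ^ 2 := by
      unfold H742.nrm
      rw [hsum (fun D => (∏ i ∈ D, t i)⁻¹ * ∑ x, W lam x * T D x ^ 2)]
      · refine Finset.sum_congr rfl fun i _ => ?_
        simp only [hTs, Finset.prod_singleton]
        rw [sum_W_one h1 i (fun a => (φ i a - mn mu φ i) ^ 2)]
      · intro D hD
        have : ∑ x, W lam x * T D x ^ 2 = 0 := by
          apply Finset.sum_eq_zero
          intro x _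
          rw [hT0 D x hD]; ring
        rw [this, mul_zero]
    rw [h3, h4] at h2
    refine h2.trans (le_of_eq ?_)
    simp [lw]
  · have hemp : IsEmpty (∀ i, V i) := not_nonempty_iff.1 hne
    simp at hmu

/-- weighted Cauchy-Schwarz -/
lemma cs_w {α : Type*} (s : Finset α) {w : α → ℝ} (hw : ∀ a ∈ s, 0 ≤ w a) (f g : α → ℝ) :
    |∑ a ∈ s, w a * (f a * g a)| ≤ √(∑ a ∈ s, w a * f a ^ 2) * √(∑ a ∈ s, w a * g a ^ 2) := by
  have h0 : 0 ≤ ∑ a ∈ s, w a * f a ^ 2 :=
    Finset.sum_nonneg fun a ha => mul_nonneg (hw a ha) (sq_nonneg _)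
  rw [← Real.sqrt_mul h0]
  apply Real.le_sqrt_of_sq_le
  rw [sq_abs]
  have := Finset.sum_mul_sq_le_sq_mul_sq s (fun a => √(w a) * f a) (fun a => √(w a) * g a)
  refine le_trans (le_of_eq ?_) (this.trans (le_of_eq ?_))
  · congr 1
    refine Finset.sum_congr rfl fun a ha => ?_
    have h2 := Real.mul_self_sqrt (hw a ha)
    calc _ = (√(w a) * √(w a)) * (f a * g a) := by rw [h2]
      _ = _ := by ring
  · congr 1 <;>
    · refine Finset.sum_congr rfl fun a ha => ?_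
      rw [mul_pow, Real.sq_sqrt (hw a ha)]

/-- the one-coordinate function attached to a vector of letters -/
noncomputable def ph (lam : ∀ i, V i → ℝ) (ρ : ι → ℝ) (u : (Σ i, V i) → ℝ) (i : ι) (b : V i) : ℝ :=
  ∑ a, u ⟨i, a⟩ * √(wm lam ρ ⟨i, a⟩) * ((if b = a then 1 else 0) / lam i a - 1)

lemma ph_eq (u : (Σ i, V i) → ℝ) (i : ι) (b : V i) :
    ph lam ρ u i b = u ⟨i, b⟩ * √(wm lam ρ ⟨i, b⟩) / lam i b
      - ∑ a, u ⟨i, a⟩ * √(wm lam ρ ⟨i, a⟩) := by
  unfold ph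
  simp only [mul_sub, mul_one, Finset.sum_sub_distrib]
  congr 1
  rw [Finset.sum_eq_single b]
  · rw [if_pos rfl]; ring
  · intro a _ ha
    rw [if_neg (Ne.symm ha)]; ring
  · intro h; exact absurd (Finset.mem_univ _) h

lemma lam_mul (u : (Σ i, V i) → ℝ) (i : ι) (b : V i) :
    lam i b * (u ⟨i, b⟩ * √(wm lam ρ ⟨i, b⟩) / lam i b) = u ⟨i, b⟩ * √(wm lam ρ ⟨i, b⟩) := by
  by_cases h : lam i b = 0
  · have : wm lam ρ ⟨i, b⟩ = 0 := by simp [wm, h]
    rw [this, Real.sqrt_zero, h]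
    ring
  · field_simp

lemma ph_mean (h1 : ∀ i, ∑ a, lam i a = 1) (u : (Σ i, V i) → ℝ) (i : ι) :
    ∑ b, lam i b * ph lam ρ u i b = 0 := by
  simp only [ph_eq, mul_sub, lam_mul, Finset.sum_sub_distrib]
  rw [← Finset.sum_mul, h1, one_mul, sub_self]

lemma ph_norm (h0 : ∀ i a, 0 ≤ lam i a) (h1 : ∀ i, ∑ a, lam i a = 1) (hρ : ∀ i, 0 ≤ ρ i)
    (u : (Σ i, V i) → ℝ) (i : ι) :
    ∑ b, lam i b * ph lam ρ u i b ^ 2 ≤ ρ i * ∑ a, u ⟨i, a⟩ ^ 2 := by
  set s := ∑ a, u ⟨i, a⟩ * √(wm lam ρ ⟨i, a⟩) with hs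
  have h2 : ∑ b, lam i b * ph lam ρ u i b ^ 2
      = ∑ b, lam i b * (u ⟨i, b⟩ * √(wm lam ρ ⟨i, b⟩) / lam i b) ^ 2 - s ^ 2 := by
    have h3 : ∀ b, lam i b * ph lam ρ u i b ^ 2
        = lam i b * (u ⟨i, b⟩ * √(wm lam ρ ⟨i, b⟩) / lam i b) ^ 2
          - 2 * s * (u ⟨i, b⟩ * √(wm lam ρ ⟨i, b⟩)) + s ^ 2 * lam i b := by
      intro b
      rw [ph_eq, ← hs]
      have := lam_mul (lam := lam) (ρ := ρ) u i b
      calc _ = lam i b * (u ⟨i, b⟩ * √(wm lam ρ ⟨i, b⟩) / lam i b) ^ 2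
          - 2 * s * (lam i b * (u ⟨i, b⟩ * √(wm lam ρ ⟨i, b⟩) / lam i b))
            + s ^ 2 * lam i b := by ring
        _ = _ := by rw [this]
    simp only [h3]
    rw [Finset.sum_add_distrib, Finset.sum_sub_distrib, ← Finset.mul_sum, ← Finset.mul_sum, h1,
      ← hs]
    ring
  rw [h2]
  have h4 : ∑ b, lam i b * (u ⟨i, b⟩ * √(wm lam ρ ⟨i, b⟩) / lam i b) ^ 2
      ≤ ρ i * ∑ a, u ⟨i, a⟩ ^ 2 := by
    rw [Finset.mul_sum]
    refine Finset.sum_le_sum fun b _ => ?_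
    by_cases h : lam i b = 0
    · rw [h]
      simp only [zero_mul]
      exact mul_nonneg (hρ i) (sq_nonneg _)
    · apply le_of_eq
      rw [div_pow, mul_pow, Real.sq_sqrt (wm_nonneg h0 hρ _)]
      unfold wm
      field_simp
  nlinarith [sq_nonneg s]

/-- `∑ mu x f (x_i) ≤ M ∑ lam f` for nonnegative `f`. -/
lemma one_le {M : ℝ} (hM : ∀ i a, m1 mu i a ≤ M * lam i a) (i : ι) {f : V i → ℝ}
    (hf : ∀ a, 0 ≤ f a) : ∑ x, mu x * f (x i) ≤ M * ∑ a, lam i a * f a := by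
  have h1 : ∑ x, mu x * f (x i) = ∑ a, m1 mu i a * f a := by
    unfold m1
    simp only [Finset.sum_mul]
    rw [Finset.sum_comm]
    refine Finset.sum_congr rfl fun x _ => ?_
    rw [Finset.sum_eq_single (x i)]
    · rw [if_pos rfl]
    · intro a _ ha; rw [if_neg (Ne.symm ha), zero_mul]
    · intro h; exact absurd (Finset.mem_univ _) h
  rw [h1, Finset.mul_sum]
  refine Finset.sum_le_sum fun a _ => ?_
  rw [← mul_assoc]
  exact mul_le_mul_of_nonneg_right (hM i a) (hf a)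

/-- **Operator norm of the second cumulant.** -/
theorem op_law {M : ℝ} {D0 : ℕ} (hNO : NearOrth lam t M D0 mu) (hD0 : 1 ≤ D0)
    (hmu0 : ∀ x, 0 ≤ mu x) (hmu : ∑ x, mu x = 1) (h0 : ∀ i a, 0 ≤ lam i a)
    (h1 : ∀ i, ∑ a, lam i a = 1) (hρ : ∀ i, 0 ≤ ρ i) (ht : ∀ i, 0 < t i) (hM0 : 0 ≤ M)
    (hM : ∀ i a, m1 mu i a ≤ M * lam i a) {η η' : ℝ} (hη0 : 0 ≤ η) (hη0' : 0 ≤ η')
    (hη : ∀ i, ρ i ≤ η * t i) (hη' : ∀ i, ρ i ≤ η') (u v : (Σ i, V i) → ℝ) :
    |∑ p, ∑ q, u p * (√(wm lam ρ p) * √(wm lam ρ q) *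
        cumT (Mh lam mu) (p ::ₘ q ::ₘ 0)) * v q|
      ≤ (M * (1 + M) * η + M * η') * √(∑ p, u p ^ 2) * √(∑ q, v q ^ 2) := by
  have hb := bilin_eq (Sigma.fst : (Σ i, V i) → ι) univ mu (uh lam) hmu
    (fun p => √(wm lam ρ p)) u v
  -- the statistics are sums of one-coordinate functions
  have hPh : ∀ (u : (Σ i, V i) → ℝ) (i : ι) (x : ∀ i, V i),
      (∑ p : Σ i, V i, if p.1 = i then u p * √(wm lam ρ p) * uh lam p x else 0)
        = ph lam ρ u i (x i) := by
    intro u i x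
    rw [Fintype.sum_sigma, Finset.sum_eq_single i]
    · unfold ph uh ug
      refine Finset.sum_congr rfl fun a _ => ?_
      rw [if_pos rfl]
    · intro j _ hj
      apply Finset.sum_eq_zero
      intro a _
      rw [if_neg hj]
    · intro h; exact absurd (Finset.mem_univ _) h
  have hPs : ∀ (u : (Σ i, V i) → ℝ) (x : ∀ i, V i),
      ∑ p : Σ i, V i, u p * √(wm lam ρ p) * uh lam p x = ∑ i, ph lam ρ u i (x i) := by
    intro u x
    rw [← Finset.sum_congr rfl (fun i _ => hPh u i x), Finset.sum_comm]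
    refine Finset.sum_congr rfl fun p _ => ?_
    rw [Finset.sum_eq_single p.1]
    · rw [if_pos rfl]
    · intro i _ hi; rw [if_neg (Ne.symm hi)]
    · intro h; exact absurd (Finset.mem_univ _) h
  simp only [hPh, hPs] at hb
  -- sums of squares
  have hsig : ∀ u : (Σ i, V i) → ℝ, ∑ p, u p ^ 2 = ∑ i, ∑ a, u ⟨i, a⟩ ^ 2 := by
    intro u; rw [Fintype.sum_sigma]
  have hsi : ∀ (u : (Σ i, V i) → ℝ) (i : ι), 0 ≤ ∑ a, u ⟨i, a⟩ ^ 2 := fun u i =>
    Finset.sum_nonneg fun _ _ => sq_nonneg _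
  have hsq : ∀ u : (Σ i, V i) → ℝ, 0 ≤ ∑ p, u p ^ 2 := fun u =>
    Finset.sum_nonneg fun _ _ => sq_nonneg _
  -- second moments of the one-coordinate functions
  have hE2 : ∀ (u : (Σ i, V i) → ℝ) (i : ι), ∑ x, mu x * ph lam ρ u i (x i) ^ 2
      ≤ M * (ρ i * ∑ a, u ⟨i, a⟩ ^ 2) := by
    intro u i
    refine (one_le hM i (f := fun a => ph lam ρ u i a ^ 2) (fun a => sq_nonneg _)).trans ?_
    exact mul_le_mul_of_nonneg_left (ph_norm h0 h1 hρ u i) hM0
  have hmn : ∀ (u : (Σ i, V i) → ℝ) (i : ι), mn mu (ph lam ρ u) i ^ 2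
      ≤ M * (ρ i * ∑ a, u ⟨i, a⟩ ^ 2) := by
    intro u i
    refine le_trans ?_ (hE2 u i)
    have h3 := cs_w (univ : Finset (∀ i, V i)) (w := mu) (fun x _ => hmu0 x) (fun _ => 1)
      (fun x => ph lam ρ u i (x i))
    simp only [one_pow, mul_one, one_mul, hmu, Real.sqrt_one] at h3
    have h4 : mn mu (ph lam ρ u) i ^ 2 = |∑ x, mu x * ph lam ρ u i (x i)| ^ 2 := by
      rw [sq_abs]; rfl
    rw [h4]
    have h5 : 0 ≤ ∑ x, mu x * ph lam ρ u i (x i) ^ 2 :=
      Finset.sum_nonneg fun x _ => mul_nonneg (hmu0 x) (sq_nonneg _)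
    calc _ ≤ (√(∑ x, mu x * ph lam ρ u i (x i) ^ 2)) ^ 2 :=
          pow_le_pow_left₀ (abs_nonneg _) h3 2
      _ = _ := Real.sq_sqrt h5
  -- variance
  have hVar : ∀ (u : (Σ i, V i) → ℝ),
      ∑ x, mu x * (∑ i, (ph lam ρ u i (x i) - mn mu (ph lam ρ u) i)) ^ 2
        ≤ (M * (1 + M) * η) * ∑ p, u p ^ 2 := by
    intro u
    refine (var_of_nearOrth hNO hD0 hmu h1 (ph lam ρ u)).trans ?_
    rw [hsig, mul_assoc, mul_assoc]
    apply mul_le_mul_of_nonneg_left _ hM0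
    rw [Finset.mul_sum, Finset.mul_sum]
    refine Finset.sum_le_sum fun i _ => ?_
    have h3 : ∑ a, lam i a * (ph lam ρ u i a - mn mu (ph lam ρ u) i) ^ 2
        ≤ (1 + M) * (ρ i * ∑ a, u ⟨i, a⟩ ^ 2) := by
      have h4 : ∑ a, lam i a * (ph lam ρ u i a - mn mu (ph lam ρ u) i) ^ 2
          = ∑ a, lam i a * ph lam ρ u i a ^ 2 + mn mu (ph lam ρ u) i ^ 2 := by
        have h5 : ∀ a, lam i a * (ph lam ρ u i a - mn mu (ph lam ρ u) i) ^ 2
            = lam i a * ph lam ρ u i a ^ 2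
              - 2 * mn mu (ph lam ρ u) i * (lam i a * ph lam ρ u i a)
              + mn mu (ph lam ρ u) i ^ 2 * lam i a := by
          intro a; ring
        simp only [h5]
        rw [Finset.sum_add_distrib, Finset.sum_sub_distrib, ← Finset.mul_sum, ← Finset.mul_sum,
          h1, ph_mean h1]
        ring
      rw [h4]
      have := ph_norm h0 h1 hρ u i
      have := hmn u i
      linarith
    have h6 : (t i)⁻¹ * ((1 + M) * (ρ i * ∑ a, u ⟨i, a⟩ ^ 2))
        ≤ (1 + M) * (η * ∑ a, u ⟨i, a⟩ ^ 2) := by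
      have h7 : (t i)⁻¹ * ρ i ≤ η := by
        rw [inv_mul_le_iff₀ (ht i)]
        linarith [hη i]
      calc _ = ((t i)⁻¹ * ρ i) * ((1 + M) * ∑ a, u ⟨i, a⟩ ^ 2) := by ring
        _ ≤ η * ((1 + M) * ∑ a, u ⟨i, a⟩ ^ 2) :=
          mul_le_mul_of_nonneg_right h7 (mul_nonneg (by linarith) (hsi u i))
        _ = _ := by ring
    refine (mul_le_mul_of_nonneg_left h3 (inv_nonneg.2 (ht i).le)).trans (h6.trans (le_of_eq ?_))
    ring
  -- covariance
  have hCov : |∑ x, mu x * ((∑ i, ph lam ρ u i (x i)) * (∑ i, ph lam ρ v i (x i)))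
      - (∑ x, mu x * ∑ i, ph lam ρ u i (x i)) * (∑ x, mu x * ∑ i, ph lam ρ v i (x i))|
      ≤ (M * (1 + M) * η) * (√(∑ p, u p ^ 2) * √(∑ q, v q ^ 2)) := by
    have hc : ∀ u : (Σ i, V i) → ℝ, ∑ x, mu x * ∑ i, ph lam ρ u i (x i)
        = ∑ i, mn mu (ph lam ρ u) i := by
      intro u
      unfold mn
      simp only [Finset.mul_sum]
      rw [Finset.sum_comm]
    have h3 : ∑ x, mu x * ((∑ i, ph lam ρ u i (x i)) * (∑ i, ph lam ρ v i (x i)))
      - (∑ x, mu x * ∑ i, ph lam ρ u i (x i)) * (∑ x, mu x * ∑ i, ph lam ρ v i (x i))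
        = ∑ x, mu x * ((∑ i, (ph lam ρ u i (x i) - mn mu (ph lam ρ u) i))
          * (∑ i, (ph lam ρ v i (x i) - mn mu (ph lam ρ v) i))) := by
      have h4 : ∀ x, mu x * ((∑ i, (ph lam ρ u i (x i) - mn mu (ph lam ρ u) i))
          * (∑ i, (ph lam ρ v i (x i) - mn mu (ph lam ρ v) i)))
          = mu x * ((∑ i, ph lam ρ u i (x i)) * (∑ i, ph lam ρ v i (x i)))
            - (∑ i, mn mu (ph lam ρ v) i) * (mu x * ∑ i, ph lam ρ u i (x i))
            - (∑ i, mn mu (ph lam ρ u) i) * (mu x * ∑ i, ph lam ρ v i (x i))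
            + (∑ i, mn mu (ph lam ρ u) i) * (∑ i, mn mu (ph lam ρ v) i) * mu x := by
        intro x
        rw [Finset.sum_sub_distrib, Finset.sum_sub_distrib]
        ring
      simp only [h4]
      rw [Finset.sum_add_distrib, Finset.sum_sub_distrib, Finset.sum_sub_distrib,
        ← Finset.mul_sum, ← Finset.mul_sum, ← Finset.mul_sum, hmu, hc, hc]
      ring
    rw [h3]
    refine (cs_w univ (fun x _ => hmu0 x) _ _).trans ?_
    have hcoef : 0 ≤ M * (1 + M) * η := by positivity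
    calc _ ≤ √((M * (1 + M) * η) * ∑ p, u p ^ 2) * √((M * (1 + M) * η) * ∑ q, v q ^ 2) :=
          mul_le_mul (Real.sqrt_le_sqrt (hVar u)) (Real.sqrt_le_sqrt (hVar v))
            (Real.sqrt_nonneg _) (Real.sqrt_nonneg _)
      _ = (√(M * (1 + M) * η) * √(M * (1 + M) * η)) * (√(∑ p, u p ^ 2) * √(∑ q, v q ^ 2)) := by
          rw [Real.sqrt_mul hcoef, Real.sqrt_mul hcoef]; ring
      _ = _ := by rw [Real.mul_self_sqrt hcoef]
  -- the diagonal terms
  have hDiag : |∑ i, ∑ x, mu x * (ph lam ρ u i (x i) * ph lam ρ v i (x i))|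
      ≤ (M * η') * (√(∑ p, u p ^ 2) * √(∑ q, v q ^ 2)) := by
    have h3 : ∀ i, |∑ x, mu x * (ph lam ρ u i (x i) * ph lam ρ v i (x i))|
        ≤ (M * η') * (√(∑ a, u ⟨i, a⟩ ^ 2) * √(∑ a, v ⟨i, a⟩ ^ 2)) := by
      intro i
      refine (cs_w univ (fun x _ => hmu0 x) _ _).trans ?_
      have h4 : ∀ u : (Σ i, V i) → ℝ, √(∑ x, mu x * ph lam ρ u i (x i) ^ 2)
          ≤ √(M * η') * √(∑ a, u ⟨i, a⟩ ^ 2) := by
        intro u
        rw [← Real.sqrt_mul (mul_nonneg hM0 hη0')]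
        apply Real.sqrt_le_sqrt
        refine (hE2 u i).trans ?_
        rw [mul_assoc]
        apply mul_le_mul_of_nonneg_left _ hM0
        exact mul_le_mul_of_nonneg_right (hη' i) (hsi u i)
      calc _ ≤ (√(M * η') * √(∑ a, u ⟨i, a⟩ ^ 2)) * (√(M * η') * √(∑ a, v ⟨i, a⟩ ^ 2)) :=
            mul_le_mul (h4 u) (h4 v) (Real.sqrt_nonneg _)
              (mul_nonneg (Real.sqrt_nonneg _) (Real.sqrt_nonneg _))
        _ = (√(M * η') * √(M * η')) * (√(∑ a, u ⟨i, a⟩ ^ 2) * √(∑ a, v ⟨i, a⟩ ^ 2)) := by ring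
        _ = _ := by rw [Real.mul_self_sqrt (mul_nonneg hM0 hη0')]
    refine (Finset.abs_sum_le_sum_abs _ _).trans ((Finset.sum_le_sum fun i _ => h3 i).trans ?_)
    rw [← Finset.mul_sum]
    apply mul_le_mul_of_nonneg_left _ (mul_nonneg hM0 hη0')
    have h5 := cs_w (univ : Finset ι) (w := fun _ => 1) (fun _ _ => zero_le_one)
      (fun i => √(∑ a, u ⟨i, a⟩ ^ 2)) (fun i => √(∑ a, v ⟨i, a⟩ ^ 2))
    simp only [one_mul] at h5
    refine (le_abs_self _).trans (h5.trans (le_of_eq ?_))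
    rw [hsig, hsig]
    congr 2
    · exact Finset.sum_congr rfl fun i _ => Real.sq_sqrt (hsi u i)
    · exact Finset.sum_congr rfl fun i _ => Real.sq_sqrt (hsi v i)
  have hfin : ∑ p, ∑ q, u p * (√(wm lam ρ p) * √(wm lam ρ q) *
        cumT (Mh lam mu) (p ::ₘ q ::ₘ 0)) * v q
      = (∑ x, mu x * ((∑ i, ph lam ρ u i (x i)) * (∑ i, ph lam ρ v i (x i)))
      - (∑ x, mu x * ∑ i, ph lam ρ u i (x i)) * (∑ x, mu x * ∑ i, ph lam ρ v i (x i)))
      - ∑ i, ∑ x, mu x * (ph lam ρ u i (x i) * ph lam ρ v i (x i)) := hb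
  rw [hfin]
  refine (abs_sub _ _).trans ?_
  rw [mul_assoc, add_mul]
  exact add_le_add hCov hDiag

end law

end Vale.Agent.P042.H232
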