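import Vale.Agent.P042.H232.OpT
import Vale.Agent.P042.H365.TLaw

/-!
# P042, seam [B] → [C], typed: rows and rooted totals of the extended letters

The bounds of helper365's `BHyp` for the letters of a law, transferred to the letters enlarged by a
constant letter at every coordinate; typed norms of `Tn` for helper284's `BdT`.
-/

set_option linter.unusedSectionVars false

namespace Vale.Agent.P042.H232

open Finset Vale.Agent.P042.H461 Vale.Agent.P042.H742 Vale.Agent.P042.H365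
open Vale.Agent.P042.H779 (marg m1)
open Vale.Agent.P042.H284 (BV Lt pr pr_nonneg pr_perm BdT)
open Vale.Agent.P042.H416

section ext

variable {ι : Type*} [Fintype ι] [DecidableEq ι] {V : ι → Type*} [∀ i, Fintype (V i)]
  [∀ i, DecidableEq (V i)] {lam : ∀ i, V i → ℝ} {mu : (∀ i, V i) → ℝ}
  {r t M R E E' : ι → ℝ} {L Λ' ε κ δ : ℝ} {D0 : ℕ}

/-- `Tn` is `scal`. -/
theorem tn_eq_scal : Tn lam mu R E = scal (wo lam R E) (cumT (Mo lam mu)) := rfl

/-- The distinct row of the extended letters. -/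
noncomputable def rowo (lam : ∀ i, V i → ℝ) (mu : (∀ i, V i) → ℝ)
    (m : (Σ i, Option (V i)) → ℝ) (e : ℕ) (ω : Σ i, Option (V i)) : ℝ :=
  nrm m e (fun S => if Dst Sigma.fst (ω ::ₘ S) then cumT (Mo lam mu) (ω ::ₘ S) else 0)

/-- The distinct row of the letters. -/
noncomputable def rowh (lam : ∀ i, V i → ℝ) (mu : (∀ i, V i) → ℝ)
    (m : (Σ i, V i) → ℝ) (e : ℕ) (ω : Σ i, V i) : ℝ :=
  nrm m e (fun S => if Dst Sigma.fst (ω ::ₘ S) then cumT (Mh lam mu) (ω ::ₘ S) else 0)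

theorem rowo_em (h : ∑ x, mu x = 1) (e : ℕ) (ω : Σ i, V i) :
    rowo lam mu (wo lam r E) e (em ω) = rowh lam mu (wm lam r) e ω :=
  nrm_Mo_em h (wo lam r E) ω e

theorem rowo_no (h : ∑ x, mu x = 1) (e : ℕ) (i : ι) :
    rowo lam mu (wo lam r E) e (no i) = if e = 0 then 1 else 0 := by
  by_cases he : e = 0
  · subst he
    rw [if_pos rfl]
    exact nrm_Mo_no_zero h _ i
  · rw [if_neg he]
    exact nrm_Mo_no h _ i (by omega)

/-- Sums over the extended letters of a set of coordinates. -/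
theorem sum_VV {Λ : Type*} {sc : ι → Λ} [DecidableEq Λ] {VV : Λ → Finset (Σ i, Option (V i))}
    (hV : ∀ l ω, ω ∈ VV l ↔ sc ω.1 = l) (l : Λ) (f : (Σ i, Option (V i)) → ℝ) :
    ∑ ω ∈ VV l, f ω = ∑ i with sc i = l, (f (no i) + ∑ a, f (em ⟨i, a⟩)) := by
  have hVV : VV l = (univ.filter fun i => sc i = l).sigma fun _ => univ := by
    ext ω
    rw [hV, Finset.mem_sigma]
    simp
  rw [hVV, Finset.sum_sigma]
  refine Finset.sum_congr rfl fun i _ => ?_
  rw [Fintype.sum_option]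
  rfl

/-- **Rooted total of the extended letters.** -/
theorem root_ext (h : ∑ x, mu x = 1) {Λ : Type*} {sc : ι → Λ} [DecidableEq Λ]
    {VV : Λ → Finset (Σ i, Option (V i))} (hV : ∀ l ω, ω ∈ VV l ↔ sc ω.1 = l) (l : Λ) (e : ℕ) :
    ∑ ω ∈ VV l, wo lam R E ω * rowo lam mu (wo lam r E') e ω ^ 2
      = (∑ i with sc i = l, R i * ∑ a, lam i a * rowh lam mu (wm lam r) e ⟨i, a⟩ ^ 2)
        + if e = 0 then ∑ i with sc i = l, E i else 0 := by
  rw [sum_VV hV]
  have h1 : ∀ i, wo lam R E (no i) * rowo lam mu (wo lam r E') e (no i) ^ 2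
      + ∑ a, wo lam R E (em ⟨i, a⟩) * rowo lam mu (wo lam r E') e (em ⟨i, a⟩) ^ 2
      = R i * (∑ a, lam i a * rowh lam mu (wm lam r) e ⟨i, a⟩ ^ 2)
        + (if e = 0 then E i else 0) := by
    intro i
    rw [rowo_no h, add_comm]
    congr 1
    · rw [Finset.mul_sum]
      refine Finset.sum_congr rfl fun a _ => ?_
      rw [rowo_em h, wo_em]
      unfold wm
      ring
    · by_cases he : e = 0 <;> simp [he]
  rw [Finset.sum_congr rfl fun i _ => h1 i, Finset.sum_add_distrib]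
  congr 1
  by_cases he : e = 0 <;> simp [he]

/-- **The system of rows of the extended letters.** -/
theorem sys_ext (h : BHyp lam mu t M L Λ' ε κ δ D0) (hr0 : ∀ i, 0 ≤ r i)
    (hr : ∀ i, r i ≤ t i / M i) (hE : ∀ i, 0 ≤ E i) {b0 : ℕ} (hb : b0 + 1 ≤ D0) {s : ℝ}
    (hs0 : 0 ≤ s) (hs : ∀ i, 4 * M i ^ 2 * (r i + E i) ≤ s ^ 2) (hsm : 8 * b0 * s ≤ √D0) :
    Sys Sigma.fst (cumT (Mo lam mu)) (wo lam r E) (fun ω : Σ i, Option (V i) => 2 * M ω.1) s
      (√D0) b0 where
  m0 := wo_nonneg h.ref.nonneg hr0 hE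
  K0 := fun ω => by have := h.M1 ω.1; linarith
  s0 := hs0
  th := Real.sqrt_nonneg _
  small := hsm
  coord := by
    rintro ⟨i, a⟩
    rw [Fintype.sum_sigma, Finset.sum_eq_single i]
    · simp only [if_true, one_mul]
      rw [Fintype.sum_option]
      have h1 : ∑ a : V i, wo lam r E ⟨i, some a⟩ * (2 * M i) ^ 2 = 4 * M i ^ 2 * r i := by
        have : ∀ a : V i, wo lam r E ⟨i, some a⟩ * (2 * M i) ^ 2
            = lam i a * (4 * M i ^ 2 * r i) := by
          intro a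
          show lam i a * r i * (2 * M i) ^ 2 = _
          ring
        rw [Finset.sum_congr rfl fun a _ => this a, ← Finset.sum_mul, h.ref.sum_one, one_mul]
      rw [h1]
      refine le_trans (le_of_eq ?_) (hs i)
      show E i * (2 * M i) ^ 2 + 4 * M i ^ 2 * r i = _
      ring
    · intro j _ hj
      apply Finset.sum_eq_zero
      intro b _
      rw [if_neg hj, zero_mul]
    · intro h; exact absurd (Finset.mem_univ _) h
  row := by
    intro e he ω
    have key : ∀ ω, rowo lam mu (wo lam r E) e ω ≤ 2 * M ω.1 * (e.factorial * (√D0) ^ e) := by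
      rintro ⟨i, a⟩
      have hM := h.M1 i
      cases a with
      | none =>
        have := rowo_no (lam := lam) (r := r) (E := E) h.sum e i
        rw [show (⟨i, none⟩ : Σ i, Option (V i)) = no i from rfl, this]
        by_cases he0 : e = 0
        · subst he0
          simp only [if_true, Nat.factorial_zero, Nat.cast_one, pow_zero, mul_one]
          show (1 : ℝ) ≤ 2 * M i
          linarith
        · rw [if_neg he0]
          have : (0 : ℝ) ≤ 2 * M i := by linarith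
          exact mul_nonneg this (by positivity)
      | some a =>
        have := rowo_em (lam := lam) (r := r) (E := E) h.sum e ⟨i, a⟩
        rw [show (⟨i, some a⟩ : Σ i, Option (V i)) = em ⟨i, a⟩ from rfl, this]
        exact h.row_le hr0 hr (by omega) ⟨i, a⟩
    exact key ω

/-- **Typed norms of the extended letters from the rows only.** -/
theorem typ_ext_rows (h : BHyp lam mu t M L Λ' ε κ δ D0) (hr0 : ∀ i, 0 ≤ r i)
    (hr : ∀ i, r i ≤ t i / M i) (hE' : ∀ i, 0 ≤ E' i) {b0 : ℕ} (hb : b0 + 1 ≤ D0) {s : ℝ}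
    (hs0 : 0 ≤ s) (hs : ∀ i, 4 * M i ^ 2 * (r i + E' i) ≤ s ^ 2) (hsm : 8 * b0 * s ≤ √D0)
    {Λ : Type*} {sc : ι → Λ} [DecidableEq Λ] {VV : Λ → Finset (Σ i, Option (V i))}
    (hV : ∀ l ω, ω ∈ VV l ↔ sc ω.1 = l) (hR : ∀ i, 0 ≤ R i) (hE : ∀ i, 0 ≤ E i) {q : Λ → ℝ}
    (hq : ∀ l, 0 ≤ q l) {l : Λ} {τ : List Λ} (hlen : τ.length ≤ b0)
    (hqR : ∀ i, sc i ∈ τ → R i ≤ q (sc i) * r i) (hqE : ∀ i, sc i ∈ τ → E i ≤ q (sc i) * E' i)
    {A : ℝ} (hA : 0 ≤ A) (hK : ∑ i with sc i = l, 4 * M i ^ 2 * (R i + E i) ≤ A ^ 2) :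
    ∑ ω ∈ Lt VV (l :: τ), Tn lam mu R E (ω : Multiset _) ^ 2 ≤
      pr q τ * (2 * A * (τ.length.factorial * (√D0) ^ τ.length)) ^ 2 := by
  refine typ_bound_rows (isCumC_Mo h.sum) (sys_ext h hr0 hr hE' hb hs0 hs hsm)
    (wo_nonneg h.ref.nonneg hR hE) hq ?_ hlen hA ?_
  · rintro l' hl' ⟨i, a⟩ ha
    have hi : sc i = l' := (hV _ _).1 ha
    subst hi
    cases a with
    | none => exact hqE i hl'
    | some a =>
      show lam i a * R i ≤ q (sc i) * (lam i a * r i)
      have := mul_le_mul_of_nonneg_left (hqR i hl') (h.ref.nonneg i a)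
      linarith
  · rw [sum_VV hV]
    refine le_trans (le_of_eq ?_) hK
    refine Finset.sum_congr rfl fun i _ => ?_
    have h1 : ∑ a, wo lam R E (em ⟨i, a⟩) * (2 * M (em (⟨i, a⟩ : Σ i, V i)).1) ^ 2
        = 4 * M i ^ 2 * R i := by
      have : ∀ a : V i, wo lam R E (em ⟨i, a⟩) * (2 * M (em (⟨i, a⟩ : Σ i, V i)).1) ^ 2
          = lam i a * (4 * M i ^ 2 * R i) := by
        intro a
        show lam i a * R i * (2 * M i) ^ 2 = _
        ring
      rw [Finset.sum_congr rfl fun a _ => this a, ← Finset.sum_mul, h.ref.sum_one, one_mul]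
    rw [h1]
    show E i * (2 * M i) ^ 2 + _ = _
    ring

/-- **Typed norms of the extended letters, root with a rooted total.** -/
theorem typ_ext_root (h : BHyp lam mu t M L Λ' ε κ δ D0) (hr0 : ∀ i, 0 ≤ r i)
    (hr : ∀ i, r i ≤ t i / M i) (hE' : ∀ i, 0 ≤ E' i) {b0 : ℕ} (hb : b0 + 1 ≤ D0) {s : ℝ}
    (hs0 : 0 ≤ s) (hs : ∀ i, 4 * M i ^ 2 * (r i + E' i) ≤ s ^ 2) (hsm : 8 * b0 * s ≤ √D0)
    {Λ : Type*} {sc : ι → Λ} [DecidableEq Λ] {VV : Λ → Finset (Σ i, Option (V i))}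
    (hV : ∀ l ω, ω ∈ VV l ↔ sc ω.1 = l) (hR : ∀ i, 0 ≤ R i) (hE : ∀ i, 0 ≤ E i) {q : Λ → ℝ}
    (hq : ∀ l, 0 ≤ q l) {l : Λ} {τ : List Λ} (hlen : τ.length ≤ b0)
    (hqR : ∀ i, sc i ∈ τ → R i ≤ q (sc i) * r i) (hqE : ∀ i, sc i ∈ τ → E i ≤ q (sc i) * E' i)
    {A PP : ℝ} (hA : 0 ≤ A)
    (h0 : ∑ i with sc i = l, (R i * ∑ a, lam i a * g1 lam mu i a ^ 2 + E i) ≤ A ^ 2)
    (hPP : ∑ i with sc i = l, R i * M i * ∑ a, m1 mu i a * Iia t mu i a ≤ PP)
    (hPA : 12 * PP ≤ A ^ 2) :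
    ∑ ω ∈ Lt VV (l :: τ), Tn lam mu R E (ω : Multiset _) ^ 2 ≤
      pr q τ * (2 * A * (τ.length.factorial * (√D0) ^ τ.length)) ^ 2 := by
  refine typ_bound (isCumC_Mo h.sum) (sys_ext h hr0 hr hE' hb hs0 hs hsm)
    (wo_nonneg h.ref.nonneg hR hE) hq ?_ hlen hA ?_
  · rintro l' hl' ⟨i, a⟩ ha
    have hi : sc i = l' := (hV _ _).1 ha
    subst hi
    cases a with
    | none => exact hqE i hl'
    | some a =>
      show lam i a * R i ≤ q (sc i) * (lam i a * r i)
      have := mul_le_mul_of_nonneg_left (hqR i hl') (h.ref.nonneg i a)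
      linarith
  · intro e he
    have h1 : ∑ ω ∈ VV l, wo lam R E ω * rowo lam mu (wo lam r E') e ω ^ 2
        ≤ (A * (e.factorial * (√D0) ^ e)) ^ 2 := by
      rw [root_ext h.sum hV]
      rcases Nat.eq_zero_or_pos e with rfl | he0
      · rw [if_pos rfl]
        simp only [Nat.factorial_zero, Nat.cast_one, pow_zero, mul_one]
        refine le_trans (le_of_eq ?_) h0
        rw [Finset.sum_add_distrib]
        congr 1
        refine Finset.sum_congr rfl fun i _ => ?_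
        congr 1
        refine Finset.sum_congr rfl fun a _ => ?_
        unfold rowh
        rw [H232.row_zero h.sum, sq_abs]
      · rw [if_neg (by omega), add_zero]
        have h2 := h.total_le hr0 hr (e := e) (by omega) (by omega) hR
          (S := univ.filter fun i => sc i = l) hPP
        refine h2.trans ?_
        calc 12 * PP * ((e.factorial : ℝ) * (√(D0 : ℝ)) ^ e) ^ 2
            ≤ A ^ 2 * ((e.factorial : ℝ) * (√(D0 : ℝ)) ^ e) ^ 2 :=
              mul_le_mul_of_nonneg_right hPA (sq_nonneg _)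
          _ = _ := by ring
    have h3 : 0 ≤ A * (e.factorial * (√D0) ^ e) := by positivity
    exact Real.sqrt_le_iff.2 ⟨h3, h1⟩

end ext

end Vale.Agent.P042.H232
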