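import Vale.Agent.P042.H232.Cum
import Vale.Agent.P042.H461.Ent

/-!
# P042, seam [B] → [C]: sums over tuples with distinct coordinates versus sums over sets

`Ω = Σ i, V i`; `tup B x` is the multiset `{(i, x i)}_{i ∈ B}`.
-/

set_option linter.unusedSectionVars false

namespace Vale.Agent.P042.H232

open Finset Vale.Agent.P042.H461

/-! ### moments of a finite family of functions -/

section mom

variable {Ω : Type*} {ι : Type*} [DecidableEq ι] {X : Type*}

/-- Moments of the functions `U ω` under the (finite) measure `μ`; zero on repeated coordinates. -/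
noncomputable def mom (c : Ω → ι) (D : Finset X) (μ : X → ℝ) (U : Ω → X → ℝ)
    (S : Multiset Ω) : ℝ :=
  if Dst c S then ∑ x ∈ D, μ x * (S.map (fun ω => U ω x)).prod else 0

variable (c : Ω → ι) (D : Finset X) (μ : X → ℝ) (U : Ω → X → ℝ)

lemma mom_of_dst {S : Multiset Ω} (h : Dst c S) :
    mom c D μ U S = ∑ x ∈ D, μ x * (S.map (fun ω => U ω x)).prod := if_pos h

lemma mom_of_not {S : Multiset Ω} (h : ¬ Dst c S) : mom c D μ U S = 0 := if_neg h

lemma dst_zero : Dst c (0 : Multiset Ω) := by simp [Dst]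

lemma mom_zero (h : ∑ x ∈ D, μ x = 1) : mom c D μ U 0 = 1 := by
  rw [mom_of_dst c D μ U (dst_zero c)]
  simpa using h

lemma not_dst_rep {a b : Ω} (h : c a = c b) (S : Multiset Ω) : ¬ Dst c (a ::ₘ b ::ₘ S) := by
  unfold Dst
  rw [Multiset.map_cons, Multiset.map_cons, h]
  intro h2
  exact (Multiset.nodup_cons.1 h2).1 (Multiset.mem_cons_self _ _)

/-- The cumulants of the moments. -/
theorem isCumC_mom (h : ∑ x ∈ D, μ x = 1) :
    IsCumC c (mom c D μ U) (cumT (mom c D μ U)) where
  toIsCum := isCum_cumT _ (mom_zero c D μ U h)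
  rep0 := fun _ _ S hab => mom_of_not c D μ U (not_dst_rep c hab S)

lemma dst_of_le {S S' : Multiset Ω} (h : S ≤ S') (h' : Dst c S') : Dst c S :=
  Multiset.nodup_of_le (Multiset.map_le_map h) h'

end mom

/-! ### sets versus tuples -/

section sets

variable {ι : Type*} [Fintype ι] [DecidableEq ι] {V : ι → Type*}

/-- the multiset `{(i, x i)}_{i ∈ B}` -/
def tup (B : Finset ι) (x : ∀ i, V i) : Multiset (Σ i, V i) :=
  B.val.map (fun i => (⟨i, x i⟩ : Σ i, V i))

lemma tup_empty (x : ∀ i, V i) : tup ∅ x = 0 := rfl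

lemma tup_insert {B : Finset ι} {i : ι} (hi : i ∉ B) (x : ∀ i, V i) :
    tup (insert i B) x = ⟨i, x i⟩ ::ₘ tup B x := by
  unfold tup
  rw [Finset.insert_val_of_notMem hi, Multiset.map_cons]

lemma tup_coord (B : Finset ι) (x : ∀ i, V i) : (tup B x).map Sigma.fst = B.val := by
  unfold tup
  rw [Multiset.map_map]
  simp

lemma dst_tup (B : Finset ι) (x : ∀ i, V i) : Dst (Sigma.fst) (tup B x) := by
  unfold Dst
  rw [tup_coord]
  exact B.nodup

lemma tup_card (B : Finset ι) (x : ∀ i, V i) : Multiset.card (tup B x) = B.card := by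
  simp [tup]

lemma tup_congr {B : Finset ι} {x y : ∀ i, V i} (h : ∀ i ∈ B, x i = y i) : tup B x = tup B y := by
  unfold tup
  apply Multiset.map_congr rfl
  intro i hi
  rw [h i hi]

lemma tup_update {B : Finset ι} {i : ι} (hi : i ∉ B) (x : ∀ i, V i) (a : V i) :
    tup B (Function.update x i a) = tup B x := by
  apply tup_congr
  intro j hj
  have : j ≠ i := fun h => hi (h ▸ hj)
  rw [Function.update_of_ne this]

/-- Labelled splits of `tup B x` are the subsets of `B`. -/
lemma sp_tup (B : Finset ι) (x : ∀ i, V i) (F : Multiset (Σ i, V i) → Multiset (Σ i, V i) → ℝ) :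
    sp (tup B x) F = ∑ C ∈ B.powerset, F (tup C x) (tup (B \ C) x) := by
  induction B using Finset.induction_on generalizing F with
  | empty => simp [tup_empty]
  | insert i B hi ih =>
    rw [tup_insert hi, sp_cons, ih, ih, Finset.sum_powerset_insert hi]
    congr 1
    · refine Finset.sum_congr rfl fun C hC => ?_
      have hCi : i ∉ C := fun h => hi (Finset.mem_powerset.1 hC h)
      have : insert i B \ C = insert i (B \ C) := Finset.insert_sdiff_of_notMem _ hCi
      rw [this, tup_insert (by simp [hi])]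
    · refine Finset.sum_congr rfl fun C hC => ?_
      have hCi : i ∉ C := fun h => hi (Finset.mem_powerset.1 hC h)
      have : insert i B \ insert i C = B \ C := by
        rw [Finset.insert_sdiff_insert, Finset.sdiff_insert_of_notMem hi]
      rw [this, tup_insert hCi]

/-- counting `(i, B)` versus `insert i B`. -/
lemma comb_sets (U : Finset ι) (e : ℕ) (f : Finset ι → ℝ) :
    ∑ i ∈ Uᶜ, ∑ B ∈ powersetCard e (insert i U)ᶜ, f (insert i B)
      = (e + 1) * ∑ B ∈ powersetCard (e + 1) Uᶜ, f B := by
  have h1 : (e + 1 : ℝ) * ∑ B ∈ powersetCard (e + 1) Uᶜ, f B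
      = ∑ B ∈ powersetCard (e + 1) Uᶜ, ∑ i ∈ B, f B := by
    rw [Finset.mul_sum]
    refine Finset.sum_congr rfl fun B hB => ?_
    rw [Finset.sum_const, (Finset.mem_powersetCard.1 hB).2, nsmul_eq_mul]
    push_cast
    ring
  rw [h1, Finset.sum_sigma', Finset.sum_sigma']
  refine Finset.sum_nbij' (fun p => ⟨insert p.1 p.2, p.1⟩) (fun p => ⟨p.2, p.1.erase p.2⟩)
    ?_ ?_ ?_ ?_ ?_
  · rintro ⟨i, B⟩ h
    simp only [Finset.mem_sigma, Finset.mem_powersetCard, Finset.mem_compl] at h ⊢
    obtain ⟨hi, hB, hc⟩ := h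
    have hiB : i ∉ B := fun h => by
      have := hB h
      simp at this
    refine ⟨⟨?_, ?_⟩, Finset.mem_insert_self _ _⟩
    · intro j hj
      rcases Finset.mem_insert.1 hj with rfl | hj
      · simpa using hi
      · have := hB hj
        simp only [Finset.mem_compl, Finset.mem_insert, not_or] at this ⊢
        exact this.2
    · rw [Finset.card_insert_of_notMem hiB, hc]
  · rintro ⟨B, i⟩ h
    simp only [Finset.mem_sigma, Finset.mem_powersetCard, Finset.mem_compl] at h ⊢
    obtain ⟨⟨hB, hc⟩, hi⟩ := h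
    refine ⟨by simpa using hB hi, ?_, ?_⟩
    · intro j hj
      have h1 := hB (Finset.mem_of_mem_erase hj)
      have h2 := Finset.ne_of_mem_erase hj
      simp only [Finset.mem_compl, Finset.mem_insert, not_or] at h1 ⊢
      exact ⟨h2, h1⟩
    · rw [Finset.card_erase_of_mem hi, hc]; rfl
  · rintro ⟨i, B⟩ h
    simp only [Finset.mem_sigma, Finset.mem_powersetCard, Finset.mem_compl] at h
    obtain ⟨hi, hB, hc⟩ := h
    have hiB : i ∉ B := fun h => by
      have := hB h
      simp at this
    simp [Finset.erase_insert hiB]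
  · rintro ⟨B, i⟩ h
    simp only [Finset.mem_sigma, Finset.mem_powersetCard, Finset.mem_compl] at h
    obtain ⟨⟨hB, hc⟩, hi⟩ := h
    simp [Finset.insert_erase hi]
  · rintro ⟨i, B⟩ _
    rfl

variable [∀ i, Fintype (V i)] [∀ i, DecidableEq (V i)]

/-- Fubini: average of one coordinate. -/
lemma sum_W_coord {lam : ∀ i, V i → ℝ} (h1 : ∀ i, ∑ a, lam i a = 1) (i : ι)
    (φ : V i → (∀ i, V i) → ℝ) (hφ : ∀ a z b, φ a (Function.update z i b) = φ a z) :
    ∑ a, lam i a * ∑ z, W lam z * φ a z = ∑ z, W lam z * φ (z i) z := by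
  rw [← sum_av' h1 i (fun z => φ (z i) z)]
  unfold av
  simp only [Finset.mul_sum]
  rw [Finset.sum_comm]
  refine Finset.sum_congr rfl fun z _ => Finset.sum_congr rfl fun a _ => ?_
  rw [Function.update_self, hφ]
  ring

/-- avoid the coordinates in `U` -/
def Av (U : Finset ι) (S : Multiset (Σ i, V i)) : Prop := ∀ ω ∈ S, ω.1 ∉ U

open Classical in
/-- **Tuples with distinct coordinates are sets.** -/
theorem I_sets {lam : ∀ i, V i → ℝ} (h1 : ∀ i, ∑ a, lam i a = 1) (κ : ∀ i, V i → ℝ) (e : ℕ) :
    ∀ (U : Finset ι) (G : Multiset (Σ i, V i) → ℝ),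
    I (fun ω : Σ i, V i => lam ω.1 ω.2 * κ ω.1 ω.2) e
        (fun S => if Dst Sigma.fst S ∧ Av U S then G S else 0)
      = e.factorial * ∑ B ∈ powersetCard e Uᶜ, ∑ z, W lam z * ((∏ i ∈ B, κ i (z i)) *
          G (tup B z)) := by
  induction e with
  | zero =>
    intro U G
    have : Dst Sigma.fst (0 : Multiset (Σ i, V i)) ∧ Av U (0 : Multiset (Σ i, V i)) :=
      ⟨dst_zero _, fun ω h => absurd h (Multiset.notMem_zero _)⟩
    rw [I_zero, if_pos this]
    simp only [Nat.factorial, Nat.cast_one, one_mul, Finset.powersetCard_zero,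
      Finset.sum_singleton, Finset.prod_empty, tup_empty]
    rw [← Finset.sum_mul, sum_W h1, one_mul]
  | succ e ih =>
    intro U G
    rw [I_succ]
    have h2 : ∀ ω : Σ i, V i, I (fun ω : Σ i, V i => lam ω.1 ω.2 * κ ω.1 ω.2) e
        (fun S => if Dst Sigma.fst (ω ::ₘ S) ∧ Av U (ω ::ₘ S) then G (ω ::ₘ S) else 0)
        = if ω.1 ∈ U then 0 else e.factorial * ∑ B ∈ powersetCard e (insert ω.1 U)ᶜ,
          ∑ z, W lam z * ((∏ i ∈ B, κ i (z i)) * G (ω ::ₘ tup B z)) := by
      intro ω
      by_cases hω : ω.1 ∈ U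
      · rw [if_pos hω]
        have h0 : ∀ S, (if Dst Sigma.fst (ω ::ₘ S) ∧ Av U (ω ::ₘ S) then G (ω ::ₘ S) else 0)
            = (0 : ℝ) := by
          intro S
          rw [if_neg]
          rintro ⟨_, h⟩
          exact h ω (Multiset.mem_cons_self _ _) hω
        rw [I_congr e h0, I_zero_fun]
      · rw [if_neg hω, ← ih (insert ω.1 U) (fun S => G (ω ::ₘ S))]
        refine I_congr e fun S => ?_
        have : (Dst Sigma.fst (ω ::ₘ S) ∧ Av U (ω ::ₘ S)) ↔
            (Dst Sigma.fst S ∧ Av (insert ω.1 U) S) := by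
          unfold Dst Av
          rw [Multiset.map_cons, Multiset.nodup_cons]
          constructor
          · rintro ⟨⟨h3, h4⟩, h5⟩
            refine ⟨h4, fun ω' hω' => ?_⟩
            rw [Finset.mem_insert, not_or]
            refine ⟨fun h6 => h3 ?_, h5 ω' (Multiset.mem_cons_of_mem hω')⟩
            rw [← h6]
            exact Multiset.mem_map_of_mem _ hω'
          · rintro ⟨h4, h5⟩
            refine ⟨⟨fun h3 => ?_, h4⟩, fun ω' hω' => ?_⟩
            · obtain ⟨ω', h6, h7⟩ := Multiset.mem_map.1 h3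
              exact h5 ω' h6 (by rw [h7]; exact Finset.mem_insert_self _ _)
            · rcases Multiset.mem_cons.1 hω' with rfl | h6
              · exact hω
              · exact fun h7 => h5 ω' h6 (Finset.mem_insert_of_mem h7)
        simp only [this]
    simp only [h2]
    rw [Fintype.sum_sigma]
    have h3 : ∀ i : ι, ∑ a : V i, lam i a * κ i a * (if i ∈ U then 0 else
        (e.factorial : ℝ) * ∑ B ∈ powersetCard e (insert i U)ᶜ,
          ∑ z, W lam z * ((∏ j ∈ B, κ j (z j)) * G (⟨i, a⟩ ::ₘ tup B z)))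
        = if i ∈ Uᶜ then (e.factorial : ℝ) * ∑ B ∈ powersetCard e (insert i U)ᶜ,
          ∑ z, W lam z * ((∏ j ∈ insert i B, κ j (z j)) * G (tup (insert i B) z)) else 0 := by
      intro i
      by_cases hi : i ∈ U
      · simp [hi]
      · rw [if_pos (by simpa using hi)]
        simp only [if_neg hi]
        have h4 : ∀ a : V i, lam i a * κ i a * ((e.factorial : ℝ) *
            ∑ B ∈ powersetCard e (insert i U)ᶜ,
              ∑ z, W lam z * ((∏ j ∈ B, κ j (z j)) * G (⟨i, a⟩ ::ₘ tup B z)))
            = (e.factorial : ℝ) * ∑ B ∈ powersetCard e (insert i U)ᶜ,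
              lam i a * ∑ z, W lam z * (κ i a * ((∏ j ∈ B, κ j (z j)) *
                G (⟨i, a⟩ ::ₘ tup B z))) := by
          intro a
          simp only [Finset.mul_sum]
          refine Finset.sum_congr rfl fun B _ => Finset.sum_congr rfl fun z _ => ?_
          ring
        simp only [h4]
        rw [← Finset.mul_sum, Finset.sum_comm]
        congr 1
        refine Finset.sum_congr rfl fun B hB => ?_
        have hiB : i ∉ B := fun h => by
          have := (Finset.mem_powersetCard.1 hB).1 h
          simp at this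
        rw [sum_W_coord h1 i (fun a z => κ i a * ((∏ j ∈ B, κ j (z j)) *
                G (⟨i, a⟩ ::ₘ tup B z)))]
        · refine Finset.sum_congr rfl fun z _ => ?_
          rw [Finset.prod_insert hiB, tup_insert hiB]
          ring
        · intro a z b
          rw [tup_update hiB]
          congr 2
          refine Finset.prod_congr rfl fun j hj => ?_
          have : j ≠ i := fun h => hiB (h ▸ hj)
          rw [Function.update_of_ne this]
    rw [Finset.sum_congr rfl (fun i _ => h3 i), ← Finset.sum_filter]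
    have h5 : (univ : Finset ι).filter (fun i => i ∈ Uᶜ) = Uᶜ := by ext i; simp
    rw [h5, ← Finset.mul_sum]
    rw [comb_sets U e (fun B => ∑ z, W lam z * ((∏ j ∈ B, κ j (z j)) * G (tup B z)))]
    rw [Nat.factorial_succ]
    push_cast
    ring

end sets

end Vale.Agent.P042.H232
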