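import Vale.Agent.P042.H232.Rep

/-!
# P042, seam [B] → [C]: existence of cumulants, moments of a finite law

`cumT M` is a cumulant function of an arbitrary `M` with `M 0 = 1`.
-/

namespace Vale.Agent.P042.H232

open Finset

variable {Ω : Type*}

/-- Auxiliary recursion for the cumulants (`n` is fuel). -/
def tt (M : Multiset Ω → ℝ) : ℕ → Ω → Multiset Ω → ℝ
  | 0, a, S => M (a ::ₘ S)
  | n + 1, a, S => M (a ::ₘ S) -
      sp S (fun x y => if Multiset.card y = 0 then 0 else tt M n a x * M y)

lemma tt_succ (M : Multiset Ω → ℝ) (n : ℕ) (a : Ω) (S : Multiset Ω) :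
    tt M (n + 1) a S = M (a ::ₘ S) -
      sp S (fun x y => if Multiset.card y = 0 then 0 else tt M n a x * M y) := rfl

lemma tt_stable (M : Multiset Ω → ℝ) (n : ℕ) : ∀ (a : Ω) (S : Multiset Ω), Multiset.card S ≤ n →
    tt M (n + 1) a S = tt M n a S := by
  induction n with
  | zero =>
    intro a S hS
    have : S = 0 := Multiset.card_eq_zero.1 (by omega)
    subst this
    simp [tt]
  | succ n ih =>
    intro a S hS
    rw [tt_succ, tt_succ]
    congr 1
    apply sp_congr
    intro x y hxy
    split_ifs with h0
    · rfl
    · rw [ih a x]
      have : Multiset.card x + Multiset.card y = Multiset.card S := by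
        rw [← hxy, Multiset.card_add]
      omega

lemma tt_eq (M : Multiset Ω → ℝ) (a : Ω) (S : Multiset Ω) (n : ℕ) (h : Multiset.card S ≤ n) :
    tt M n a S = tt M (Multiset.card S) a S := by
  induction n with
  | zero =>
    have : Multiset.card S = 0 := by omega
    rw [this]
  | succ n ih =>
    rcases Nat.lt_or_ge n (Multiset.card S) with h1 | h1
    · have : Multiset.card S = n + 1 := by omega
      rw [this]
    · rw [tt_stable M n a S h1, ih h1]

/-- The cumulant with a distinguished element. -/
def tc (M : Multiset Ω → ℝ) (a : Ω) (S : Multiset Ω) : ℝ := tt M (Multiset.card S) a S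

lemma tc_rec (M : Multiset Ω → ℝ) (hM : M 0 = 1) (a : Ω) (S : Multiset Ω) :
    M (a ::ₘ S) = sp S (fun x y => tc M a x * M y) := by
  have h1 : tc M a S = M (a ::ₘ S) -
      sp S (fun x y => if Multiset.card y = 0 then 0 else tc M a x * M y) := by
    unfold tc
    rw [← tt_eq M a S (Multiset.card S + 1) (by omega), tt_succ]
    congr 1
    apply sp_congr
    intro x y hxy
    split_ifs with h0
    · rfl
    · rw [tt_eq M a x (Multiset.card S)]
      have : Multiset.card x + Multiset.card y = Multiset.card S := by
        rw [← hxy, Multiset.card_add]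
      omega
  have h2 : sp S (fun x y => tc M a x * M y)
      = sp S (fun x y => if Multiset.card y = 0 then tc M a x * M y else 0)
        + sp S (fun x y => if Multiset.card y = 0 then 0 else tc M a x * M y) := by
    rw [← sp_add]
    apply sp_congr
    intro x y _
    split_ifs <;> simp
  have h3 : sp S (fun x y => if Multiset.card y = 0 then tc M a x * M y else 0) = tc M a S := by
    rw [sp_top]
    · simp [hM]
    · intro x y _ hy
      rw [if_neg]
      intro h0
      exact hy (Multiset.card_eq_zero.1 h0)
  rw [h2, h3, h1]
  ring

lemma tc_symm (M : Multiset Ω → ℝ) (hM : M 0 = 1) (a b : Ω) (S : Multiset Ω) :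
    tc M a (b ::ₘ S) = tc M b (a ::ₘ S) := by
  have key : ∀ n : ℕ, ∀ S : Multiset Ω, Multiset.card S = n →
      tc M a (b ::ₘ S) - tc M b (a ::ₘ S) = 0 := by
    intro n
    induction n using Nat.strong_induction_on with
    | _ n ih =>
      intro S hS
      have e1 : ∀ a b : Ω, M (a ::ₘ b ::ₘ S)
          = sp S (fun x y => sp x (fun u v => tc M a u * tc M b v) * M y)
            + sp S (fun x y => tc M a (b ::ₘ x) * M y) := by
        intro a b
        rw [tc_rec M hM a (b ::ₘ S), sp_cons]
        congr 1
        have e2 : sp S (fun x y => tc M a x * M (b ::ₘ y))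
            = sp S (fun x y => sp y (fun u v => tc M a x * tc M b u * M v)) := by
          apply sp_congr
          intro x y _
          rw [tc_rec M hM b y, ← sp_const_mul]
          congr 1
          funext u v
          ring
        rw [e2, sp_assoc S (fun x u v => tc M a x * tc M b u * M v)]
        apply sp_congr
        intro x y _
        rw [← sp_mul_const]
      have h1 := e1 a b
      have h2 := e1 b a
      rw [Multiset.cons_swap b a] at h2
      have h3 : sp S (fun x y => sp x (fun u v => tc M a u * tc M b v) * M y)
          = sp S (fun x y => sp x (fun u v => tc M b u * tc M a v) * M y) := by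
        apply sp_congr
        intro x y _
        congr 1
        -- symmetry of the split
        have hs : ∀ (S : Multiset Ω) (F : Multiset Ω → Multiset Ω → ℝ),
            sp S F = sp S (fun x y => F y x) := by
          intro S
          induction S using Multiset.induction_on with
          | empty => intro F; simp
          | cons a S ih =>
            intro F
            rw [sp_cons, sp_cons, ih (fun x y => F x (a ::ₘ y)), ih (fun x y => F (a ::ₘ x) y)]
            ring
        rw [hs]
        apply sp_congr
        intro u v _
        ring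
      have h4 : sp S (fun x y => (tc M a (b ::ₘ x) - tc M b (a ::ₘ x)) * M y) = 0 := by
        have h5 : sp S (fun x y => tc M a (b ::ₘ x) * M y)
            = sp S (fun x y => (tc M a (b ::ₘ x) - tc M b (a ::ₘ x)) * M y)
              + sp S (fun x y => tc M b (a ::ₘ x) * M y) := by
          rw [← sp_add]
          apply sp_congr
          intro x y _
          ring
        linarith
      rw [sp_top] at h4
      · rw [hM, mul_one] at h4
        exact h4
      · intro x y hxy hy
        have hc : Multiset.card x < n := by
          rw [← hS, ← hxy, Multiset.card_add]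
          have := Multiset.card_pos.2 hy
          omega
        rw [ih _ hc x rfl, zero_mul]
  have := key _ S rfl
  linarith

open Classical in
/-- The cumulant function of `M`. -/
noncomputable def cumT (M : Multiset Ω → ℝ) (S : Multiset Ω) : ℝ :=
  if h : ∃ a, a ∈ S then tc M h.choose (S.erase h.choose) else 0

lemma cumT_cons (M : Multiset Ω → ℝ) (hM : M 0 = 1) (a : Ω) (S : Multiset Ω) :
    cumT M (a ::ₘ S) = tc M a S := by
  classical
  have h : ∃ b, b ∈ a ::ₘ S := ⟨a, Multiset.mem_cons_self _ _⟩
  unfold cumT
  rw [dif_pos h]
  set b := h.choose with hb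
  have hbm : b ∈ a ::ₘ S := h.choose_spec
  by_cases hab : b = a
  · rw [hab, Multiset.erase_cons_head]
  · have hbS : b ∈ S := by
      rcases Multiset.mem_cons.1 hbm with h1 | h1
      · exact absurd h1 hab
      · exact h1
    obtain ⟨S', hS'⟩ := Multiset.exists_cons_of_mem hbS
    rw [hS', Multiset.cons_swap, Multiset.erase_cons_head]
    exact tc_symm M hM b a S'

/-- Existence of cumulants. -/
theorem isCum_cumT (M : Multiset Ω → ℝ) (hM : M 0 = 1) : IsCum M (cumT M) where
  zero := hM
  cons := by
    intro a S
    rw [tc_rec M hM a S]
    apply sp_congr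
    intro x y _
    rw [cumT_cons M hM]

/-- Uniqueness of the cumulants on nonempty multisets, also when `M` is only known on the
sub-multisets: if two pairs satisfy the recursion and `M = M'` on all sub-multisets of `S`, then
`T = T'` on `S`. -/
theorem IsCum.unique {M T M' T' : Multiset Ω → ℝ} (h : IsCum M T) (h' : IsCum M' T')
    (S : Multiset Ω) (hS : S ≠ 0) (hMM : ∀ U ≤ S, M U = M' U) : T S = T' S := by
  have key : ∀ n : ℕ, ∀ (a : Ω) (S : Multiset Ω), Multiset.card S = n →
      (∀ U ≤ a ::ₘ S, M U = M' U) → T (a ::ₘ S) = T' (a ::ₘ S) := by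
    intro n
    induction n using Nat.strong_induction_on with
    | _ n ih =>
      intro a S hS hMM
      have h1 := h.cons a S
      have h2 := h'.cons a S
      have h3 : sp S (fun x y => T (a ::ₘ x) * M y) - sp S (fun x y => T' (a ::ₘ x) * M' y)
          = sp S (fun x y => T (a ::ₘ x) * M y - T' (a ::ₘ x) * M' y) := by
        have : sp S (fun x y => T (a ::ₘ x) * M y)
            = sp S (fun x y => T (a ::ₘ x) * M y - T' (a ::ₘ x) * M' y)
              + sp S (fun x y => T' (a ::ₘ x) * M' y) := by
          rw [← sp_add]
          apply sp_congr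
          intro x y _
          ring
        linarith
      have h4 : sp S (fun x y => T (a ::ₘ x) * M y - T' (a ::ₘ x) * M' y)
          = T (a ::ₘ S) * M 0 - T' (a ::ₘ S) * M' 0 := by
        apply sp_top
        intro x y hxy hy
        have hc : Multiset.card x < n := by
          rw [← hS, ← hxy, Multiset.card_add]
          have := Multiset.card_pos.2 hy
          omega
        have hxS : x ≤ S := by rw [← hxy]; exact Multiset.le_add_right _ _
        have hyS : y ≤ S := by rw [← hxy]; exact Multiset.le_add_left _ _
        rw [ih _ hc a x rfl (fun U hU => hMM U (hU.trans (Multiset.cons_le_cons a hxS))),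
          hMM y (hyS.trans (Multiset.le_cons_self _ _)), sub_self]
      rw [h4, h.zero, h'.zero, ← h1, ← h2, hMM _ le_rfl] at h3
      linarith
  obtain ⟨a, ha⟩ := Multiset.exists_mem_of_ne_zero hS
  obtain ⟨S', rfl⟩ := Multiset.exists_cons_of_mem ha
  exact key _ a S' rfl hMM

end Vale.Agent.P042.H232
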