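import Vale.Agent.P042.H232.LawP
import Vale.Agent.P042.H92.PDef
import Vale.Agent.P042.H365.LawH

/-!
# P042: the hypotheses on one law (`H92.PLaw`) give those of the induction on the top scale
(`H365.LawH`)
-/

set_option autoImplicit false
set_option linter.unusedSectionVars false

namespace Vale.Agent.P042.H232

open Finset Vale.Agent.P042.H461 Vale.Agent.P042.H742 Vale.Agent.P042.H92
open Vale.Agent.P042.H779 (marg m1 marg_empty)
open Vale.Agent.P042.H779.Ab (Lo At Ref gdw)
open Vale.Agent.P042.H779.Ab.Ll (len)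
open Vale.Agent.P042.H365 (LawH NumL LamF rate rate_pos rate_le rate_le_one)

/-- the numbers of `lawH_of_plaw` -/
structure LNum (Q : Prm) (K0 : ℕ) (h : ℝ) (b0 : ℕ) : Prop where
  γ0 : 0 < Q.γ
  γh : 16 * Q.γ ≤ h
  h1 : h ≤ 1
  a00 : 0 ≤ Q.a0
  p0 : 0 ≤ Q.p
  K01 : 1 ≤ K0
  a1 : ∀ x : ℝ, K0 * Real.log 2 ≤ x → Q.a0 ≤ h / 16 * x
  kf : ∀ b n : ℕ, 1 ≤ b → K0 ≤ n → 128 * (b : ℝ) ≤ (((b : ℝ) + 1) * n) ^ Q.CK
  lf1 : ∀ b n : ℕ, 1 ≤ b → K0 ≤ n → 13 * (b : ℝ) ^ 2 * (n * Real.log 2) ≤ LF (b + 1) n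
  lf2 : ∀ b n : ℕ, 1 ≤ b → K0 ≤ n → 1408 * ((b : ℝ) + 1) ≤ LF (b + 1) n
  b1 : (b0 : ℝ) + 1 ≤ Real.exp (2 * Q.d1 * Q.p)
  b2 : ((b0 : ℝ) + 1) * (Q.C1 * Q.p + 1) ≤ Q.Λ
  L1 : Real.exp ((1 - Q.G / 2) * Q.p) ≤ Q.Λ
  ch : (Q.C1 * Q.p + 1) ^ 2 * (6 * Real.exp ((1 - Q.G) * Q.p) + 2) ≤
    Real.exp ((1 - Q.G / 2) * Q.p)
  th : Real.exp ((1 - Q.G / 2) * Q.p) + 3 * (Q.C1 * Q.p + 1) ≤ Q.c0 / 2 * Real.exp Q.p

theorem two_mul_le_exp {x : ℝ} (hx : 2 ≤ x) : 2 * x ≤ Real.exp x := by
  have h2 := Real.quadratic_le_exp_of_nonneg (x := x) (by linarith)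
  have h3 : 0 ≤ (x - 2) * x := mul_nonneg (by linarith) (by linarith)
  nlinarith

theorem exp_neg_one_le : Real.exp (-1) ≤ 1 / 2 := by
  rw [Real.exp_neg, ← one_div]
  exact one_div_le_one_div_of_le (by norm_num) (by linarith [Real.exp_one_gt_d9])

section
variable {ι : Type*} [Fintype ι] [DecidableEq ι] {V : ι → Type*} [∀ i, Fintype (V i)]
  [∀ i, DecidableEq (V i)] {J : Type*} [Fintype J] [DecidableEq J]
  {Q : Prm} {K0 : ℕ} {h : ℝ} {b0 : ℕ} {ℓ es : ι → ℝ} {sc : ι → J} {sn : J → ℕ} {ell : J → ℝ}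
  {lam u : ∀ i, V i → ℝ} {mu : (∀ i, V i) → ℝ}

theorem scl_ell (S : Scl Q K0 univ ℓ es sc sn ell) (j : J) : K0 * Real.log 2 ≤ ell j := by
  rw [S.ell1]
  exact mul_le_mul_of_nonneg_right (by exact_mod_cast S.K0 j) (Real.log_nonneg (by norm_num))

theorem scl_up (S : Scl Q K0 univ ℓ es sc sn ell) (i : ι) : ℓ i ≤ ell (sc i) := by
  rw [← S.es1 i (Finset.mem_univ i)]
  exact S.up i (Finset.mem_univ i)

theorem scl_nonneg (S : Scl Q K0 univ ℓ es sc sn ell) (NL : NumL sn ell Q.p Q.G h 2) (i : ι) :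
    0 ≤ ℓ i := by
  have h1 := S.lo i (Finset.mem_univ i)
  rw [S.es1 i (Finset.mem_univ i)] at h1
  have h2 := NL.ell2 (sc i)
  have h3 := Real.log_two_lt_d9
  linarith

theorem scl_card (S : Scl Q K0 univ ℓ es sc sn ell) (l : J) :
    ((univ.filter fun i => sc i = l).card : ℝ) ≤ Real.exp (ell l) := by
  refine le_trans ?_ (S.card (ell l))
  have h1 : (univ.filter fun i => sc i = l) ⊆ univ.filter fun i => es i = ell l := by
    intro i hi
    rw [Finset.mem_filter] at hi ⊢
    refine ⟨Finset.mem_univ i, ?_⟩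
    rw [S.es1 i (Finset.mem_univ i), hi.2]
  exact_mod_cast Finset.card_le_card h1

theorem len_nonneg (h0 : ∀ i, 0 ≤ ℓ i) (A : Finset ι) : 0 ≤ len ℓ A :=
  Finset.sum_nonneg fun i _ => h0 i

/-- the atoms of the reference -/
theorem plaw_atoms (P : PLaw Q univ ℓ es lam u mu) (i : ι) (a : V i) :
    lam i a = 0 ∨ Real.exp (-((1 + Q.γ) * ℓ i)) ≤ lam i a := by
  rcases P.lo i a with h1 | h1
  · exact Or.inl h1
  · right
    rw [P.u1 i a, ← Real.exp_add] at h1
    refine le_trans (le_of_eq ?_) h1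
    congr 1
    ring

/-- the uniform weights are a reference -/
theorem plaw_refu (P : PLaw Q univ ℓ es lam u mu) : Ref u mu where
  prob := P.ref.prob
  w_nonneg i a := by
    rw [P.u1 i a]
    exact (Real.exp_pos _).le
  w_sum := P.usum
  ac i a h0 := by
    rw [P.u1 i a] at h0
    exact absurd h0 (Real.exp_pos _).ne'

/-- the densities -/
theorem plaw_i1 (N : LNum Q K0 h b0) (S : Scl Q K0 univ ℓ es sc sn ell)
    (P : PLaw Q univ ℓ es lam u mu) (NL : NumL sn ell Q.p Q.G h 2) :
    H678.I1M lam (fun i => Real.exp (h * ell (sc i))) (b0 + 1) mu := by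
  intro A hA x
  have hl0 := scl_nonneg S NL
  rcases A.eq_empty_or_nonempty with h1 | ⟨i, hi⟩
  · rw [h1, marg_empty P.ref.prob]
    simp [lw]
  have hi2 := NL.ell2 (sc i)
  have hlen : len ℓ A ≤ Q.Λ := by
    refine le_trans ?_ N.b2
    calc len ℓ A ≤ ∑ _i ∈ A, (Q.C1 * Q.p + 1) :=
          Finset.sum_le_sum fun i _ => (scl_up S i).trans (S.top (sc i))
      _ = A.card * (Q.C1 * Q.p + 1) := by rw [Finset.sum_const, nsmul_eq_mul]
      _ ≤ _ := by
        have h2 := S.top (sc i)
        exact mul_le_mul_of_nonneg_right (by exact_mod_cast hA) (by linarith)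
  refine (P.sup A hlen x).trans ?_
  refine mul_le_mul_of_nonneg_right ?_ (Finset.prod_nonneg fun i _ => P.ref.w_nonneg i _)
  rw [← Real.exp_sum]
  apply Real.exp_le_exp.2
  unfold costP
  rw [← Finset.mul_sum]
  have h2 : len ℓ A ≤ ∑ i ∈ A, ell (sc i) := Finset.sum_le_sum fun i _ => scl_up S i
  have h3 : ell (sc i) ≤ ∑ i ∈ A, ell (sc i) :=
    Finset.single_le_sum (f := fun i => ell (sc i))
      (fun i _ => by linarith [NL.ell2 (sc i)]) hi
  have h4 := N.a1 _ (scl_ell S (sc i))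
  have h5 := N.γh
  have h6 : Q.γ * len ℓ A ≤ h / 16 * ∑ i ∈ A, ell (sc i) :=
    mul_le_mul (by linarith) h2 (len_nonneg hl0 A) (by linarith [N.γ0])
  have h7 : h / 16 * ell (sc i) ≤ h / 16 * ∑ i ∈ A, ell (sc i) :=
    mul_le_mul_of_nonneg_left h3 (by linarith [N.γ0])
  have h8 : 0 ≤ h * ∑ i ∈ A, ell (sc i) := by
    have := N.γ0
    exact mul_nonneg (by linarith) (by linarith)
  linarith

/-- the pinned inequality for the mutual informations -/
theorem plaw_pins (N : LNum Q K0 h b0) (S : Scl Q K0 univ ℓ es sc sn ell)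
    (P : PLaw Q univ ℓ es lam u mu) (NL : NumL sn ell Q.p Q.G h 2) (s : J) (A : Finset ι)
    (hA : len ℓ A ≤ Real.exp ((1 - Q.G / 2) * Q.p)) :
    Real.exp (-(Q.γ * ell s)) *
      ∑ j ∈ At (fun i => sn (sc i)) (sn s) \ A, H48.MI mu j A ≤
      ∑ i ∈ A, Q.γ * ℓ i + (Q.a0 + 1) := by
  have hl0 := scl_nonneg S NL
  have hγ := N.γ0
  have hγ1 : Q.γ ≤ 1 := by linarith [N.γh, N.h1]
  have hx := NL.ell2 s
  have hxT := S.top s
  set X := Q.C1 * Q.p + 1 with hX
  have hlA := len_nonneg hl0 A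
  have hth := N.th
  rw [← hX] at hth
  set Y := Real.exp ((1 - Q.G / 2) * Q.p) with hY
  have hY0 : 0 < Y := Real.exp_pos _
  have hc0 : 0 ≤ Q.c0 * Real.exp Q.p := by linarith
  have h1 := pins_of_eic (T := At (fun i => sn (sc i)) (sn s) \ A)
    (m := Real.exp (-(Q.γ * ell s))) (L := 2 * ell s) (B := 2 * len ℓ A) (P := A)
    P.ref (plaw_refu P) P.u1 P.eic (Real.exp_pos _)
    (by
      rw [← Real.exp_zero]
      exact Real.exp_le_exp.2 (by linarith))
    (fun i => by
      unfold lamP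
      rw [if_pos (Finset.mem_univ i)]
      exact (Real.exp_pos _).le)
    (hA.trans N.L1)
    (by
      unfold costP
      have := mul_nonneg hγ.le hlA
      linarith [N.a00])
    (Finset.sdiff_subset_sdiff (Finset.subset_univ _) (Finset.Subset.refl _))
    (Real.exp_pos _).le
    (fun i hi => by
      unfold lamP
      rw [if_pos (Finset.mem_univ i)]
      apply Real.exp_le_exp.2
      have h2 : sc i = s := NL.inj (Finset.mem_filter.1 (Finset.mem_sdiff.1 hi).1).2
      have h3 := scl_up S i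
      rw [h2] at h3
      have := mul_le_mul_of_nonneg_left h3 hγ.le
      linarith)
    (by linarith) (by linarith)
    (fun i hi b => by
      rcases plaw_atoms P i b with h2 | h2
      · exact Or.inl h2
      · refine Or.inr (le_trans (Real.exp_le_exp.2 ?_) h2)
        have h2 : sc i = s := NL.inj (Finset.mem_filter.1 (Finset.mem_sdiff.1 hi).1).2
        have h3 := scl_up S i
        rw [h2] at h3
        have h4 := hl0 i
        nlinarith)
    (fun x hx => by
      have hmx : 0 < marg mu A x := lt_of_lt_of_le hx (H779.Ab.marg_ge P.ref.prob A x)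
      have hgx := (H779.Ab.gdw_pos_iff P.ref.prob P.ref.w_nonneg P.ref.ac A x).2 hmx
      rw [Real.log_le_iff_le_exp hgx]
      unfold gdw
      have hp : 0 < ∏ i ∈ A, lam i (x i) :=
        H779.Ab.prod_w_pos_of_marg P.ref.prob P.ref.w_nonneg P.ref.ac hmx
      rw [div_le_iff₀ hp]
      have h2 : Real.exp (-(2 * len ℓ A)) ≤ ∏ i ∈ A, lam i (x i) := by
        have h3 : Real.exp (-(2 * len ℓ A)) = ∏ i ∈ A, Real.exp (-(2 * ℓ i)) := by
          rw [← Real.exp_sum, Finset.sum_neg_distrib, ← Finset.mul_sum]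
          rfl
        rw [h3]
        refine Finset.prod_le_prod (fun i _ => (Real.exp_pos _).le) fun i hi => ?_
        rcases plaw_atoms P i (x i) with h4 | h4
        · exact absurd h4 (Finset.prod_ne_zero_iff.1 hp.ne' i hi)
        · refine le_trans (Real.exp_le_exp.2 ?_) h4
          have h5 := hl0 i
          nlinarith
      have h3 : marg mu A x ≤ 1 := by
        rw [← marg_empty P.ref.prob x]
        exact H779.marg_anti P.ref.prob (Finset.empty_subset A) x
      calc marg mu A x ≤ 1 := h3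
        _ = Real.exp (2 * len ℓ A) * Real.exp (-(2 * len ℓ A)) := by
            rw [← Real.exp_add, add_neg_cancel, Real.exp_zero]
        _ ≤ _ := mul_le_mul_of_nonneg_left h2 (Real.exp_pos _).le)
  refine h1.trans ?_
  have h2 : costP Q ℓ A = ∑ i ∈ A, Q.γ * ℓ i + Q.a0 := by
    unfold costP len
    rw [Finset.mul_sum]
    ring
  rw [h2]
  have hcard : ((At (fun i => sn (sc i)) (sn s) \ A).card : ℝ) ≤ Real.exp (ell s) := by
    refine le_trans ?_ (scl_card S s)
    have h3 : At (fun i => sn (sc i)) (sn s) \ A ⊆ univ.filter fun i => sc i = s := by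
      intro i hi
      rw [Finset.mem_filter]
      exact ⟨Finset.mem_univ i, NL.inj (Finset.mem_filter.1 (Finset.mem_sdiff.1 hi).1).2⟩
    exact_mod_cast Finset.card_le_card h3
  have hsmall : Real.exp (-(Q.c0 * Real.exp Q.p)) * Real.exp (len ℓ A) *
      (Real.exp (-(Q.γ * ell s)) * ((At (fun i => sn (sc i)) (sn s) \ A).card * (2 * ell s)) +
        2 * len ℓ A) ≤ 1 := by
    have e1 : Real.exp (-(Q.γ * ell s)) *
        ((At (fun i => sn (sc i)) (sn s) \ A).card * (2 * ell s)) ≤ Real.exp (2 * X) := by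
      have h3 : Real.exp (-(Q.γ * ell s)) ≤ 1 := by
        rw [← Real.exp_zero]
        apply Real.exp_le_exp.2
        have := mul_nonneg hγ.le (by linarith : 0 ≤ ell s)
        linarith
      have h4 := two_mul_le_exp hx
      calc _ ≤ 1 * (Real.exp (ell s) * Real.exp (ell s)) := by
            refine mul_le_mul h3 (mul_le_mul hcard h4 (by linarith) (Real.exp_pos _).le) ?_
              zero_le_one
            have : 0 ≤ ell s := by linarith
            positivity
        _ = Real.exp (2 * ell s) := by rw [one_mul, ← Real.exp_add]; congr 1; ring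
        _ ≤ _ := Real.exp_le_exp.2 (by linarith)
    have e2 : 2 * len ℓ A ≤ Real.exp Y := by
      refine le_trans (mul_le_mul_of_nonneg_left hA (by norm_num)) ?_
      rcases le_or_gt 2 Y with h3 | h3
      · exact two_mul_le_exp h3
      · have h4 := Real.quadratic_le_exp_of_nonneg (x := Y) hY0.le
        nlinarith [sq_nonneg (Y - 1)]
    have e3 : Real.exp (len ℓ A) ≤ Real.exp Y := Real.exp_le_exp.2 hA
    have e4 : Real.exp (2 * X - Q.c0 * Real.exp Q.p + Y) ≤ 1 / 2 :=
      (Real.exp_le_exp.2 (by linarith)).trans exp_neg_one_le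
    have e5 : Real.exp (Y - Q.c0 * Real.exp Q.p + Y) ≤ 1 / 2 :=
      (Real.exp_le_exp.2 (by linarith)).trans exp_neg_one_le
    calc _ ≤ Real.exp (-(Q.c0 * Real.exp Q.p)) * Real.exp Y * (Real.exp (2 * X) + Real.exp Y) := by
          refine mul_le_mul (mul_le_mul_of_nonneg_left e3 (Real.exp_pos _).le)
            (add_le_add e1 e2) ?_ (by positivity)
          have : 0 ≤ ell s := by linarith
          positivity
      _ = Real.exp (2 * X - Q.c0 * Real.exp Q.p + Y) +
          Real.exp (Y - Q.c0 * Real.exp Q.p + Y) := by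
          rw [mul_add, ← Real.exp_add, ← Real.exp_add, ← Real.exp_add]
          congr 1 <;> congr 1 <;> ring
      _ ≤ 1 := by linarith
  linarith

/-- the random set is short with high probability -/
theorem plaw_bad (N : LNum Q K0 h b0) (S : Scl Q K0 univ ℓ es sc sn ell)
    (NL : NumL sn ell Q.p Q.G h 2) (s : J) {Kf : ℝ} (hK : 1 ≤ Kf)
    (D : DecidablePred fun R : Finset ι => len ℓ R ≤ Real.exp ((1 - Q.G / 2) * Q.p)) :
    ∑ R, H416.bw (H365.tF sc sn ell ((1 - Q.G) * Q.p) Kf s) R *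
      (if len ℓ R ≤ Real.exp ((1 - Q.G / 2) * Q.p) then 0 else 1) ≤ Real.exp (-(2 * ell s)) := by
  have hx := NL.ell2 s
  have hxT := S.top s
  have hK0 : 0 < Kf := by linarith
  have ht0 : ∀ i, 0 ≤ H365.tF sc sn ell ((1 - Q.G) * Q.p) Kf s i := by
    intro i
    unfold H365.tF
    split_ifs
    · exact div_nonneg (rate_pos _ _).le hK0.le
    · exact le_rfl
  have hsum : ∑ i, H365.tF sc sn ell ((1 - Q.G) * Q.p) Kf s i ≤
      3 * ell s * Real.exp ((1 - Q.G) * Q.p) := by
    refine le_trans (le_of_eq ?_) (NL.sum_le (sc := sc) (scl_card S) s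
      (f := fun l => rate ((1 - Q.G) * Q.p) (ell l) / Kf) (c := Real.exp ((1 - Q.G) * Q.p))
      (Real.exp_pos _).le (fun l => div_nonneg (rate_pos _ _).le hK0.le) fun l => ?_)
    · unfold H365.tF
      rw [← Finset.sum_filter]
      rw [← Finset.sum_subtype_eq_sum_filter
        (f := fun i => rate ((1 - Q.G) * Q.p) (ell (sc i)) / Kf) (s := univ)]
      apply Finset.sum_congr _ fun _ _ => rfl
      ext x
      simp
    · calc rate ((1 - Q.G) * Q.p) (ell l) / Kf ≤ rate ((1 - Q.G) * Q.p) (ell l) :=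
            div_le_self (rate_pos _ _).le hK
        _ ≤ Real.exp ((1 - Q.G) * Q.p - ell l) := rate_le _ _
        _ = _ := by rw [sub_eq_add_neg, Real.exp_add]
  refine (bad_le (ℓ := ℓ) (Λ := Real.exp ((1 - Q.G / 2) * Q.p)) (x := ell s) ht0 ?_ (by linarith)
    ?_ hsum _ fun R hR => hR).trans ?_
  · intro i
    unfold H365.tF
    split_ifs
    · rw [div_le_one hK0]
      exact (rate_le_one _ _).trans hK
    · exact zero_le_one
  · intro i
    unfold H365.tF
    split_ifs with h1
    · right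
      exact (scl_up S i).trans ((NL.le_iff _ _).1 h1)
    · exact Or.inl rfl
  · apply Real.exp_le_exp.2
    have h1 := N.ch
    set F := Real.exp ((1 - Q.G) * Q.p) with hF
    have hF0 : 0 < F := Real.exp_pos _
    have h2 : ell s ^ 2 * (6 * F + 2) ≤ Real.exp ((1 - Q.G / 2) * Q.p) := by
      refine le_trans (mul_le_mul_of_nonneg_right ?_ (by positivity)) h1
      exact pow_le_pow_left₀ (by linarith) hxT 2
    have h3 : ell s * (6 * F + 2) ≤ Real.exp ((1 - Q.G / 2) * Q.p) / ell s := by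
      rw [le_div_iff₀ (by linarith)]
      calc _ = ell s ^ 2 * (6 * F + 2) := by ring
        _ ≤ _ := h2
    nlinarith

/-- **`PLaw` gives `LawH`** -/
theorem lawH_of_plaw (N : LNum Q K0 h b0) (S : Scl Q K0 univ ℓ es sc sn ell)
    (P : PLaw Q univ ℓ es lam u mu) (NL : NumL sn ell Q.p Q.G h 2) :
    LawH lam mu sc sn ell b0 Q.p Q.G h 2 (fun b s => (((b : ℝ) + 1) * sn s) ^ Q.CK)
      (fun s => Real.exp (-(Q.γ * ell s))) (fun _ => Q.a0 + 1) (fun _ i => Q.γ * ℓ i)
      (fun _ R => len ℓ R ≤ Real.exp ((1 - Q.G / 2) * Q.p)) where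
  law := H48.isLaw_of_ref P.ref
  lam0 := P.ref.w_nonneg
  lam1 := P.ref.w_sum
  atoms i a := by
    rcases plaw_atoms P i a with h1 | h1
    · exact Or.inl h1
    · refine Or.inr (le_trans (Real.exp_le_exp.2 ?_) h1)
      have h2 := scl_nonneg S NL i
      have h3 := scl_up S i
      have h4 : Q.γ ≤ 1 := by linarith [N.γh, N.h1, N.γ0]
      have h5 : Q.γ * ℓ i ≤ 1 * ℓ i := mul_le_mul_of_nonneg_right h4 h2
      linarith
  i1 := plaw_i1 N S P NL
  card := scl_card S
  Kf1 b s hb _ := N.kf b (sn s) hb (S.K0 s)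
  mei b s hb hb0 := by
    have hb1 : (1 : ℝ) ≤ b := by exact_mod_cast hb
    have hn : 1 ≤ sn s := N.K01.trans (S.K0 s)
    have h1 := P.mei (b + 1) (sn s) (by omega) (by
      refine le_trans ?_ N.b1
      push_cast
      have : (b : ℝ) ≤ b0 := by exact_mod_cast hb0
      linarith) hn (by
      rw [← S.ell1 s]
      exact S.top s)
    have hlf1 := N.lf1 b (sn s) hb (S.K0 s)
    rw [← S.ell1 s] at hlf1
    have hlf2 := N.lf2 b (sn s) hb (S.K0 s)
    have hx := NL.ell2 s
    have hL0 : 0 < LamF 2 b (ell s) := by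
      unfold LamF
      have : 0 < ell s := by linarith
      positivity
    have hL1 : LamF 2 b (ell s) ≤ LF (b + 1) (sn s) := by
      refine le_trans (le_of_eq ?_) hlf1
      unfold LamF
      norm_num
    have hLF0 : 0 < LF (b + 1) (sn s) := lt_of_lt_of_le hL0 hL1
    have hkf := N.kf b (sn s) hb (S.K0 s)
    have hkf1 : 1 ≤ (((b : ℝ) + 1) * sn s) ^ Q.CK := by linarith
    have hkf0 : 0 < (((b : ℝ) + 1) * sn s) ^ Q.CK := by linarith
    refine H858.MEIK_mono h1 (H48.isLaw_of_ref P.ref) ?_ ?_ ?_ ?_ ?_ ?_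
    · intro i
      unfold H365.tF
      split_ifs
      · exact div_nonneg (rate_pos _ _).le hkf0.le
      · exact le_rfl
    · intro i
      unfold H365.tF H92.tF
      have he := S.es1 i (Finset.mem_univ i)
      split_ifs with h2 h3 h3
      · rw [he]
        push_cast
        exact le_rfl
      · exact absurd ⟨Finset.mem_univ i, by
          rw [he, S.ell1]
          exact mul_le_mul_of_nonneg_right (by exact_mod_cast h2)
            (Real.log_nonneg (by norm_num))⟩ h3
      · push_cast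
        exact div_nonneg (rate_pos _ _).le hkf0.le
      · exact le_rfl
    · intro i
      unfold H92.tF
      split_ifs
      · push_cast
        rw [div_le_one hkf0]
        exact (rate_le_one _ _).trans hkf1
      · exact zero_le_one
    · apply one_div_le_one_div_of_le (by positivity)
      exact mul_le_mul_of_nonneg_left hL1 (by norm_num)
    · apply one_div_le_one_div_of_le (by positivity) hlf2
    · apply Real.exp_le_exp.2
      linarith
  lm0 s := by
    apply Real.exp_le_exp.2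
    have h1 := NL.ell2 s
    have h2 := N.γh
    have h3 := N.γ0
    nlinarith
  aa0 _ := by linarith [N.a00]
  aa1 s := by
    have h1 := N.a1 _ (scl_ell S s)
    have h2 := Real.add_one_le_exp (h / 8 * ell s)
    have h3 := NL.ell2 s
    have h4 := NL.h0
    nlinarith
  cc0 _ i := mul_nonneg N.γ0.le (scl_nonneg S NL i)
  cc1 s i hi := by
    have h1 := scl_up S i
    have h2 := (NL.le_iff _ _).1 hi
    have h3 := NL.big s
    have h4 := NL.ell2 s
    have h5 : Q.γ * ℓ i ≤ 1 * ell s :=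
      mul_le_mul (by linarith [N.γh, N.h1, N.γ0]) (h1.trans h2) (scl_nonneg S NL i) zero_le_one
    linarith
  okd _ A B hAB hB := by
    refine le_trans ?_ hB
    exact Finset.sum_le_sum_of_subset_of_nonneg hAB fun i _ _ => scl_nonneg S NL i
  pins s A _ hA := plaw_pins N S P NL s A hA
  bad b s hb _ D := by
    have hb1 : (1 : ℝ) ≤ b := by exact_mod_cast hb
    have hkf := N.kf b (sn s) hb (S.K0 s)
    exact plaw_bad N S NL s (by linarith) D

end

end Vale.Agent.P042.H232
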