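import Vale.Agent.P042.H232.BdNum

/-!
# P042, row F.B3: from the numbers to the fields of `BdT`

`y l = exp (g ell l)`, `κ l = exp (-(c1 ell l))`, `N l m = exp (g min - c2 |ell l - ell m|)`.
-/

set_option linter.unusedSectionVars false

namespace Vale.Agent.P042.H232

open Finset Vale.Agent.P042.H461 Vale.Agent.P042.H742 Vale.Agent.P042.H365
open Vale.Agent.P042.H779 (marg m1)
open Vale.Agent.P042.H284 (BV Lt pr pr_nonneg pr_perm pr_cons pr_nil BdT)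
open Vale.Agent.P042.H416

section real

variable {J : Type*} {ell : J → ℝ} {g c1 c2 c3 h G : ℝ}

/-- The bound of the typed norms of order two. -/
noncomputable def Nn (ell : J → ℝ) (g c2 : ℝ) (l m : J) : ℝ :=
  Real.exp (g * min (ell l) (ell m) - c2 * |ell l - ell m|)

theorem Nn_nonneg (l m : J) : 0 ≤ Nn ell g c2 l m := Real.exp_nonneg _

theorem Nn_comm (l m : J) : Nn ell g c2 l m = Nn ell g c2 m l := by
  unfold Nn
  rw [min_comm, abs_sub_comm]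

theorem Nn_sq (l m : J) : Nn ell g c2 l m ^ 2 =
    Real.exp (2 * g * min (ell l) (ell m) - 2 * c2 * |ell l - ell m|) := by
  unfold Nn
  rw [← Real.exp_nat_mul]
  congr 1
  push_cast
  ring

theorem Nn_le1 (hell : ∀ l, 0 ≤ ell l) (hg : 0 ≤ g) (hc2 : 0 ≤ c2) (l m : J) :
    Nn ell g c2 l m ≤ Real.exp (g * ell l) * Real.exp (g * ell m) := by
  unfold Nn
  rw [← Real.exp_add, Real.exp_le_exp]
  have h1 := mul_le_mul_of_nonneg_left (min_le_left (ell l) (ell m)) hg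
  have h2 := mul_nonneg hc2 (abs_nonneg (ell l - ell m))
  have h3 := mul_nonneg hg (hell m)
  linarith

theorem Nn_le2 {l m : J} (hlm : ell l ≤ ell m) :
    Nn ell g c2 l m ≤ Real.exp (g * ell l - c2 * (ell m - ell l)) := by
  unfold Nn
  rw [min_eq_left hlm, abs_sub_comm, abs_of_nonneg (by linarith)]

theorem num_one (hell : ∀ l, 0 ≤ ell l) (hg : h ≤ g) (l : J) :
    Real.exp (2 * h * ell l) ≤ Real.exp (g * ell l) ^ 2 := by
  rw [← Real.exp_nat_mul, Real.exp_le_exp]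
  have := mul_le_mul_of_nonneg_right hg (hell l)
  push_cast
  linarith

theorem num_two (hell : ∀ l, 0 ≤ ell l) (hg : 8 * h ≤ g) (hc2 : 2 * c2 ≤ 1 / 2 - 4 * h) {s l : J}
    (hls : ell l ≤ ell s) :
    Real.exp (16 * h * ell l - (1 / 2 - 4 * h) * (ell s - ell l)) ≤ Nn ell g c2 s l ^ 2 := by
  rw [Nn_sq, Real.exp_le_exp, min_eq_right hls, abs_of_nonneg (by linarith)]
  have h1 := mul_le_mul_of_nonneg_right hg (hell l)
  have h2 := mul_le_mul_of_nonneg_right hc2 (by linarith : 0 ≤ ell s - ell l)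
  linarith

theorem num_op (hell : ∀ l, 0 ≤ ell l) (hg : 0 ≤ g) (hc : 4 * (c1 + g) ≤ G - 8 * h)
    (hG : 8 * h ≤ G) (l m : J) :
    √(Real.exp (-(G / 2) * ell l + 4 * h * ell l) *
      Real.exp (-(G / 2) * ell m + 4 * h * ell m)) ≤
      Real.exp (g * ell l) * Real.exp (-(c1 * ell m)) / Real.exp (g * ell m) := by
  rw [← Real.exp_add, ← Real.exp_add, ← Real.exp_sub]
  have h1 : Real.exp (-(G / 2) * ell l + 4 * h * ell l + (-(G / 2) * ell m + 4 * h * ell m)) =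
      Real.exp ((-(G / 2) * ell l + 4 * h * ell l + (-(G / 2) * ell m + 4 * h * ell m)) / 2) ^ 2 := by
    rw [← Real.exp_nat_mul]
    congr 1
    push_cast
    ring
  rw [h1, Real.sqrt_sq (Real.exp_nonneg _), Real.exp_le_exp]
  have h2 := mul_le_mul_of_nonneg_right hc (hell m)
  have h3 := mul_nonneg hg (hell l)
  have h4 := mul_le_mul_of_nonneg_right hG (hell l)
  nlinarith

/-- Above `(2 - 4 G) p`. -/
theorem num_two_hi (hell : ∀ l, 0 ≤ ell l) (hg : 0 ≤ g) (hc : c2 ≤ c3) (hc2 : 0 ≤ c2) (l m : J) :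
    Real.exp (-(2 * c3 * (ell l + ell m))) ≤ Nn ell g c2 l m ^ 2 := by
  rw [Nn_sq, Real.exp_le_exp]
  have h1 : |ell l - ell m| ≤ ell l + ell m := by
    rw [abs_le]
    exact ⟨by linarith [hell l], by linarith [hell m]⟩
  have h2 := mul_le_mul_of_nonneg_left h1 hc2
  have h3 : 0 ≤ g * min (ell l) (ell m) := mul_nonneg hg (le_min (hell l) (hell m))
  have h4 := mul_le_mul_of_nonneg_right hc (by linarith [hell l, hell m] : 0 ≤ ell l + ell m)
  linarith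

theorem num_op_hi (hell : ∀ l, 0 ≤ ell l) (hg : 0 ≤ g) (hc : c1 + g ≤ c3) (hc1 : 0 ≤ c1)
    (l m : J) :
    Real.exp (-(2 * c3 * (ell l + ell m))) ≤
      (Real.exp (g * ell l) * Real.exp (-(c1 * ell m)) / Real.exp (g * ell m)) ^ 2 := by
  rw [← Real.exp_add, ← Real.exp_sub, ← Real.exp_nat_mul, Real.exp_le_exp]
  have h2 := mul_le_mul_of_nonneg_right hc (hell m)
  have h3 := mul_nonneg hg (hell l)
  have h4 : 0 ≤ c3 * ell l := mul_nonneg (by linarith) (hell l)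
  push_cast
  nlinarith

theorem pr_exp (c : ℝ) (τ : List J) :
    pr (fun l => Real.exp (c * ell l)) τ = Real.exp (c * (τ.map ell).sum) := by
  induction τ with
  | nil => simp
  | cons l τ ih => rw [pr_cons, ih, List.map_cons, List.sum_cons, ← Real.exp_add, mul_add]

theorem num_hs (hell : ∀ l, 0 ≤ ell l) {c : ℝ} (hc : 2 * (c1 + g) ≤ c) (τ : List J) :
    Real.exp (-(c * (τ.map ell).sum)) ≤
      pr (fun l => Real.exp (-(c1 * ell l)) / Real.exp (g * ell l)) τ ^ 2 := by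
  have h1 : (fun l => Real.exp (-(c1 * ell l)) / Real.exp (g * ell l)) =
      fun l => Real.exp (-(c1 + g) * ell l) := by
    funext l
    rw [← Real.exp_sub]
    congr 1
    ring
  rw [h1, pr_exp, ← Real.exp_nat_mul, Real.exp_le_exp]
  have h2 : 0 ≤ (τ.map ell).sum := List.sum_nonneg fun x hx => by
    obtain ⟨l, _, rfl⟩ := List.mem_map.1 hx
    exact hell l
  have := mul_le_mul_of_nonneg_right hc h2
  push_cast
  linarith

end real

section bv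

variable {Ω : Type*} {X Y : Finset Ω}

theorem bv_mono {w w' : ℝ} {ζ : Ω → Ω → ℝ} (h : BV w X Y ζ) (hw : w ≤ w') : BV w' X Y ζ :=
  fun u v => (h u v).trans (mul_le_mul_of_nonneg_right
    (mul_le_mul_of_nonneg_right hw (Real.sqrt_nonneg _)) (Real.sqrt_nonneg _))

/-- Hilbert–Schmidt. -/
theorem bv_of_hs {w : ℝ} (hw : 0 ≤ w) {ζ : Ω → Ω → ℝ} (h : ∑ p ∈ X, ∑ q ∈ Y, ζ p q ^ 2 ≤ w ^ 2) :
    BV w X Y ζ := by
  intro u v
  have h1 : ∑ p ∈ X, ∑ q ∈ Y, u p * ζ p q * v q = ∑ z ∈ X ×ˢ Y, ζ z.1 z.2 * (u z.1 * v z.2) := by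
    rw [Finset.sum_product]
    exact Finset.sum_congr rfl fun p _ => Finset.sum_congr rfl fun q _ => by ring
  have h2 := Finset.sum_mul_sq_le_sq_mul_sq (X ×ˢ Y) (fun z => ζ z.1 z.2)
    (fun z : Ω × Ω => u z.1 * v z.2)
  have h3 : ∑ z ∈ X ×ˢ Y, ζ z.1 z.2 ^ 2 ≤ w ^ 2 := by rw [Finset.sum_product]; exact h
  have h4 : ∑ z ∈ X ×ˢ Y, (u z.1 * v z.2) ^ 2 = (∑ p ∈ X, u p ^ 2) * ∑ q ∈ Y, v q ^ 2 := by
    rw [Finset.sum_product, Finset.sum_mul]
    refine Finset.sum_congr rfl fun p _ => ?_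
    rw [Finset.mul_sum]
    exact Finset.sum_congr rfl fun q _ => by ring
  have hu : 0 ≤ ∑ p ∈ X, u p ^ 2 := Finset.sum_nonneg fun _ _ => sq_nonneg _
  have hv : 0 ≤ ∑ q ∈ Y, v q ^ 2 := Finset.sum_nonneg fun _ _ => sq_nonneg _
  rw [h1]
  refine abs_le_of_sq_le_sq ?_ (mul_nonneg (mul_nonneg hw (Real.sqrt_nonneg _))
    (Real.sqrt_nonneg _))
  rw [mul_pow, mul_pow, Real.sq_sqrt hu, Real.sq_sqrt hv, mul_assoc, ← h4]
  exact h2.trans (mul_le_mul_of_nonneg_right h3 (Finset.sum_nonneg fun _ _ => sq_nonneg _))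

theorem sum_Lt_two {Λ : Type*} {V : Λ → Finset Ω} (l m : Λ) (F : Multiset Ω → ℝ) :
    ∑ ω ∈ Lt V [l, m], F (ω : Multiset Ω) = ∑ p ∈ V l, ∑ q ∈ V m, F (p ::ₘ q ::ₘ 0) := by
  rw [H284.sum_Lt_cons]
  refine Finset.sum_congr rfl fun p _ => ?_
  rw [H284.sum_Lt_cons]
  refine Finset.sum_congr rfl fun q _ => ?_
  rw [H284.sum_Lt_nil]
  rfl

theorem bv_of_lt {Λ : Type*} {V : Λ → Finset Ω} {l m : Λ} {T : Multiset Ω → ℝ} {w : ℝ}
    (hw : 0 ≤ w) (h : ∑ ω ∈ Lt V [l, m], T (ω : Multiset Ω) ^ 2 ≤ w ^ 2) :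
    BV w (V l) (V m) fun p q => T (p ::ₘ q ::ₘ 0) := by
  rw [sum_Lt_two l m (fun ω => T ω ^ 2)] at h
  exact bv_of_hs hw h

end bv

section fin

variable {ι : Type*} [Fintype ι] [DecidableEq ι] {V : ι → Type*} [∀ i, Fintype (V i)]
  [∀ i, DecidableEq (V i)] {J : Type*} [DecidableEq J] {lam : ∀ i, V i → ℝ}
  {mu : (∀ i, V i) → ℝ} {sc : ι → J} {ell : J → ℝ} {s : J} {b : ℕ}
  {p G h Kf σ L Λ ε κ δ g c1 c2 : ℝ} {R E : ι → ℝ}

theorem TopH.ell0 (H : TopH lam mu sc ell s b p G h Kf σ L Λ ε κ δ R E) (l : J) : 0 ≤ ell l :=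
  zero_le_one.trans (H.ell1 l)

/-- **`BdT.one`.** -/
theorem fin_one (H : TopH lam mu sc ell s b p G h Kf σ L Λ ε κ δ R E)
    {VV : J → Finset (Σ i, Option (V i))} (hV : ∀ l ω, ω ∈ VV l ↔ sc ω.1 = l) (hg : h ≤ g)
    (l : J) : ∑ ω ∈ Lt VV [l], Tn lam mu R E (ω : Multiset _) ^ 2 ≤ Real.exp (g * ell l) ^ 2 :=
  (one_top H hV l).trans (num_one (TopH.ell0 H) hg l)

/-- **`BdT.two`, one type is the top scale.** -/
theorem fin_two (H : TopH lam mu sc ell s b p G h Kf σ L Λ ε κ δ R E)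
    {VV : J → Finset (Σ i, Option (V i))} (hV : ∀ l ω, ω ∈ VV l ↔ sc ω.1 = l) (hg : 8 * h ≤ g)
    (hh : h ≤ 1 / 8) (hc2 : 2 * c2 ≤ 1 / 2 - 4 * h) {l : J} (hl : ell l ≤ ell s) :
    ∑ ω ∈ Lt VV [s, l], Tn lam mu R E (ω : Multiset _) ^ 2 ≤ Nn ell g c2 s l ^ 2 ∧
    ∑ ω ∈ Lt VV [l, s], Tn lam mu R E (ω : Multiset _) ^ 2 ≤ Nn ell g c2 l s ^ 2 := by
  have h1 := (two_top H hh hV l).trans (num_two (TopH.ell0 H) hg hc2 hl)
  refine ⟨h1, ?_⟩
  rw [typ_perm (List.Perm.swap s l []) (fun ω => Tn lam mu R E ω ^ 2), Nn_comm]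
  exact h1

/-- **`BdT.op`.** -/
theorem fin_op (H : TopH lam mu sc ell s b p G h Kf σ L Λ ε κ δ R E)
    (hs : ell s ≤ (2 - 4 * G) * p)
    {VV : J → Finset (Σ i, Option (V i))} (hV : ∀ l ω, ω ∈ VV l ↔ sc ω.1 = l) (hg : 0 ≤ g)
    (hc1 : 0 ≤ c1) (hc : 4 * (c1 + g) ≤ G - 8 * h) (l m : J) :
    BV (Real.exp (g * ell l) * Real.exp (-(c1 * ell m)) / Real.exp (g * ell m)) (VV l) (VV m)
      (fun p q => Tn lam mu R E (p ::ₘ q ::ₘ 0)) :=
  bv_mono (op_num H hs hV l m) (num_op (TopH.ell0 H) hg hc (by linarith) l m)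

end fin

end Vale.Agent.P042.H232
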