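import Vale.Agent.P042.H365.NumH
import Vale.Agent.P042.H365.TOp
import Vale.Agent.P042.H48.Tot1

/-!
# P042, row F.B3: the numbers of the typed norms of order one and two, and of the operator norm

At one law all of whose sites have scales at most `ell s` (helper365's `TopH`).
-/

set_option linter.unusedSectionVars false

namespace Vale.Agent.P042.H232

open Finset Vale.Agent.P042.H461 Vale.Agent.P042.H742 Vale.Agent.P042.H365
open Vale.Agent.P042.H779 (marg m1)
open Vale.Agent.P042.H284 (BV Lt pr pr_nonneg pr_perm BdT)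
open Vale.Agent.P042.H416

theorem rate_eq (F x : ℝ) : rate F x = Real.exp (min 0 (F - x)) := by
  unfold rate
  rcases le_total 0 (F - x) with h | h
  · rw [min_eq_left h, Real.exp_zero, min_eq_left (Real.one_le_exp h)]
  · rw [min_eq_right h, min_eq_right]
    have := Real.exp_le_exp.2 h
    rwa [Real.exp_zero] at this

/-- The gain `x / 2` minus the loss of the rate is at least `(G / 2) x` up to `(2 - 4 G) p`. -/
theorem key_fx {G p x : ℝ} (hG0 : 0 < G) (hG1 : G ≤ 1 / 4) (hp : 0 ≤ p) (hx0 : 0 ≤ x)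
    (hx : x ≤ (2 - 4 * G) * p) : G / 2 * x ≤ x / 2 + min 0 ((1 - G) * p - x) := by
  rcases le_total 0 ((1 - G) * p - x) with h | h
  · rw [min_eq_left h]
    nlinarith
  · rw [min_eq_right h]
    have h1 : (1 + G) * x ≤ (1 + G) * ((2 - 4 * G) * p) := mul_le_mul_of_nonneg_left hx (by linarith)
    have h2 : 0 ≤ G * p := mul_nonneg hG0.le hp
    have h3 : 0 ≤ G * (G * p) := mul_nonneg hG0.le h2
    nlinarith

variable {ι : Type*} [Fintype ι] [DecidableEq ι] {V : ι → Type*} [∀ i, Fintype (V i)]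
  [∀ i, DecidableEq (V i)] {J : Type*} [DecidableEq J] {lam : ∀ i, V i → ℝ}
  {mu : (∀ i, V i) → ℝ} {sc : ι → J} {ell : J → ℝ} {s : J} {b : ℕ} {p G h Kf σ L Λ ε κ δ : ℝ}
  {R E : ι → ℝ}

section basic

theorem TopH.kf (H : TopH lam mu sc ell s b p G h Kf σ L Λ ε κ δ R E) : 128 ≤ Kf := by
  have h1 : (1 : ℝ) ≤ b := by exact_mod_cast H.b1
  linarith [H.Kf1]

theorem TopH.sb (H : TopH lam mu sc ell s b p G h Kf σ L Λ ε κ δ R E) :
    1000 * (Kf * σ * b) ≤ 1 := by
  have h1 : (1 : ℝ) ≤ b := by exact_mod_cast H.b1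
  have h2 : (b : ℝ) ≤ b ^ 4 := le_self_pow₀ h1 (by norm_num)
  have h3 : 0 ≤ Kf * σ := mul_nonneg (by linarith [TopH.kf H]) H.s0.le
  calc 1000 * (Kf * σ * b) ≤ 1000 * (Kf * σ * b ^ 4) := by
        have := mul_le_mul_of_nonneg_left h2 h3
        linarith
    _ = 1000 * Kf * σ * b ^ 4 := by ring
    _ ≤ 1 := H.s1

theorem TopH.sKf (H : TopH lam mu sc ell s b p G h Kf σ L Λ ε κ δ R E) :
    1000 * (Kf * σ) ≤ 1 := by
  have h1 : (1 : ℝ) ≤ b := by exact_mod_cast H.b1
  have h3 : 0 ≤ Kf * σ := mul_nonneg (by linarith [TopH.kf H]) H.s0.le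
  have := TopH.sb H
  nlinarith

theorem TopH.ss (H : TopH lam mu sc ell s b p G h Kf σ L Λ ε κ δ R E) :
    1000 * σ ≤ 1 := by
  have h1 := TopH.kf H
  have h2 := TopH.sKf H
  have h3 := H.s0
  nlinarith

theorem TopH.F0 (H : TopH lam mu sc ell s b p G h Kf σ L Λ ε κ δ R E) : 0 ≤ (1 - G) * p :=
  mul_nonneg (by linarith [H.G1]) H.p0

/-- The total mass of the letters of one site. -/
theorem site_le (H : TopH lam mu sc ell s b p G h Kf σ L Λ ε κ δ R E) (hh : h ≤ 1 / 8) (i : ι) :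
    R i * ∑ a, lam i a * g1 lam mu i a ^ 2 + E i ≤ 1 / 2 := by
  have hB := H.B 0 le_rfl (TopH.F0 H)
  have hx : 1 ≤ ell (sc i) := H.ell1 _
  have h0 := H.h0
  have h1 : ∑ a, lam i a * g1 lam mu i a ^ 2 ≤ Real.exp (h * ell (sc i)) ^ 2 := by
    calc ∑ a, lam i a * g1 lam mu i a ^ 2
        ≤ ∑ a, lam i a * Real.exp (h * ell (sc i)) ^ 2 := by
          refine Finset.sum_le_sum fun a _ => ?_
          by_cases hla : lam i a = 0
          · rw [hla]; simp
          · refine mul_le_mul_of_nonneg_left ?_ (hB.ref.nonneg i a)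
            rw [← sq_abs]
            exact pow_le_pow_left₀ (abs_nonneg _) (hB.g1_le i a hla) 2
      _ = _ := by rw [← Finset.sum_mul, hB.ref.sum_one, one_mul]
  have h2 : R i * ∑ a, lam i a * g1 lam mu i a ^ 2 ≤
      σ * Real.exp (-(1 / 2) * ell (sc i) + h * ell (sc i)) * Real.exp (h * ell (sc i)) ^ 2 :=
    mul_le_mul (H.R1 i) h1 (Finset.sum_nonneg fun a _ =>
      mul_nonneg (hB.ref.nonneg i a) (sq_nonneg _)) (mul_nonneg H.s0.le (Real.exp_nonneg _))
  have h3 : Real.exp (-(1 / 2) * ell (sc i) + h * ell (sc i)) * Real.exp (h * ell (sc i)) ^ 2 ≤ 1 := by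
    rw [← Real.exp_nat_mul, ← Real.exp_add, Real.exp_le_one_iff]
    push_cast
    nlinarith
  have h4 : Real.exp (-ell (sc i) + h * ell (sc i)) ≤ 1 := by
    rw [Real.exp_le_one_iff]
    nlinarith
  have h5 := H.E1 i
  have h6 := TopH.ss H
  have h7 := H.s0
  have h8 : σ * Real.exp (-(1 / 2) * ell (sc i) + h * ell (sc i)) * Real.exp (h * ell (sc i)) ^ 2
      ≤ σ := by
    rw [mul_assoc]
    exact mul_le_of_le_one_right h7.le h3
  have h9 : σ * Real.exp (-ell (sc i) + h * ell (sc i)) ≤ σ := mul_le_of_le_one_right h7.le h4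
  linarith

end basic

section one

/-- **Order one.** -/
theorem one_top (H : TopH lam mu sc ell s b p G h Kf σ L Λ ε κ δ R E)
    {VV : J → Finset (Σ i, Option (V i))} (hV : ∀ l ω, ω ∈ VV l ↔ sc ω.1 = l) (l : J) :
    ∑ ω ∈ Lt VV [l], Tn lam mu R E (ω : Multiset _) ^ 2 ≤ Real.exp (2 * h * ell l) := by
  have hB := H.B 0 le_rfl (TopH.F0 H)
  refine le_trans (le_of_eq ?_) (H.lev l)
  have h0 := root_ext (lam := lam) (mu := mu) (R := R) (E := E) (r := R) (E' := E) hB.sum hV l 0
  rw [if_pos rfl] at h0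
  rw [H284.sum_Lt_cons]
  have h1 : ∑ ω ∈ VV l, wo lam R E ω * rowo lam mu (wo lam R E) 0 ω ^ 2 =
      ∑ a ∈ VV l, ∑ ω ∈ Lt VV [], Tn lam mu R E ((a :: ω : List _) : Multiset _) ^ 2 := by
    refine Finset.sum_congr rfl fun a _ => ?_
    rw [H284.sum_Lt_nil, tn_eq_scal, scal_sq (wo_nonneg hB.ref.nonneg (fun i => (H.R0 i).le)
      fun i => (H.E0 i).le)]
    unfold rowo
    rw [nrm_zero, sq_abs]
    have h2 : (((a :: [] : List _) : Multiset (Σ i, Option (V i)))) = a ::ₘ 0 := rfl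
    rw [h2, if_pos (by simp [Dst])]
    simp
  rw [← h1, h0, Finset.sum_add_distrib]
  congr 1
  refine Finset.sum_congr rfl fun i _ => ?_
  congr 1
  refine Finset.sum_congr rfl fun a _ => ?_
  unfold rowh
  rw [H232.row_zero hB.sum, sq_abs]

end one

section two

/-- Two letters at the same site. -/
theorem same_le (H : TopH lam mu sc ell s b p G h Kf σ L Λ ε κ δ R E) (hh : h ≤ 1 / 8)
    {VV : J → Finset (Σ i, Option (V i))} (hV : ∀ l ω, ω ∈ VV l ↔ sc ω.1 = l) (l : J) :
    ∑ a ∈ VV l, ∑ b ∈ VV l, (if a.1 = b.1 then (wo lam R E a * cumT (Mo lam mu) {a} ^ 2) *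
      (wo lam R E b * cumT (Mo lam mu) {b} ^ 2) else 0) ≤ 1 / 2 * Real.exp (2 * h * ell l) := by
  have hB := H.B 0 le_rfl (TopH.F0 H)
  set f : (Σ i, Option (V i)) → ℝ := fun a => wo lam R E a * cumT (Mo lam mu) {a} ^ 2 with hf
  have hw := wo_nonneg (lam := lam) (R := R) (E := E) hB.ref.nonneg (fun i => (H.R0 i).le)
    fun i => (H.E0 i).le
  have hf0 : ∀ a, 0 ≤ f a := fun a => mul_nonneg (hw a) (sq_nonneg _)
  have hsite : ∀ i, f (no i) + ∑ a, f (em ⟨i, a⟩) =
      R i * ∑ a, lam i a * g1 lam mu i a ^ 2 + E i := by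
    intro i
    have e1 : f (no i) = E i := by
      simp only [hf]
      have := nrm_Mo_no_zero (lam := lam) hB.sum (wo lam R E) i
      rw [nrm_zero, if_pos (by simp [Dst])] at this
      have h2 : ((no i : Σ i, Option (V i)) ::ₘ (0 : Multiset (Σ i, Option (V i)))) = {no i} := rfl
      rw [h2] at this
      rw [← sq_abs, this, wo_no]
      ring
    have e2 : ∀ a, f (em ⟨i, a⟩) = lam i a * R i * g1 lam mu i a ^ 2 := by
      intro a
      simp only [hf]
      have h3 := nrm_Mo_em (lam := lam) hB.sum (wo lam R E) ⟨i, a⟩ 0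
      rw [nrm_zero, nrm_zero, if_pos (by simp [Dst]), if_pos (by simp [Dst])] at h3
      have h2 : ((em (⟨i, a⟩ : Σ i, V i)) ::ₘ (0 : Multiset (Σ i, Option (V i)))) =
        {em ⟨i, a⟩} := rfl
      have h4 : ((⟨i, a⟩ : Σ i, V i) ::ₘ (0 : Multiset (Σ i, V i))) = {⟨i, a⟩} := rfl
      rw [h2, h4, cum_one hB.sum] at h3
      rw [← sq_abs, h3, sq_abs]
      rfl
    rw [e1, add_comm, Finset.mul_sum]
    congr 1
    refine Finset.sum_congr rfl fun a _ => ?_
    rw [e2]
    ring
  have h1 : ∑ a ∈ VV l, ∑ b ∈ VV l, (if a.1 = b.1 then f a * f b else 0) =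
      ∑ i with sc i = l, (f (no i) + ∑ a, f (em ⟨i, a⟩)) ^ 2 := by
    have h2 : ∀ a ∈ VV l, ∑ b ∈ VV l, (if a.1 = b.1 then f a * f b else 0) =
        f a * (f (no a.1) + ∑ c, f (em ⟨a.1, c⟩)) := by
      intro a ha
      rw [sum_VV hV, Finset.sum_eq_single a.1]
      · rw [mul_add, Finset.mul_sum]
        congr 1
        · exact if_pos rfl
        · exact Finset.sum_congr rfl fun c _ => if_pos rfl
      · intro j _ hj
        have h3 : ∀ w : Σ i, Option (V i), w.1 = j → (if a.1 = w.1 then f a * f w else 0) = 0 :=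
          fun w hw => if_neg fun h => hj (by rw [h, hw])
        rw [h3 _ rfl, Finset.sum_eq_zero fun c _ => h3 _ rfl, add_zero]
      · intro hj
        exact absurd (Finset.mem_filter.2 ⟨Finset.mem_univ a.1, (hV l a).1 ha⟩) hj
    rw [Finset.sum_congr rfl h2, sum_VV hV]
    refine Finset.sum_congr rfl fun i _ => ?_
    rw [pow_two, add_mul, Finset.sum_mul]
    rfl
  show ∑ a ∈ VV l, ∑ b ∈ VV l, (if a.1 = b.1 then f a * f b else 0) ≤ _
  rw [h1]
  calc ∑ i with sc i = l, (f (no i) + ∑ a, f (em ⟨i, a⟩)) ^ 2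
      ≤ ∑ i with sc i = l, 1 / 2 * (R i * ∑ a, lam i a * g1 lam mu i a ^ 2 + E i) := by
        refine Finset.sum_le_sum fun i _ => ?_
        rw [hsite i, pow_two]
        refine mul_le_mul_of_nonneg_right (site_le H hh i) ?_
        have h3 : 0 ≤ ∑ a, lam i a * g1 lam mu i a ^ 2 := Finset.sum_nonneg fun a _ =>
          mul_nonneg (hB.ref.nonneg i a) (sq_nonneg _)
        have := mul_nonneg (H.R0 i).le h3
        have := (H.E0 i).le
        linarith
    _ = 1 / 2 * ∑ i with sc i = l, (R i * ∑ a, lam i a * g1 lam mu i a ^ 2 + E i) := by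
        rw [Finset.mul_sum]
    _ ≤ _ := mul_le_mul_of_nonneg_left (H.lev l) (by norm_num)

theorem sum_Iia_nonneg {t : ι → ℝ} (hmu : IsLaw mu) (h0 : ∀ i, 0 ≤ t i) (h1 : ∀ i, t i ≤ 1)
    (i : ι) : 0 ≤ ∑ a, m1 mu i a * Iia t mu i a := by
  rw [H48.sum_Iia t hmu i]
  exact Finset.sum_nonneg fun R' _ => mul_nonneg (bw_nonneg h0 h1 R') (H48.MI_nonneg hmu i R')

theorem sum_eq_zero_of_empty {VV : J → Finset (Σ i, Option (V i))}
    (hV : ∀ l ω, ω ∈ VV l ↔ sc ω.1 = l) {l : J} (hl : ∀ i, sc i ≠ l) : VV l = ∅ := by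
  ext ω
  rw [hV]
  simp [hl]

/-- **Order two, root at the top scale.** -/
theorem two_top (H : TopH lam mu sc ell s b p G h Kf σ L Λ ε κ δ R E) (hh : h ≤ 1 / 8)
    {VV : J → Finset (Σ i, Option (V i))} (hV : ∀ l ω, ω ∈ VV l ↔ sc ω.1 = l) (l : J) :
    ∑ ω ∈ Lt VV [s, l], Tn lam mu R E (ω : Multiset _) ^ 2 ≤
      Real.exp (16 * h * ell l - (1 / 2 - 4 * h) * (ell s - ell l)) := by
  by_cases hex : ∃ i, sc i = l
  swap
  · push Not at hex
    rw [H284.sum_Lt_cons]
    refine le_trans (le_of_eq ?_) (Real.exp_nonneg _)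
    refine Finset.sum_eq_zero fun a _ => ?_
    rw [H284.sum_Lt_cons, sum_eq_zero_of_empty hV hex, Finset.sum_empty]
  have hls : ell l ≤ ell s := by
    obtain ⟨i, hi⟩ := hex
    rw [← hi]
    exact H.top i
  have hh0 := H.h0
  have hl1 := H.ell1 l
  have hs1 := H.ell1 s
  have hKf : 0 < Kf := by linarith [TopH.kf H]
  set F : ℝ := min (ell l) ((1 - G) * p) with hF
  have hF0 : 0 ≤ F := le_min (by linarith) (TopH.F0 H)
  have hF1 : F ≤ (1 - G) * p := min_le_right _ _
  have hFl : F ≤ ell l := min_le_left _ _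
  have hB := H.B F hF0 hF1
  have hT := H.T F hF0 hF1
  set r : ι → ℝ := fun i => rate F (ell (sc i)) / Kf / Real.exp (h * ell (sc i)) with hr
  have hr0 : ∀ i, 0 ≤ r i := fun i =>
    div_nonneg (div_nonneg (rate_pos _ _).le hKf.le) (Real.exp_nonneg _)
  set q : ℝ := σ * Kf * Real.exp (ell l / 2 + 2 * h * ell l - F) with hq
  have hq0 : 0 < q := mul_pos (mul_pos H.s0 hKf) (Real.exp_pos _)
  set E' : ι → ℝ := fun i => E i / q with hE'
  have hE'0 : ∀ i, 0 ≤ E' i := fun i => div_nonneg (H.E0 i).le hq0.le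
  have hqR : ∀ i, sc i = l → R i ≤ q * r i := by
    intro i hi
    refine (H.R1 i).trans (le_of_eq ?_)
    simp only [hq, hr]
    rw [rate_eq, hi, min_eq_right (by linarith)]
    have h1 : Real.exp (ell l / 2 + 2 * h * ell l - F) * Real.exp (F - ell l) =
        Real.exp (-(1 / 2) * ell l + h * ell l) * Real.exp (h * ell l) := by
      rw [← Real.exp_add, ← Real.exp_add]
      congr 1
      ring
    have h2 := (Real.exp_pos (h * ell l)).ne'
    have h3 := hKf.ne'
    revert h1 h2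
    generalize Real.exp (ell l / 2 + 2 * h * ell l - F) = xA
    generalize Real.exp (F - ell l) = xB
    generalize Real.exp (h * ell l) = xC
    generalize Real.exp (-(1 / 2) * ell l + h * ell l) = xD
    intro h1 h2
    have h4 : σ * Kf * xA * (xB / Kf / xC) = σ * (xA * xB) / xC := by field_simp
    rw [h4, h1]
    field_simp
  have hm0 := wo_nonneg (lam := lam) (R := R) (E := E) hB.ref.nonneg (fun i => (H.R0 i).le)
    fun i => (H.E0 i).le
  have hm := wo_nonneg (lam := lam) (R := r) (E := E') hB.ref.nonneg hr0 hE'0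
  have h1 := typ_two (V := VV) (isCumC_Mo (lam := lam) hB.sum) hm hm0 (l := s) (l' := l) hq0.le
    (by
      rintro ⟨i, a⟩ ha
      have hi : sc i = l := (hV _ _).1 ha
      cases a with
      | none =>
        show E i ≤ q * (E i / q)
        rw [mul_div_cancel₀ _ hq0.ne']
      | some a =>
        show lam i a * R i ≤ q * (lam i a * r i)
        have := mul_le_mul_of_nonneg_left (hqR i hi) (hB.ref.nonneg i a)
        linarith)
  rw [← tn_eq_scal] at h1
  refine h1.trans ?_
  -- the root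
  set PP : ℝ := σ * Real.exp (-(1 / 2) * ell s + 2 * h * ell s) * Real.exp (F + h * ell s) with hPP
  have hPP0 : 0 ≤ PP := mul_nonneg (mul_nonneg H.s0.le (Real.exp_nonneg _)) (Real.exp_nonneg _)
  have hPPs : ∑ i with sc i = s, R i * Real.exp (h * ell (sc i)) *
      ∑ a, m1 mu i a * Iia (fun i => rate F (ell (sc i)) / Kf) mu i a ≤ PP := by
    have h2 : ∀ i ∈ univ.filter (fun i => sc i = s), R i * Real.exp (h * ell (sc i)) *
        ∑ a, m1 mu i a * Iia (fun i => rate F (ell (sc i)) / Kf) mu i a ≤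
        σ * Real.exp (-(1 / 2) * ell s + 2 * h * ell s) *
        ∑ a, m1 mu i a * Iia (fun i => rate F (ell (sc i)) / Kf) mu i a := by
      intro i hi
      have hi' : sc i = s := (Finset.mem_filter.1 hi).2
      refine mul_le_mul_of_nonneg_right ?_ (sum_Iia_nonneg hB.law (fun j => (hB.t0 j).le) hB.t1 i)
      have h3 := mul_le_mul_of_nonneg_right (H.R1 i) (Real.exp_nonneg (h * ell (sc i)))
      refine h3.trans (le_of_eq ?_)
      rw [hi', mul_assoc, ← Real.exp_add]
      congr 2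
      ring
    refine (Finset.sum_le_sum h2).trans ?_
    rw [← Finset.mul_sum]
    exact mul_le_mul_of_nonneg_left hT (mul_nonneg H.s0.le (Real.exp_nonneg _))
  have h2 : ∑ a ∈ VV s, wo lam R E a *
      nrm (wo lam r E') 1 (fun S => if Dst Sigma.fst (a ::ₘ S) then cumT (Mo lam mu) (a ::ₘ S)
        else 0) ^ 2 ≤ 12 * PP * (b + 1) := by
    have h3 := root_ext (lam := lam) (mu := mu) (R := R) (E := E) (r := r) (E' := E') hB.sum hV s 1
    rw [if_neg (by norm_num), add_zero] at h3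
    unfold rowo at h3
    rw [h3]
    have hbD : 1 + 1 ≤ b + 1 := by have := H.b1; omega
    have h4 := hB.total_le hr0 (fun i => le_rfl) (e := 1) le_rfl hbD
      (fun i => (H.R0 i).le) (S := univ.filter fun i => sc i = s) hPPs
    unfold rowh
    refine h4.trans (le_of_eq ?_)
    rw [Nat.factorial_one, Nat.cast_one, one_mul, pow_one, Real.sq_sqrt (Nat.cast_nonneg _)]
    push_cast
    ring
  have h3 : q * (12 * PP * (b + 1)) ≤
      1 / 2 * Real.exp (16 * h * ell l - (1 / 2 - 4 * h) * (ell s - ell l)) := by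
    have e1 : q * (12 * PP * (b + 1)) = (12 * (Kf * σ * (b + 1)) * σ) *
        Real.exp (5 * h * ell l - (1 / 2 - 3 * h) * (ell s - ell l)) := by
      have e2 : Real.exp (5 * h * ell l - (1 / 2 - 3 * h) * (ell s - ell l)) =
          Real.exp (ell l / 2 + 2 * h * ell l - F) *
          Real.exp (-(1 / 2) * ell s + 2 * h * ell s) * Real.exp (F + h * ell s) := by
        rw [← Real.exp_add, ← Real.exp_add]
        congr 1
        ring
      rw [e2, hq, hPP]
      ring
    have hb : (1 : ℝ) ≤ b := by exact_mod_cast H.b1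
    have hsb := TopH.sb H
    have hss := TopH.ss H
    have hs0 := H.s0
    have hKs : 0 ≤ Kf * σ := by positivity
    have e3 : 12 * (Kf * σ * (b + 1)) * σ ≤ 1 / 2 := by
      have e4 : Kf * σ * (b + 1) ≤ 2 * (Kf * σ * b) := by nlinarith
      have e5 : 12 * (Kf * σ * (b + 1)) ≤ 1 := by linarith
      have e6 : 12 * (Kf * σ * (b + 1)) * σ ≤ 1 * σ := mul_le_mul_of_nonneg_right e5 hs0.le
      linarith
    rw [e1]
    refine mul_le_mul e3 (Real.exp_le_exp.2 ?_) (Real.exp_nonneg _) (by norm_num)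
    have e7 : 0 ≤ h * (ell s - ell l) := mul_nonneg hh0.le (by linarith)
    have e8 : 0 ≤ h * ell l := mul_nonneg hh0.le (by linarith)
    nlinarith
  have h4 : ∑ a ∈ VV s, ∑ b ∈ VV l, (if a.1 = b.1 then
      (wo lam R E a * cumT (Mo lam mu) {a} ^ 2) * (wo lam R E b * cumT (Mo lam mu) {b} ^ 2)
      else 0) ≤ 1 / 2 * Real.exp (16 * h * ell l - (1 / 2 - 4 * h) * (ell s - ell l)) := by
    by_cases hsl : s = l
    · subst hsl
      refine (same_le H hh hV s).trans ?_
      refine mul_le_mul_of_nonneg_left (Real.exp_le_exp.2 ?_) (by norm_num)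
      have e8 : 0 ≤ h * ell s := mul_nonneg hh0.le (by linarith)
      nlinarith
    · rw [Finset.sum_eq_zero]
      · exact mul_nonneg (by norm_num) (Real.exp_nonneg _)
      · intro a ha
        refine Finset.sum_eq_zero fun c hc => if_neg fun hac => hsl ?_
        rw [← (hV _ _).1 ha, ← (hV _ _).1 hc, hac]
  have h5 := mul_le_mul_of_nonneg_left h2 hq0.le
  linarith

end two

section op

/-- **The operator norm.** -/
theorem op_num (H : TopH lam mu sc ell s b p G h Kf σ L Λ ε κ δ R E)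
    (hs : ell s ≤ (2 - 4 * G) * p)
    {VV : J → Finset (Σ i, Option (V i))} (hV : ∀ l ω, ω ∈ VV l ↔ sc ω.1 = l) (l m : J) :
    BV (√(Real.exp (-(G / 2) * ell l + 4 * h * ell l) *
      Real.exp (-(G / 2) * ell m + 4 * h * ell m))) (VV l) (VV m)
      (fun p q => Tn lam mu R E (p ::ₘ q ::ₘ 0)) := by
  have hB := H.B ((1 - G) * p) (TopH.F0 H) le_rfl
  have hKf : 0 < Kf := by linarith [TopH.kf H]
  refine op_T hB.near hB.D1 hB.law.1 hB.sum hB.ref.nonneg hB.ref.sum_one (fun i => (H.R0 i).le)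
    (fun i => (H.E0 i).le) hB.t0 (fun i => (Real.exp_pos _).le) (H678.m1_le_M hB.law hB.i1 hB.D1) hV
    (o := fun l => Real.exp (-(G / 2) * ell l + 4 * h * ell l)) (fun i => ?_) l m
  have hx1 := H.ell1 (sc i)
  have hx2 : ell (sc i) ≤ (2 - 4 * G) * p := (H.top i).trans hs
  set x := ell (sc i) with hx
  have hh0 := H.h0
  have hG0 := H.G0
  have hG1 := H.G1
  have hs0 := H.s0
  have hkey := key_fx hG0 hG1 H.p0 (by linarith) hx2
  have hhx : 0 ≤ h * x := mul_nonneg hh0.le (by linarith)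
  have hGx : 0 ≤ G * x := mul_nonneg hG0.le (by linarith)
  have hR := H.R1 i
  have hE := H.E1 i
  rw [← hx] at hR hE
  have hM1 : 1 ≤ Real.exp (h * x) := Real.one_le_exp hhx
  -- the three terms
  have t2 : 2 * (Real.exp (h * x) * R i) ≤ 2 * σ * Real.exp (-(G / 2) * x + 4 * h * x) := by
    have e1 : Real.exp (h * x) * R i ≤
        Real.exp (h * x) * (σ * Real.exp (-(1 / 2) * x + h * x)) :=
      mul_le_mul_of_nonneg_left hR (Real.exp_nonneg _)
    have e2 : Real.exp (h * x) * (σ * Real.exp (-(1 / 2) * x + h * x)) =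
        σ * Real.exp (-(1 / 2) * x + 2 * h * x) := by
      rw [mul_left_comm, ← Real.exp_add]
      congr 2
      ring
    have e3 : Real.exp (-(1 / 2) * x + 2 * h * x) ≤ Real.exp (-(G / 2) * x + 4 * h * x) := by
      rw [Real.exp_le_exp]
      nlinarith
    have e4 := mul_le_mul_of_nonneg_left e3 hs0.le
    linarith
  have t3 : 2 * E i ≤ 2 * σ * Real.exp (-(G / 2) * x + 4 * h * x) := by
    have e3 : Real.exp (-x + h * x) ≤ Real.exp (-(G / 2) * x + 4 * h * x) := by
      rw [Real.exp_le_exp]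
      nlinarith
    have e4 := mul_le_mul_of_nonneg_left e3 hs0.le
    linarith
  have t1 : Real.exp (h * x) * (1 + Real.exp (h * x)) * R i / (rate ((1 - G) * p) x / Kf) ≤
      2 * (Kf * σ) * Real.exp (-(G / 2) * x + 4 * h * x) := by
    rw [rate_eq, div_div_eq_mul_div, div_le_iff₀ (Real.exp_pos _)]
    have e1 : Real.exp (h * x) * (1 + Real.exp (h * x)) * R i * Kf ≤
        Real.exp (h * x) * (2 * Real.exp (h * x)) *
          (σ * Real.exp (-(1 / 2) * x + h * x)) * Kf := by
      refine mul_le_mul_of_nonneg_right (mul_le_mul (mul_le_mul_of_nonneg_left (by linarith)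
        (Real.exp_nonneg _)) hR (H.R0 i).le (by positivity)) hKf.le
    refine e1.trans ?_
    have e2 : Real.exp (h * x) * (2 * Real.exp (h * x)) *
        (σ * Real.exp (-(1 / 2) * x + h * x)) * Kf =
        2 * (Kf * σ) * Real.exp (-(1 / 2) * x + 3 * h * x) := by
      have e3 : Real.exp (-(1 / 2) * x + 3 * h * x) =
          Real.exp (h * x) * Real.exp (h * x) * Real.exp (-(1 / 2) * x + h * x) := by
        rw [← Real.exp_add, ← Real.exp_add]
        congr 1
        ring
      rw [e3]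
      ring
    rw [e2, mul_assoc (2 * (Kf * σ)), ← Real.exp_add]
    refine mul_le_mul_of_nonneg_left (Real.exp_le_exp.2 ?_) (by positivity)
    linarith
  have hX := Real.exp_pos (-(G / 2) * x + 4 * h * x)
  have hsKf := TopH.sKf H
  have hss := TopH.ss H
  have hfin : (2 * (Kf * σ) + 2 * σ + 2 * σ) * Real.exp (-(G / 2) * x + 4 * h * x) ≤
      1 * Real.exp (-(G / 2) * x + 4 * h * x) :=
    mul_le_mul_of_nonneg_right (by linarith) hX.le
  show Real.exp (h * x) * (1 + Real.exp (h * x)) * R i / (rate ((1 - G) * p) x / Kf) +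
    2 * (Real.exp (h * x) * R i) + 2 * E i ≤ Real.exp (-(G / 2) * x + 4 * h * x)
  linarith

end op

end Vale.Agent.P042.H232
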