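import Vale.Agent.P042.H232.Rep

/-!
# P042, seam [B] → [C]: closure of the recursions of `Rep.lean`
-/

namespace Vale.Agent.P042.H232

open Finset

lemma acf (i j : ℕ) : (i + j).choose i * i.factorial * j.factorial = (i + j).factorial := by
  have := Nat.choose_mul_factorial_mul_factorial (Nat.le_add_right i j)
  rwa [Nat.add_sub_cancel_left] at this

lemma cv_fact (e : ℕ) (A B θ : ℝ) :
    cv e (fun n => A * (n.factorial * θ ^ n)) (fun n => B * (n.factorial * θ ^ n))
      = A * B * ((e + 1).factorial * θ ^ e) := by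
  unfold cv
  have h : ∀ p ∈ antidiagonal e, (e.choose p.1 : ℝ) * (A * (p.1.factorial * θ ^ p.1) *
      (B * (p.2.factorial * θ ^ p.2))) = A * B * (e.factorial * θ ^ e) := by
    intro p hp
    have hp' : p.1 + p.2 = e := Finset.HasAntidiagonal.mem_antidiagonal.1 hp
    subst hp'
    have h1 : (((p.1 + p.2).choose p.1 : ℕ) : ℝ) * p.1.factorial * p.2.factorial
        = (p.1 + p.2).factorial := by
      exact_mod_cast acf p.1 p.2
    rw [← h1, pow_add]
    ring
  rw [Finset.sum_congr rfl h, Finset.sum_const, Finset.Nat.card_antidiagonal, nsmul_eq_mul,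
    Nat.factorial_succ]
  push_cast
  ring

lemma cv_fact_succ (e : ℕ) (A B θ : ℝ) :
    cv e (fun n => A * ((n + 1).factorial * θ ^ n)) (fun n => B * (n.factorial * θ ^ n))
      = A * B * ((e + 2).factorial * θ ^ e) / 2 := by
  unfold cv
  have h : ∀ p ∈ antidiagonal e, (e.choose p.1 : ℝ) * (A * ((p.1 + 1).factorial * θ ^ p.1) *
      (B * (p.2.factorial * θ ^ p.2))) = A * B * (e.factorial * θ ^ e) * (p.1 + 1) := by
    intro p hp
    have hp' : p.1 + p.2 = e := Finset.HasAntidiagonal.mem_antidiagonal.1 hp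
    subst hp'
    have h1 : (((p.1 + p.2).choose p.1 : ℕ) : ℝ) * p.1.factorial * p.2.factorial
        = (p.1 + p.2).factorial := by
      exact_mod_cast acf p.1 p.2
    rw [← h1, pow_add, Nat.factorial_succ]
    push_cast
    ring
  rw [Finset.sum_congr rfl h, ← Finset.mul_sum]
  have h2 : ∑ p ∈ antidiagonal e, ((p.1 : ℝ) + 1) = (e + 1) * (e + 2) / 2 := by
    rw [Finset.Nat.sum_antidiagonal_eq_sum_range_succ_mk]
    simp only
    induction e with
    | zero => norm_num
    | succ k ih =>
      rw [Finset.sum_range_succ, ih]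
      · push_cast; ring
      · intro p hp
        have hp' : p.1 + p.2 = k := Finset.HasAntidiagonal.mem_antidiagonal.1 hp
        subst hp'
        have h1 : (((p.1 + p.2).choose p.1 : ℕ) : ℝ) * p.1.factorial * p.2.factorial
            = (p.1 + p.2).factorial := by
          exact_mod_cast acf p.1 p.2
        rw [← h1, pow_add, Nat.factorial_succ]
        push_cast
        ring
  rw [h2, show e + 2 = (e + 1) + 1 from rfl, Nat.factorial_succ, Nat.factorial_succ]
  push_cast
  ring

variable {Ω : Type*} [Fintype Ω] {m : Ω → ℝ} {ι : Type*} [DecidableEq ι] {c : Ω → ι}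

/-- Closure for rows: if the distinct part of the rows is at most `K e! θ^e` then the full rows
are at most `2 K e! θ^e`. -/
theorem rows_closed {M T : Multiset Ω → ℝ} (h : IsCumC c M T) (hm : ∀ a, 0 ≤ m a) {s θ K : ℝ}
    (hs0 : 0 ≤ s) (hθ : 0 ≤ θ) (hK : 0 ≤ K)
    (hs : ∀ x, ∑ y, (if c y = c x then (1 : ℝ) else 0) * m y ≤ s ^ 2) (b0 : ℕ)
    (hsθ : 8 * b0 * (K * s) ≤ θ)
    (hd : ∀ e ≤ b0, ∀ a, nrm m e (fun S => if Dst c (a ::ₘ S) then T (a ::ₘ S) else 0)
      ≤ K * (e.factorial * θ ^ e)) :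
    ∀ e ≤ b0, ∀ a, rw' m T e a ≤ (2 * K) * (e.factorial * θ ^ e) := by
  intro e
  induction e using Nat.strong_induction_on with
  | _ e ih =>
    intro he a
    have hrec := row_rec h hm hs0 hs e (fun n => (2 * K) * (n.factorial * θ ^ n))
      (fun n hn b => ih n hn (by omega) b) (fun n => by positivity) a
    have hda := hd e he a
    rcases e with _ | e
    · simp only [Nat.cast_zero, zero_mul, add_zero, ite_self] at hrec
      refine (hrec.trans hda).trans ?_
      have : (0 : ℝ) ≤ K * (((0 : ℕ).factorial : ℝ) * θ ^ 0) := by positivity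
      linarith
    have h1 : cv (e + 1 - 1) (fun n => (2 * K) * ((n.factorial : ℝ) * θ ^ n))
        (fun n => (2 * K) * ((n.factorial : ℝ) * θ ^ n))
        = K * (K * (4 * ((e + 1).factorial * θ ^ e))) := by
      rw [Nat.add_sub_cancel, cv_fact]; ring
    rw [h1] at hrec
    have hsb : 8 * ((e : ℝ) + 1) * (K * s) ≤ θ := by
      refine le_trans ?_ hsθ
      have : (e : ℝ) + 1 ≤ b0 := by exact_mod_cast he
      have := mul_le_mul_of_nonneg_right this (mul_nonneg hK hs0)
      linarith
    have hf0 : (0 : ℝ) ≤ K * (((e + 1).factorial : ℝ) * θ ^ e) := by positivity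
    have h2 : (if e + 1 < 2 then (0 : ℝ) else ((e + 1 : ℕ) : ℝ) * s * (2 * cv (e + 1 - 2)
        (fun n => (2 * K) * (((n + 1).factorial : ℝ) * θ ^ (n + 1)))
        (fun n => (2 * K) * ((n.factorial : ℝ) * θ ^ n))))
        ≤ ((e + 1 : ℕ) : ℝ) * s * (K * (K * (4 * ((e + 1).factorial * θ ^ e)))) := by
      split_ifs with he2
      · positivity
      · obtain ⟨k, rfl⟩ : ∃ k, e = k + 1 := ⟨e - 1, by omega⟩
        have e1 : (fun n => (2 * K) * (((n + 1).factorial : ℝ) * θ ^ (n + 1)))
            = fun n => (2 * K * θ) * (((n + 1).factorial : ℝ) * θ ^ n) := by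
          funext n; rw [pow_succ]; ring
        rw [e1, show k + 1 + 1 - 2 = k from by omega, cv_fact_succ]
        apply le_of_eq
        rw [pow_succ]; ring
    have h3 : ((e + 1 : ℕ) : ℝ) * s * (K * (K * (4 * ((e + 1).factorial * θ ^ e))))
        + ((e + 1 : ℕ) : ℝ) * s * (K * (K * (4 * ((e + 1).factorial * θ ^ e))))
        ≤ K * ((e + 1).factorial * θ ^ (e + 1)) := by
      push_cast
      calc _ = (8 * ((e : ℝ) + 1) * (K * s)) * (K * (((e + 1).factorial : ℝ) * θ ^ e)) := by ring
        _ ≤ θ * (K * (((e + 1).factorial : ℝ) * θ ^ e)) := mul_le_mul_of_nonneg_right hsb hf0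
        _ = _ := by rw [pow_succ]; ring
    linarith

/-- Closure for totals. -/
theorem totals_closed {M T : Multiset Ω → ℝ} (h : IsCumC c M T) (hm : ∀ a, 0 ≤ m a)
    {s θ K A : ℝ} (hs0 : 0 ≤ s) (hθ : 0 ≤ θ) (hK : 0 ≤ K) (hA : 0 ≤ A)
    (hs : ∀ x, ∑ y, (if c y = c x then (1 : ℝ) else 0) * m y ≤ s ^ 2) (b0 : ℕ)
    (hsθ : 8 * b0 * (K * s) ≤ θ)
    (hd : ∀ e ≤ b0, ∀ a, nrm m e (fun S => if Dst c (a ::ₘ S) then T (a ::ₘ S) else 0)
      ≤ K * (e.factorial * θ ^ e))
    (hN : ∀ j, 1 ≤ j → j ≤ b0 → nrm m j (fun S => if Dst c S then T S else 0)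
      ≤ A * (j.factorial * θ ^ (j - 1))) :
    ∀ j, 1 ≤ j → j ≤ b0 → nrm m j T ≤ 2 * A * (j.factorial * θ ^ (j - 1)) := by
  have hrow := rows_closed h hm hs0 hθ hK hs b0 hsθ hd
  intro j
  induction j using Nat.strong_induction_on with
  | _ j ih =>
    intro hj1 hj
    rcases Nat.lt_or_ge j 2 with hj2 | hj2
    · have : j = 1 := by omega
      subst this
      have h0 := hN 1 le_rfl hj
      have h1 : nrm m 1 T = nrm m 1 (fun S => if Dst c S then T S else 0) := by
        simp [nrm, I_succ, Dst]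
      rw [h1]
      have h2 : (0 : ℝ) ≤ A * (((1 : ℕ).factorial : ℝ) * θ ^ (1 - 1)) := by positivity
      linarith
    obtain ⟨e, rfl⟩ : ∃ e, j = e + 2 := ⟨j - 2, by omega⟩
    have hrec := total_rec h hm hs0 hs e (fun n => (2 * K) * (n.factorial * θ ^ n))
      (fun n hn b => hrow n (by omega) b) (fun n => by positivity)
    have h0 := hN (e + 2) (by omega) hj
    have h1 : cv e (fun n => nrm m (n + 1) T) (fun n => (2 * K) * ((n.factorial : ℝ) * θ ^ n))
        ≤ cv e (fun n => (2 * A) * (((n + 1).factorial : ℝ) * θ ^ n))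
          (fun n => (2 * K) * ((n.factorial : ℝ) * θ ^ n)) := by
      apply cv_le (fun n => nrm_nonneg _ _) (fun n => by positivity)
      · intro n hn
        have := ih (n + 1) (by omega) (by omega) (by omega)
        rwa [Nat.add_sub_cancel] at this
      · intro n _
        exact le_rfl
    rw [cv_fact_succ] at h1
    have hsb : 8 * ((e : ℝ) + 2) * (K * s) ≤ θ := by
      refine le_trans ?_ hsθ
      have : (e : ℝ) + 2 ≤ b0 := by exact_mod_cast hj
      have := mul_le_mul_of_nonneg_right this (mul_nonneg hK hs0)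
      linarith
    have h2 : ((e : ℝ) + 2) * s * cv e (fun n => nrm m (n + 1) T)
        (fun n => (2 * K) * ((n.factorial : ℝ) * θ ^ n))
        ≤ A * ((e + 2).factorial * θ ^ (e + 2 - 1)) := by
      have h3 : ((e : ℝ) + 2) * s * cv e (fun n => nrm m (n + 1) T)
          (fun n => (2 * K) * ((n.factorial : ℝ) * θ ^ n))
          ≤ ((e : ℝ) + 2) * s * (2 * A * (2 * K) * ((e + 2).factorial * θ ^ e) / 2) :=
        mul_le_mul_of_nonneg_left h1 (by positivity)
      have hf0 : (0 : ℝ) ≤ A * (((e + 2).factorial : ℝ) * θ ^ e) := by positivity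
      have h4 : (2 * ((e : ℝ) + 2) * (K * s)) * (A * (((e + 2).factorial : ℝ) * θ ^ e))
          ≤ θ * (A * (((e + 2).factorial : ℝ) * θ ^ e)) := by
        apply mul_le_mul_of_nonneg_right _ hf0
        have : 0 ≤ ((e : ℝ) + 2) * (K * s) := by positivity
        linarith
      have e2 : θ * (A * (((e + 2).factorial : ℝ) * θ ^ e))
          = A * ((e + 2).factorial * θ ^ (e + 2 - 1)) := by
        rw [show e + 2 - 1 = e + 1 from by omega, pow_succ]; ring
      rw [← e2]
      refine h3.trans (le_trans (le_of_eq ?_) h4)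
      ring
    linarith

end Vale.Agent.P042.H232
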