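import Vale.Agent.P042.H232.Op

/-!
# P042, seam [B] → [C]: constant letters

The letters are enlarged to `Σ i, Option (V i)`; the letter `none` at the coordinate `i` is the
constant function `1`.  Distinct rows of positive order of the enlarged family are the distinct
rows of the original family, the rows of the constant letters vanish.
-/

set_option linter.unusedSectionVars false

namespace Vale.Agent.P042.H232

open Finset Vale.Agent.P042.H461 Vale.Agent.P042.H742
open Vale.Agent.P042.H779 (marg m1)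

/-! ### change of letters -/

section gen

variable {Ω Ω' : Type*}

lemma sp_map (f : Ω → Ω') (S : Multiset Ω) (F : Multiset Ω' → Multiset Ω' → ℝ) :
    sp (S.map f) F = sp S (fun x y => F (x.map f) (y.map f)) := by
  induction S using Multiset.induction_on generalizing F with
  | empty => simp
  | cons a S ih =>
    rw [Multiset.map_cons, sp_cons, sp_cons, ih, ih]
    congr 1
    · apply sp_congr
      intro x y _
      rw [Multiset.map_cons]
    · apply sp_congr
      intro x y _
      rw [Multiset.map_cons]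

theorem IsCum.map {M T : Multiset Ω' → ℝ} (h : IsCum M T) (f : Ω → Ω') :
    IsCum (fun S => M (S.map f)) (fun S => T (S.map f)) where
  zero := by simp [h.zero]
  cons := by
    intro a S
    rw [Multiset.map_cons, h.cons, sp_map]
    apply sp_congr
    intro x y _
    rw [Multiset.map_cons]

theorem cumT_map {M : Multiset Ω' → ℝ} (hM : M 0 = 1) (f : Ω → Ω') {S : Multiset Ω}
    (hS : S ≠ 0) : cumT M (S.map f) = cumT (fun S => M (S.map f)) S := by
  have h1 := (isCum_cumT M hM).map f
  have h2 := isCum_cumT (fun S => M (S.map f)) (by simpa using hM)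
  exact h1.unique h2 S hS (fun _ _ => rfl)

variable {ι : Type*} [DecidableEq ι] {X : Type*}

lemma dst_map (c : Ω' → ι) (f : Ω → Ω') (S : Multiset Ω) :
    Dst c (S.map f) ↔ Dst (fun ω => c (f ω)) S := by
  unfold Dst
  rw [Multiset.map_map]
  rfl

lemma mom_map (c : Ω' → ι) (D : Finset X) (μ : X → ℝ) (U : Ω' → X → ℝ) (f : Ω → Ω')
    (S : Multiset Ω) :
    mom c D μ U (S.map f) = mom (fun ω => c (f ω)) D μ (fun ω => U (f ω)) S := by
  unfold mom
  by_cases h : Dst (fun ω => c (f ω)) S
  · rw [if_pos h, if_pos ((dst_map c f S).2 h)]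
    simp only [Multiset.map_map, Function.comp_def]
  · rw [if_neg h, if_neg (fun h' => h ((dst_map c f S).1 h'))]

/-- If the function vanishes off the range of `f`, the integral is an integral over the
range. -/
lemma I_emb [Fintype Ω] [Fintype Ω'] (f : Ω → Ω') (hf : Function.Injective f) (m' : Ω' → ℝ)
    (e : ℕ) : ∀ F : Multiset Ω' → ℝ, (∀ a, a ∉ Set.range f → ∀ S, F (a ::ₘ S) = 0) →
    I m' e F = I (fun ω => m' (f ω)) e (fun S => F (S.map f)) := by
  classical
  induction e with
  | zero => intro F _; simp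
  | succ e ih =>
    intro F hF
    rw [I_succ, I_succ]
    have h1 : ∀ a, a ∉ Set.range f → m' a * I m' e (fun S => F (a ::ₘ S)) = 0 := by
      intro a ha
      have : ∀ S, F (a ::ₘ S) = 0 := hF a ha
      simp only [this, I_zero_fun, mul_zero]
    rw [← Finset.sum_subset (Finset.subset_univ (univ.image f))
      (fun a _ ha => h1 a (fun h => ha (by
        obtain ⟨b, rfl⟩ := h
        exact Finset.mem_image_of_mem _ (Finset.mem_univ _))))]
    rw [Finset.sum_image (fun a _ b _ hab => hf hab)]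
    refine Finset.sum_congr rfl fun b _ => ?_
    congr 1
    rw [ih (fun S => F (f b ::ₘ S))]
    · refine I_congr e fun S => ?_
      rw [Multiset.map_cons]
    · intro a ha S
      rw [Multiset.cons_swap]
      exact hF a ha _

end gen

/-! ### the constant letters -/

section ext

variable {ι : Type*} [Fintype ι] [DecidableEq ι] {V : ι → Type*} [∀ i, Fintype (V i)]
  [∀ i, DecidableEq (V i)]

/-- a letter as an extended letter -/
def em (ω : Σ i, V i) : Σ i, Option (V i) := ⟨ω.1, some ω.2⟩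

omit [Fintype ι] [DecidableEq ι] [∀ i, Fintype (V i)] [∀ i, DecidableEq (V i)] in
lemma em_inj : Function.Injective (em : (Σ i, V i) → Σ i, Option (V i)) := by
  rintro ⟨i, a⟩ ⟨j, b⟩ h
  unfold em at h
  obtain ⟨h1, h2⟩ := Sigma.mk.inj_iff.1 h
  subst h1
  simpa using h2

/-- the constant letter at the coordinate `i` -/
def no (i : ι) : Σ i, Option (V i) := ⟨i, none⟩

lemma not_range_em {a : Σ i, Option (V i)} (ha : a ∉ Set.range (em (V := V))) :
    ∃ i, a = no i := by
  obtain ⟨i, a⟩ := a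
  cases a with
  | none => exact ⟨i, rfl⟩
  | some a => exact absurd ⟨⟨i, a⟩, rfl⟩ ha

/-- The functions of the extended letters. -/
noncomputable def uo (lam : ∀ i, V i → ℝ) (ω : Σ i, Option (V i)) (x : ∀ i, V i) : ℝ :=
  match ω with
  | ⟨_, none⟩ => 1
  | ⟨i, some a⟩ => uh lam ⟨i, a⟩ x

@[simp] lemma uo_no (lam : ∀ i, V i → ℝ) (i : ι) (x : ∀ i, V i) : uo lam (no i) x = 1 := rfl

@[simp] lemma uo_em (lam : ∀ i, V i → ℝ) (ω : Σ i, V i) (x : ∀ i, V i) :
    uo lam (em ω) x = uh lam ω x := rfl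

/-- The moments of the extended letters. -/
noncomputable def Mo (lam : ∀ i, V i → ℝ) (mu : (∀ i, V i) → ℝ) :
    Multiset (Σ i, Option (V i)) → ℝ :=
  mom Sigma.fst univ mu (uo lam)

variable {lam : ∀ i, V i → ℝ} {mu : (∀ i, V i) → ℝ}

theorem isCumC_Mo (h : ∑ x, mu x = 1) :
    IsCumC Sigma.fst (Mo lam mu) (cumT (Mo lam mu)) := isCumC_mom _ _ _ _ h

lemma Mo_map (S : Multiset (Σ i, V i)) : Mo lam mu (S.map em) = Mh lam mu S := by
  unfold Mo Mh
  rw [mom_map]
  rfl

theorem cumT_Mo_em (h : ∑ x, mu x = 1) {S : Multiset (Σ i, V i)} (hS : S ≠ 0) :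
    cumT (Mo lam mu) (S.map em) = cumT (Mh lam mu) S := by
  have h0 : Mo lam mu 0 = 1 := mom_zero _ _ _ _ h
  rw [cumT_map h0 em hS]
  congr 1
  funext S
  exact Mo_map S

theorem cumT_Mo_no (h : ∑ x, mu x = 1) (i : ι) {S : Multiset (Σ i, Option (V i))}
    (hS : Dst Sigma.fst (no i ::ₘ S)) :
    cumT (Mo lam mu) (no i ::ₘ S) = if Multiset.card S = 0 then 1 else 0 :=
  cum_const' Sigma.fst univ mu (uo lam) h (fun x => uo_no lam i x) hS

/-- The rows of the constant letters vanish in positive order. -/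
theorem nrm_Mo_no (h : ∑ x, mu x = 1) (m' : (Σ i, Option (V i)) → ℝ) (i : ι) {e : ℕ}
    (he : 1 ≤ e) :
    nrm m' e (fun S => if Dst Sigma.fst (no i ::ₘ S) then
      cumT (Mo lam mu) (no i ::ₘ S) else 0) = 0 := by
  have h1 : I m' e (fun S => (if Dst Sigma.fst (no i ::ₘ S) then
      cumT (Mo lam mu) (no i ::ₘ S) else 0) ^ 2) = 0 := by
    rw [I_Ls]
    apply Finset.sum_eq_zero
    intro l hl
    have : (if Dst Sigma.fst (no i ::ₘ (l : Multiset (Σ i, Option (V i)))) then
      cumT (Mo lam mu) (no i ::ₘ (l : Multiset (Σ i, Option (V i)))) else 0) = 0 := by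
      split_ifs with hd
      · rw [cumT_Mo_no h i hd, if_neg]
        rw [Multiset.coe_card, Vale.Agent.P042.H159.mem_Ls.1 hl]
        omega
      · rfl
    rw [this]
    ring
  unfold nrm
  rw [h1, Real.sqrt_zero]

theorem nrm_Mo_no_zero (h : ∑ x, mu x = 1) (m' : (Σ i, Option (V i)) → ℝ) (i : ι) :
    nrm m' 0 (fun S => if Dst Sigma.fst (no i ::ₘ S) then
      cumT (Mo lam mu) (no i ::ₘ S) else 0) = 1 := by
  have hd : Dst Sigma.fst ((no i : Σ i, Option (V i)) ::ₘ 0) := by simp [Dst]
  rw [nrm_zero, if_pos hd, cumT_Mo_no h i hd]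
  simp

/-- The rows of the other letters are the rows of the original family. -/
theorem nrm_Mo_em (h : ∑ x, mu x = 1) (m' : (Σ i, Option (V i)) → ℝ) (ω : Σ i, V i) (e : ℕ) :
    nrm m' e (fun S => if Dst Sigma.fst (em ω ::ₘ S) then
      cumT (Mo lam mu) (em ω ::ₘ S) else 0)
      = nrm (fun ω => m' (em ω)) e (fun S => if Dst Sigma.fst (ω ::ₘ S) then
          cumT (Mh lam mu) (ω ::ₘ S) else 0) := by
  unfold nrm
  congr 1
  rw [I_emb em em_inj m' e]
  · refine I_congr e fun S => ?_
    have h1 : (em ω ::ₘ S.map em : Multiset (Σ i, Option (V i))) = (ω ::ₘ S).map em := by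
      rw [Multiset.map_cons]
    have h2 : Dst Sigma.fst ((ω ::ₘ S).map em : Multiset (Σ i, Option (V i)))
        ↔ Dst Sigma.fst (ω ::ₘ S) := dst_map _ _ _
    beta_reduce
    rw [h1, cumT_Mo_em h Multiset.cons_ne_zero]
    by_cases h3 : Dst Sigma.fst (ω ::ₘ S)
    · rw [if_pos h3, if_pos (h2.2 h3)]
    · rw [if_neg h3, if_neg (fun h4 => h3 (h2.1 h4))]
  · intro a ha S
    obtain ⟨i, rfl⟩ := not_range_em ha
    beta_reduce
    split_ifs with hd
    · rw [Multiset.cons_swap] at hd ⊢
      rw [cumT_Mo_no h i hd, if_neg]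
      · ring
      · rw [Multiset.card_cons]; omega
    · ring

/-- First order. -/
theorem cumT_Mo_one (h : ∑ x, mu x = 1) (ω : Σ i, V i) :
    cumT (Mo lam mu) (em ω ::ₘ 0) = g1 lam mu ω.1 ω.2 := by
  unfold Mo
  rw [cum_first Sigma.fst univ mu (uo lam) h]
  rfl

/-- Second order: two letters of the original family. -/
theorem cumT_Mo_two (h : ∑ x, mu x = 1) (ω ω' : Σ i, V i) :
    cumT (Mo lam mu) (em ω ::ₘ em ω' ::ₘ 0) = cumT (Mh lam mu) (ω ::ₘ ω' ::ₘ 0) := by
  rw [← cumT_Mo_em h Multiset.cons_ne_zero]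
  simp

/-- Second order with a constant letter. -/
theorem cumT_Mo_two_no (h : ∑ x, mu x = 1) (i : ι) (q : Σ i, Option (V i)) :
    cumT (Mo lam mu) (no i ::ₘ q ::ₘ 0)
      = if q.1 = i then -(cumT (Mo lam mu) (q ::ₘ 0)) else 0 := by
  by_cases hq : q.1 = i
  · rw [if_pos hq]
    have h1 := (isCumC_Mo (lam := lam) h).toIsCum.rep (a := no i) (b := q)
      (fun S => (isCumC_Mo (lam := lam) h).rep0 (no i) q S hq.symm) 0
    rw [h1, sp_zero]
    have hd : Dst Sigma.fst ((no i : Σ i, Option (V i)) ::ₘ 0) := by simp [Dst]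
    rw [cumT_Mo_no h i hd]
    simp
  · rw [if_neg hq]
    have hd : Dst Sigma.fst ((no i : Σ i, Option (V i)) ::ₘ q ::ₘ 0) := by
      have : i ≠ q.1 := fun h => hq h.symm
      simp [Dst, no, this]
    rw [cumT_Mo_no h i hd]
    simp

end ext

end Vale.Agent.P042.H232
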