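import Vale.Agent.P042.H232.Dict
import Vale.Agent.P042.H742.Defs

/-!
# P042, seam [B] → [C]: moments and cumulants of a law on a finite product

* `Mg lam mu`: the multiset function equal to the density `gr lam mu B x` on `tup B x`;
* `Mh lam mu`: the same for the centred functions `1[x_i = a]/lam i a - 1` (Hoeffding parts);
* the cumulants of both agree on distinct tuples of size at least two.
-/

set_option linter.unusedSectionVars false

namespace Vale.Agent.P042.H232

open Finset Vale.Agent.P042.H461 Vale.Agent.P042.H742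
open Vale.Agent.P042.H779 (marg m1)

/-! ### algebra of moment functions -/

section alg

variable {Ω : Type*}

lemma sp_symm (S : Multiset Ω) (F : Multiset Ω → Multiset Ω → ℝ) :
    sp S F = sp S (fun x y => F y x) := by
  induction S using Multiset.induction_on generalizing F with
  | empty => simp
  | cons a S ih =>
    rw [sp_cons, sp_cons, ih (fun x y => F x (a ::ₘ y)), ih (fun x y => F (a ::ₘ x) y)]
    ring

/-- Scaling by a multiplicative weight. -/
lemma sp_scale (w : Ω → ℝ) (S : Multiset Ω) (F G : Multiset Ω → ℝ) :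
    sp S (fun x y => (F x * (x.map w).prod) * (G y * (y.map w).prod))
      = sp S (fun x y => F x * G y) * (S.map w).prod := by
  rw [← sp_mul_const]
  apply sp_congr
  intro x y hxy
  rw [← hxy, Multiset.map_add, Multiset.prod_add]
  ring

theorem IsCum.scale {M T : Multiset Ω → ℝ} (h : IsCum M T) (w : Ω → ℝ) :
    IsCum (fun S => M S * (S.map w).prod) (fun S => T S * (S.map w).prod) where
  zero := by simp [h.zero]
  cons := by
    intro a S
    rw [h.cons]
    have := sp_scale w S (fun x => T (a ::ₘ x)) M
    rw [Multiset.map_cons, Multiset.prod_cons, mul_left_comm, ← this, ← sp_const_mul]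
    apply sp_congr
    intro x y _
    rw [Multiset.map_cons, Multiset.prod_cons]
    ring

/-- The product of moment functions is the sum of cumulant functions. -/
theorem IsCum.mul {M T M' T' : Multiset Ω → ℝ} (h : IsCum M T) (h' : IsCum M' T') :
    IsCum (fun S => sp S (fun x y => M x * M' y)) (fun S => T S + T' S) where
  zero := by simp [h.zero, h'.zero]
  cons := by
    intro a S
    rw [sp_cons]
    have e1 : sp S (fun x y => M (a ::ₘ x) * M' y)
        = sp S (fun x y => T (a ::ₘ x) * sp y (fun u v => M u * M' v)) := by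
      have e2 : ∀ x y, x + y = S → T (a ::ₘ x) * sp y (fun u v => M u * M' v)
          = sp y (fun u v => T (a ::ₘ x) * M u * M' v) := by
        intro x y _
        rw [← sp_const_mul]
        apply sp_congr
        intro u v _
        ring
      rw [sp_congr e2, sp_assoc S (fun x u v => T (a ::ₘ x) * M u * M' v)]
      apply sp_congr
      intro x y _
      rw [h.cons, ← sp_mul_const]
    have e3 : sp S (fun x y => M x * M' (a ::ₘ y))
        = sp S (fun x y => T' (a ::ₘ x) * sp y (fun u v => M u * M' v)) := by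
      have e4 : ∀ x y, x + y = S → T' (a ::ₘ x) * sp y (fun u v => M u * M' v)
          = sp y (fun u v => T' (a ::ₘ x) * M' u * M v) := by
        intro x y _
        rw [sp_symm y, ← sp_const_mul]
        apply sp_congr
        intro u v _
        ring
      rw [sp_congr e4, sp_assoc S (fun x u v => T' (a ::ₘ x) * M' u * M v), sp_symm S]
      apply sp_congr
      intro x y _
      rw [h'.cons, mul_comm, ← sp_mul_const]
    rw [e1, e3, ← sp_add]
    apply sp_congr
    intro x y _
    ring

/-- The constant function one. -/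
lemma sp_card_zero (S : Multiset Ω) (G : Multiset Ω → ℝ) :
    sp S (fun x y => (if Multiset.card x = 0 then 1 else 0) * G y) = G S := by
  rw [sp_symm, sp_top]
  · simp
  · intro x y _ hy
    rw [if_neg (fun h => hy (Multiset.card_eq_zero.1 h)), zero_mul]

theorem isCum_one : IsCum (fun _ : Multiset Ω => (1 : ℝ))
    (fun S => if Multiset.card S = 1 then 1 else 0) where
  zero := rfl
  cons := by
    intro a S
    refine (sp_card_zero S (fun _ => (1 : ℝ))).symm.trans ?_
    apply sp_congr
    intro x y _
    rw [Multiset.card_cons]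
    by_cases hx : Multiset.card x = 0
    · rw [if_pos hx, if_pos (by omega)]
    · rw [if_neg hx, if_neg (by omega)]

/-- Expanding `∏ (U + 1)`. -/
lemma prod_add_one (S : Multiset Ω) (u : Ω → ℝ) :
    (S.map (fun ω => u ω + 1)).prod = sp S (fun x _ => (x.map u).prod) := by
  induction S using Multiset.induction_on with
  | empty => simp
  | cons a S ih =>
    rw [Multiset.map_cons, Multiset.prod_cons, ih, sp_cons]
    have : sp S (fun x _ => ((a ::ₘ x).map u).prod) = u a * sp S (fun x _ => (x.map u).prod) := by
      rw [← sp_const_mul]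
      apply sp_congr
      intro x y _
      rw [Multiset.map_cons, Multiset.prod_cons]
    rw [this]
    ring

lemma sp_sum {X : Type*} (D : Finset X) (S : Multiset Ω) (F : X → Multiset Ω → Multiset Ω → ℝ) :
    sp S (fun x y => ∑ z ∈ D, F z x y) = ∑ z ∈ D, sp S (F z) := by
  classical
  induction D using Finset.induction_on with
  | empty => simp [sp]
  | insert i s hi ih =>
    simp only [Finset.sum_insert hi]
    rw [sp_add, ih]

end alg

section momalg

variable {Ω : Type*} {ι : Type*} [DecidableEq ι] {X : Type*} (c : Ω → ι) (D : Finset X)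
  (μ : X → ℝ) (U : Ω → X → ℝ)

/-- Moments of `U + 1` in terms of the moments of `U`, on distinct tuples. -/
lemma mom_add_one {S : Multiset Ω} (hS : Dst c S) :
    mom c D μ (fun ω x => U ω x + 1) S = sp S (fun x y => mom c D μ U x * 1) := by
  rw [mom_of_dst c D μ _ hS]
  have h1 : sp S (fun x _ => mom c D μ U x * 1)
      = sp S (fun x _ => ∑ z ∈ D, μ z * (x.map (fun ω => U ω z)).prod) := by
    apply sp_congr
    intro x y hxy
    rw [mul_one, mom_of_dst c D μ U (dst_of_le c (hxy ▸ Multiset.le_add_right x _) hS)]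
  rw [h1, sp_sum]
  refine Finset.sum_congr rfl fun z _ => ?_
  rw [prod_add_one, sp_const_mul]

/-- Cumulants of `U + 1` and of `U` differ only in order one (on distinct tuples). -/
theorem cum_add_one (h : ∑ x ∈ D, μ x = 1) {S : Multiset Ω} (hS : Dst c S) (h0 : S ≠ 0) :
    cumT (mom c D μ (fun ω x => U ω x + 1)) S
      = cumT (mom c D μ U) S + (if Multiset.card S = 1 then 1 else 0) := by
  have h1 := isCum_cumT _ (mom_zero c D μ (fun ω x => U ω x + 1) h)
  have h2 := (isCum_cumT _ (mom_zero c D μ U h)).mul (isCum_one (Ω := Ω))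
  exact h1.unique h2 S h0 (fun V hV => mom_add_one c D μ U (dst_of_le c hV hS))

/-- A constant function `U a = q`: its cumulants with disjoint nonempty tuples vanish. -/
theorem cum_const' (h : ∑ x ∈ D, μ x = 1) {a : Ω} {q : ℝ} (ha : ∀ x, U a x = q)
    {S : Multiset Ω} (hS : Dst c (a ::ₘ S)) :
    cumT (mom c D μ U) (a ::ₘ S) = if Multiset.card S = 0 then q else 0 := by
  have h1 := isCum_cumT _ (mom_zero c D μ U h)
  have key : ∀ n : ℕ, ∀ S : Multiset Ω, Multiset.card S = n → Dst c (a ::ₘ S) →
      cumT (mom c D μ U) (a ::ₘ S) = if Multiset.card S = 0 then q else 0 := by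
    intro n
    induction n using Nat.strong_induction_on with
    | _ n ih =>
      intro S hS hd
      have h2 := h1.cons a S
      have h3 : mom c D μ U (a ::ₘ S) = q * mom c D μ U S := by
        rw [mom_of_dst c D μ U hd, mom_of_dst c D μ U (dst_of_le c (Multiset.le_cons_self S a) hd),
          Finset.mul_sum]
        refine Finset.sum_congr rfl fun x _ => ?_
        rw [Multiset.map_cons, Multiset.prod_cons, ha]
        ring
      have h4 := sp_card_zero S (fun y => q * mom c D μ U y)
      have h5 : sp S (fun x y => (cumT (mom c D μ U) (a ::ₘ x)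
          - if Multiset.card x = 0 then q else 0) * mom c D μ U y) = 0 := by
        have h6 : sp S (fun x y => cumT (mom c D μ U) (a ::ₘ x) * mom c D μ U y)
            = sp S (fun x y => (cumT (mom c D μ U) (a ::ₘ x)
          - if Multiset.card x = 0 then q else 0) * mom c D μ U y)
            + sp S (fun x y => (if Multiset.card x = 0 then 1 else 0)
              * (q * mom c D μ U y)) := by
          rw [← sp_add]
          apply sp_congr
          intro x y _
          split_ifs <;> ring
        rw [h4, ← h2, h3] at h6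
        linarith
      rw [sp_top] at h5
      · rw [mom_zero c D μ U h, mul_one] at h5
        linarith
      · intro x y hxy hy
        have hc : Multiset.card x < n := by
          rw [← hS, ← hxy, Multiset.card_add]
          have := Multiset.card_pos.2 hy
          omega
        have hxS : x ≤ S := by rw [← hxy]; exact Multiset.le_add_right _ _
        rw [ih _ hc x rfl (dst_of_le c (Multiset.cons_le_cons a hxS) hd), sub_self, zero_mul]
  exact key _ S rfl hS

/-- A constant function `U a = 1`: its cumulants with disjoint nonempty tuples vanish. -/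
theorem cum_const (h : ∑ x ∈ D, μ x = 1) {a : Ω} (ha : ∀ x, U a x = 1) {S : Multiset Ω}
    (hS : Dst c (a ::ₘ S)) :
    cumT (mom c D μ U) (a ::ₘ S) = if Multiset.card S = 0 then 1 else 0 :=
  cum_const' c D μ U h ha hS

/-- First order. -/
lemma cum_first (h : ∑ x ∈ D, μ x = 1) (p : Ω) :
    cumT (mom c D μ U) (p ::ₘ 0) = ∑ x ∈ D, μ x * U p x := by
  have h1 := (isCum_cumT _ (mom_zero c D μ U h)).cons p 0
  rw [sp_zero, mom_zero c D μ U h, mul_one] at h1
  have hd : Dst c (p ::ₘ 0) := by simp [Dst]
  rw [← h1, mom_of_dst c D μ U hd]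
  simp

/-- Second order. -/
lemma cum_second (h : ∑ x ∈ D, μ x = 1) (p q : Ω) :
    cumT (mom c D μ U) (p ::ₘ q ::ₘ 0) = (∑ x ∈ D, μ x * (U p x * U q x))
      - (∑ x ∈ D, μ x * U p x) * (∑ x ∈ D, μ x * U q x)
      - (if c p = c q then ∑ x ∈ D, μ x * (U p x * U q x) else 0) := by
  have h1 := (isCum_cumT _ (mom_zero c D μ U h)).cons p (q ::ₘ 0)
  rw [sp_cons, sp_zero, sp_zero, mom_zero c D μ U h, mul_one, cum_first c D μ U h] at h1
  have hd : Dst c (q ::ₘ 0) := by simp [Dst]
  have h2 : mom c D μ U (q ::ₘ 0) = ∑ x ∈ D, μ x * U q x := by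
    rw [mom_of_dst c D μ U hd]; simp
  rw [h2] at h1
  by_cases hpq : c p = c q
  · rw [if_pos hpq]
    rw [mom_of_not c D μ U (not_dst_rep c hpq 0)] at h1
    linarith
  · rw [if_neg hpq]
    have hd2 : Dst c (p ::ₘ q ::ₘ 0) := by
      simp [Dst, hpq]
    have h3 : mom c D μ U (p ::ₘ q ::ₘ 0) = ∑ x ∈ D, μ x * (U p x * U q x) := by
      rw [mom_of_dst c D μ U hd2]
      refine Finset.sum_congr rfl fun x _ => ?_
      simp
    rw [h3] at h1
    linarith

end momalg

/-! ### laws on finite products -/

section law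

variable {ι : Type*} [Fintype ι] [DecidableEq ι] {V : ι → Type*} [∀ i, Fintype (V i)]
  [∀ i, DecidableEq (V i)]

/-- `1[x_i = a] / lam i a` -/
noncomputable def ug (lam : ∀ i, V i → ℝ) (ω : Σ i, V i) (x : ∀ i, V i) : ℝ :=
  (if x ω.1 = ω.2 then 1 else 0) / lam ω.1 ω.2

/-- `1[x_i = a] / lam i a - 1` -/
noncomputable def uh (lam : ∀ i, V i → ℝ) (ω : Σ i, V i) (x : ∀ i, V i) : ℝ := ug lam ω x - 1

/-- The densities as a multiset function. -/
noncomputable def Mg (lam : ∀ i, V i → ℝ) (mu : (∀ i, V i) → ℝ) : Multiset (Σ i, V i) → ℝ :=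
  mom Sigma.fst univ mu (ug lam)

/-- The Hoeffding parts as a multiset function. -/
noncomputable def Mh (lam : ∀ i, V i → ℝ) (mu : (∀ i, V i) → ℝ) : Multiset (Σ i, V i) → ℝ :=
  mom Sigma.fst univ mu (uh lam)

variable {lam : ∀ i, V i → ℝ} {mu : (∀ i, V i) → ℝ}

theorem isCumC_Mg (h : ∑ x, mu x = 1) :
    IsCumC Sigma.fst (Mg lam mu) (cumT (Mg lam mu)) := isCumC_mom _ _ _ _ h

theorem isCumC_Mh (h : ∑ x, mu x = 1) :
    IsCumC Sigma.fst (Mh lam mu) (cumT (Mh lam mu)) := isCumC_mom _ _ _ _ h

/-- `Mg` on `tup B x` is the density. -/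
theorem Mg_tup (B : Finset ι) (x : ∀ i, V i) : Mg lam mu (tup B x) = gr lam mu B x := by
  unfold Mg gr marg lw
  rw [mom_of_dst _ _ _ _ (dst_tup B x), Finset.sum_div]
  refine Finset.sum_congr rfl fun y _ => ?_
  have h1 : ((tup B x).map (fun ω => ug lam ω y)).prod
      = ∏ i ∈ B, ((if y i = x i then 1 else 0) / lam i (x i)) := by
    unfold tup
    rw [Multiset.map_map]
    rfl
  rw [h1, Finset.prod_div_distrib]
  by_cases h : ∀ i ∈ B, y i = x i
  · rw [if_pos h, Finset.prod_congr rfl (fun i hi => if_pos (h i hi)), Finset.prod_const_one]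
    ring
  · rw [if_neg h]
    push Not at h
    obtain ⟨i, hi, hne⟩ := h
    rw [Finset.prod_eq_zero hi (if_neg hne)]
    simp

/-- The connected densities `k_C = kappa_{i + C}` in the sense of `IsCumI`. -/
noncomputable def kI (lam : ∀ i, V i → ℝ) (mu : (∀ i, V i) → ℝ) (i : ι) (C : Finset ι)
    (x : ∀ i, V i) : ℝ := cumT (Mg lam mu) (⟨i, x i⟩ ::ₘ tup C x)

theorem isCumI_kI (h : ∑ x, mu x = 1) (i : ι) : IsCumI lam mu i (kI lam mu i) := by
  intro D hi x _
  have h1 := (isCumC_Mg (lam := lam) h).cons ⟨i, x i⟩ (tup D x)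
  rw [← tup_insert hi, Mg_tup, sp_tup] at h1
  rw [h1]
  refine Finset.sum_congr rfl fun C _ => ?_
  rw [Mg_tup]
  rfl

/-- Cumulants of the centred functions on distinct tuples. -/
theorem cumT_Mh (h : ∑ x, mu x = 1) {S : Multiset (Σ i, V i)} (hS : Dst Sigma.fst S)
    (h0 : S ≠ 0) :
    cumT (Mh lam mu) S = cumT (Mg lam mu) S - (if Multiset.card S = 1 then 1 else 0) := by
  have h1 := cum_add_one Sigma.fst univ mu (uh lam) h hS h0
  have h2 : mom Sigma.fst univ mu (fun ω x => uh lam ω x + 1) = Mg lam mu := by
    unfold Mg uh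
    congr 1
    funext ω x
    ring
  rw [h2] at h1
  unfold Mh
  linarith

end law

end Vale.Agent.P042.H232
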