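import Vale.Agent.P042.H104.Gibbs
import Vale.Agent.P042.H48.Tot4
import Vale.Agent.P042.H461.LTrunc

/-!
# P042: the pinned inequality for the mutual informations, from the truncated entropy inequality

`bad_le`: Chernoff bound for the length of a random set. `pins_of_eic`: the bound of the mutual
informations from 104's `EIc` at `f = 1`.
-/

set_option autoImplicit false
set_option linter.unusedSectionVars false

namespace Vale.Agent.P042.H232

open Finset Vale.Agent.P042.H461 Vale.Agent.P042.H416 Vale.Agent.P042.H742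
open Vale.Agent.P042.H779 (marg m1 marg_congr marg_nonneg marg_update marg_insert_sum phi
  phi_nonneg IsProb marg_le_m1)
open Vale.Agent.P042.H779.Ab (Lo At Di gdw Ref pw Loc loc_marg loc_gdw marg_eq_zero_of_w)
open Vale.Agent.P042.H779.Ab.Ll (len)
open Vale.Agent.P042.H482 (mi mi_one Di_eq ce_one)

variable {ι : Type*} [Fintype ι] [DecidableEq ι] {V : ι → Type*} [∀ i, Fintype (V i)]
  [∀ i, DecidableEq (V i)] {w u : ∀ i, V i → ℝ} {mu : (∀ i, V i) → ℝ}

/-- the generating function of a random set -/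
theorem sum_bw_prod (t f : ι → ℝ) :
    ∑ R : Finset ι, H416.bw t R * ∏ i ∈ R, f i = ∏ i, (t i * f i + (1 - t i)) := by
  rw [Finset.prod_add, Finset.powerset_univ]
  refine Finset.sum_congr rfl fun R _ => ?_
  unfold H416.bw
  rw [Finset.prod_mul_distrib, Finset.compl_eq_univ_sdiff]
  ring

/-- **Chernoff bound for the length of a random set** -/
theorem bad_le {t ℓ : ι → ℝ} (h0 : ∀ i, 0 ≤ t i) (h1 : ∀ i, t i ≤ 1) {x Λ S : ℝ} (hx : 0 < x)
    (hl : ∀ i, t i = 0 ∨ ℓ i ≤ x) (hS : ∑ i, t i ≤ S)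
    (D : Finset ι → Prop) [DecidablePred D] (hD : ∀ R, len ℓ R ≤ Λ → D R) :
    ∑ R : Finset ι, H416.bw t R * (if D R then 0 else 1) ≤ Real.exp (2 * S - Λ / x) := by
  have hb : ∀ R, 0 ≤ H416.bw t R := fun R => H416.bw_nonneg h0 h1 R
  have e1 : ∀ R : Finset ι, H416.bw t R * (if D R then (0 : ℝ) else 1) ≤
      Real.exp (-(Λ / x)) * (H416.bw t R * ∏ i ∈ R, Real.exp (ℓ i / x)) := by
    intro R
    have e2 : ∏ i ∈ R, Real.exp (ℓ i / x) = Real.exp (len ℓ R / x) := by
      rw [← Real.exp_sum]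
      unfold len
      rw [Finset.sum_div]
    by_cases hR : D R
    · rw [if_pos hR, mul_zero]
      exact mul_nonneg (Real.exp_pos _).le
        (mul_nonneg (hb R) (Finset.prod_nonneg fun i _ => (Real.exp_pos _).le))
    · rw [if_neg hR, e2, mul_one, mul_left_comm, ← Real.exp_add]
      have h2 : Λ < len ℓ R := by
        by_contra h3
        exact hR (hD R (not_lt.1 h3))
      have h3 : 1 ≤ Real.exp (-(Λ / x) + len ℓ R / x) := by
        rw [← Real.exp_zero]
        apply Real.exp_le_exp.2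
        have := div_le_div_of_nonneg_right h2.le hx.le
        linarith
      exact le_mul_of_one_le_right (hb R) h3
  refine (Finset.sum_le_sum fun R _ => e1 R).trans ?_
  rw [← Finset.mul_sum, sum_bw_prod]
  have e3 : ∏ i, (t i * Real.exp (ℓ i / x) + (1 - t i)) ≤ ∏ i, Real.exp (2 * t i) := by
    refine Finset.prod_le_prod (fun i _ => ?_) fun i _ => ?_
    · have := mul_nonneg (h0 i) (Real.exp_pos (ℓ i / x)).le
      linarith [h1 i]
    · have h2 : t i * Real.exp (ℓ i / x) + (1 - t i) ≤ 2 * t i + 1 := by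
        rcases hl i with h3 | h3
        · rw [h3]
          simp
        · have h4 : Real.exp (ℓ i / x) ≤ 3 := by
            refine le_trans (Real.exp_le_exp.2 ((div_le_one hx).2 h3)) ?_
            linarith [Real.exp_one_lt_d9]
          have h5 := mul_le_mul_of_nonneg_left h4 (h0 i)
          linarith
      exact h2.trans (Real.add_one_le_exp _)
  rw [← Real.exp_sum, ← Finset.mul_sum] at e3
  refine (mul_le_mul_of_nonneg_left e3 (Real.exp_pos _).le).trans ?_
  rw [← Real.exp_add]
  apply Real.exp_le_exp.2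
  linarith

theorem sum_pw1 (h : ∀ i, ∑ a, w i a = 1) : ∑ x, pw w x = 1 := by
  unfold pw
  have h1 := Finset.prod_univ_sum (fun i : ι => (univ : Finset (V i))) fun i a => w i a
  rw [Fintype.piFinset_univ] at h1
  rw [← h1, Finset.prod_congr rfl fun i _ => h i, Finset.prod_const_one]

/-- the reference weights as the uniform ones: the mean of the reciprocal of the mass -/
theorem thin_le {ℓ : ι → ℝ} (H : Ref u mu) (hu : ∀ i a, u i a = Real.exp (-ℓ i)) (P : Finset ι) :
    ∑ x, mu x * (marg mu P x)⁻¹ ≤ Real.exp (len ℓ P) := by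
  have hK : Loc P (fun x => (marg mu P x)⁻¹) := by
    intro x y hxy
    beta_reduce
    rw [marg_congr P hxy]
  rw [H.mu_sum hK]
  have h1 : ∀ x, pw u x * ((marg mu P x)⁻¹ * gdw u mu P x) ≤ pw u x * Real.exp (len ℓ P) := by
    intro x
    refine mul_le_mul_of_nonneg_left ?_ (Finset.prod_nonneg fun i _ => H.w_nonneg i _)
    have h2 : ∏ i ∈ P, u i (x i) = Real.exp (-len ℓ P) := by
      rw [Finset.prod_congr rfl fun i _ => hu i (x i), ← Real.exp_sum]
      unfold len
      rw [Finset.sum_neg_distrib]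
    unfold gdw
    rw [h2, div_eq_mul_inv, ← Real.exp_neg, neg_neg, ← mul_assoc]
    refine mul_le_of_le_one_left (Real.exp_pos _).le ?_
    rcases (marg_nonneg H.prob P x).eq_or_lt with h3 | h3
    · rw [← h3]
      simp
    · rw [inv_mul_cancel₀ h3.ne']
  refine (Finset.sum_le_sum fun x _ => h1 x).trans ?_
  rw [← Finset.sum_mul]
  have h2 : ∑ x, pw u x = 1 := sum_pw1 H.w_sum
  rw [h2, one_mul]

/-- the mean of the reciprocal of the density is at most one -/
theorem inv_gdw_le (H : Ref w mu) (P : Finset ι) :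
    ∑ x, mu x * (gdw w mu P x)⁻¹ ≤ 1 := by
  have hK : Loc P (fun x => (gdw w mu P x)⁻¹) := by
    intro x y hxy
    beta_reduce
    rw [loc_gdw P x y hxy]
  rw [H.mu_sum hK]
  have h2 : ∑ x, pw w x = 1 := sum_pw1 H.w_sum
  rw [← h2]
  refine Finset.sum_le_sum fun x _ => ?_
  refine mul_le_of_le_one_right (Finset.prod_nonneg fun i _ => H.w_nonneg i _) ?_
  by_cases h3 : gdw w mu P x = 0
  · rw [h3]
    simp
  · rw [inv_mul_cancel₀ h3]

/-- the conditional law of one coordinate has total mass one -/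
theorem sum_mi {P : Finset ι} {j : ι} (hj : j ∉ P) {x : ∀ i, V i}
    (hx : 0 < marg mu P x) : ∑ b, mi mu P (fun _ => 1) j x b = 1 := by
  rw [Finset.sum_congr rfl fun b _ => mi_one hj x b, ← Finset.sum_div, marg_insert_sum P hj,
    div_self hx.ne']

theorem mi_nonneg (H : Ref w mu) {P : Finset ι} {j : ι} (hj : j ∉ P) (x : ∀ i, V i) (b : V j) :
    0 ≤ mi mu P (fun _ => 1) j x b := by
  rw [mi_one hj]
  exact div_nonneg (marg_nonneg H.prob _ _) (marg_nonneg H.prob _ _)

/-- the divergence of the conditional law of one coordinate is at most `log` of the inverse of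
the smallest atom -/
theorem Di_le (H : Ref w mu) {L : ℝ} (hL : 0 ≤ L) {P : Finset ι} {j : ι} (hj : j ∉ P)
    (hat : ∀ b, w j b = 0 ∨ Real.exp (-L) ≤ w j b) {x : ∀ i, V i} (hx : 0 < marg mu P x) :
    Di w (gdw w mu) j P x ≤ L := by
  rw [H48.Di_log H hj hx]
  have h1 := sum_mi (mu := mu) hj hx
  have h2 : ∀ b, mi mu P (fun _ => 1) j x b ≤ 1 := by
    intro b
    exact (Finset.single_le_sum (fun b _ => mi_nonneg H hj x b) (Finset.mem_univ b)).trans h1.le
  have h3 : ∀ b, mi mu P (fun _ => 1) j x b * Real.log (mi mu P (fun _ => 1) j x b / w j b) ≤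
      mi mu P (fun _ => 1) j x b * L := by
    intro b
    have h0 := mi_nonneg H hj x b
    refine mul_le_mul_of_nonneg_left ?_ h0
    rcases h0.eq_or_lt with h4 | h4
    · rw [← h4]
      simpa using hL
    rcases hat b with h5 | h5
    · rw [h5]
      simpa using hL
    · have h6 : 0 < w j b := lt_of_lt_of_le (Real.exp_pos _) h5
      rw [Real.log_le_iff_le_exp (div_pos h4 h6), div_le_iff₀ h6]
      calc _ ≤ (1 : ℝ) := h2 b
        _ = Real.exp L * Real.exp (-L) := by rw [← Real.exp_add, add_neg_cancel, Real.exp_zero]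
        _ ≤ _ := mul_le_mul_of_nonneg_left h5 (Real.exp_pos _).le
  refine (Finset.sum_le_sum fun b _ => h3 b).trans ?_
  rw [← Finset.sum_mul, h1, one_mul]

/-- **the bound of the mutual informations from the truncated entropy inequality** -/
theorem pins_of_eic {ok : Finset ι → Prop} {lam ℓ : ι → ℝ} {cost : Finset ι → ℝ} {δ : ℝ}
    (H : Ref w mu) (Hu : Ref u mu) (hu : ∀ i a, u i a = Real.exp (-ℓ i))
    (hE : H104.EIc w mu ok lam cost δ) (hδ0 : 0 < δ) (hδ1 : δ ≤ 1) (hlam : ∀ i, 0 ≤ lam i)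
    {P T : Finset ι} (hP : ok P) (hc : 0 ≤ cost P) (hT : T ⊆ univ \ P) {m L B : ℝ} (hm : 0 ≤ m)
    (hmT : ∀ i ∈ T, m ≤ lam i) (hL : 0 ≤ L) (hB0 : 0 ≤ B)
    (hat : ∀ j ∈ T, ∀ b, w j b = 0 ∨ Real.exp (-L) ≤ w j b)
    (hB : ∀ x, 0 < mu x → Real.log (gdw w mu P x) ≤ B) :
    m * ∑ j ∈ T, H48.MI mu j P ≤
      cost P + δ * Real.exp (len ℓ P) * (m * (T.card * L) + B) := by
  have hlaw := H48.isLaw_of_ref H
  have hTP : ∀ j ∈ T, j ∉ P := fun j hj => (Finset.mem_sdiff.1 (hT hj)).2
  -- pointwise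
  have key : ∀ x, mu x * (m * ∑ j ∈ T, Di w (gdw w mu) j P x) ≤
      mu x * cost P + (mu x * (gdw w mu P x)⁻¹ - mu x) +
        δ * (m * (T.card * L) + B) * (mu x * (marg mu P x)⁻¹) := by
    intro x
    rcases (hlaw.1 x).eq_or_lt with h0 | h0
    · rw [← h0]
      simp
    have hmx : 0 < marg mu P x := lt_of_lt_of_le h0 (H779.Ab.marg_ge H.prob P x)
    have hgx : 0 < gdw w mu P x :=
      (H779.Ab.gdw_pos_iff H.prob H.w_nonneg H.ac P x).2 hmx
    have hD0 : ∀ j, 0 ≤ Di w (gdw w mu) j P x := fun j =>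
      H779.Ab.Di_nonneg H.famT j P x
    have hDL : ∀ j ∈ T, Di w (gdw w mu) j P x ≤ L := fun j hj =>
      Di_le H hL (hTP j hj) (hat j hj) hmx
    have hlog : -Real.log (gdw w mu P x) ≤ (gdw w mu P x)⁻¹ - 1 := by
      rw [← Real.log_inv]
      exact Real.log_le_sub_one_of_pos (inv_pos.2 hgx)
    have hthin0 : 0 ≤ m * (T.card * L) + B := by positivity
    have main : m * ∑ j ∈ T, Di w (gdw w mu) j P x ≤
        cost P + ((gdw w mu P x)⁻¹ - 1) + δ * (m * (T.card * L) + B) * (marg mu P x)⁻¹ := by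
      by_cases hth : δ ≤ marg mu P x
      · -- thick cell
        have h1 := hE P hP x hth (fun _ => 1) (fun _ => zero_le_one)
          (fun _ => by rw [le_div_iff₀ hδ0, one_mul]; exact hδ1) (ce_one hmx)
        have h2 : H779.Ab.ce mu P (fun _ => (1 : ℝ) * Real.log 1) x = 0 := by
          unfold H779.Ab.ce
          simp
        rw [h2] at h1
        have h3 : m * ∑ j ∈ T, Di w (gdw w mu) j P x ≤
            ∑ i ∈ univ \ P, lam i * ∑ b, w i b * phi (mi mu P (fun _ => 1) i x b / w i b) := by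
          rw [Finset.mul_sum]
          calc _ ≤ ∑ j ∈ T, lam j * Di w (gdw w mu) j P x :=
                Finset.sum_le_sum fun j hj => mul_le_mul_of_nonneg_right (hmT j hj) (hD0 j)
            _ ≤ ∑ j ∈ univ \ P, lam j * Di w (gdw w mu) j P x :=
                Finset.sum_le_sum_of_subset_of_nonneg hT fun j _ _ =>
                  mul_nonneg (hlam j) (hD0 j)
            _ = _ := by
                refine Finset.sum_congr rfl fun j hj => ?_
                rw [Di_eq H (Finset.mem_sdiff.1 hj).2 hmx]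
        have h4 : 0 ≤ δ * (m * (T.card * L) + B) * (marg mu P x)⁻¹ := by positivity
        linarith
      · -- thin cell
        have h1 : 1 ≤ δ * (marg mu P x)⁻¹ := by
          rw [← div_eq_mul_inv, le_div_iff₀ hmx, one_mul]
          exact (not_le.1 hth).le
        have h2 : m * ∑ j ∈ T, Di w (gdw w mu) j P x ≤ m * (T.card * L) := by
          refine mul_le_mul_of_nonneg_left ?_ hm
          calc _ ≤ ∑ _j ∈ T, L := Finset.sum_le_sum hDL
            _ = _ := by rw [Finset.sum_const, nsmul_eq_mul]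
        have h3 := hB x h0
        have h4 : (m * (T.card * L) + B) * 1 ≤
            (m * (T.card * L) + B) * (δ * (marg mu P x)⁻¹) :=
          mul_le_mul_of_nonneg_left h1 hthin0
        have h5 : δ * (m * (T.card * L) + B) * (marg mu P x)⁻¹ =
            (m * (T.card * L) + B) * (δ * (marg mu P x)⁻¹) := by ring
        linarith
    have h1 := mul_le_mul_of_nonneg_left main h0.le
    calc _ ≤ _ := h1
      _ = _ := by ring
  have h1 : m * ∑ j ∈ T, H48.MI mu j P ≤
      ∑ x, mu x * (m * ∑ j ∈ T, Di w (gdw w mu) j P x) := by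
    have h2 : ∑ x, mu x * (m * ∑ j ∈ T, Di w (gdw w mu) j P x) =
        m * ∑ j ∈ T, ∑ x, mu x * Di w (gdw w mu) j P x := by
      rw [Finset.sum_comm, Finset.mul_sum]
      refine Finset.sum_congr rfl fun x _ => ?_
      rw [← Finset.mul_sum]
      ring
    rw [h2]
    refine mul_le_mul_of_nonneg_left (Finset.sum_le_sum fun j hj => ?_) hm
    exact H48.MI_le_Di H (hTP j hj)
  refine h1.trans ((Finset.sum_le_sum fun x _ => key x).trans ?_)
  rw [Finset.sum_add_distrib, Finset.sum_add_distrib, Finset.sum_sub_distrib, ← Finset.sum_mul,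
    ← Finset.mul_sum, hlaw.2, one_mul]
  have h2 := inv_gdw_le H P
  have h3 := mul_le_mul_of_nonneg_left (thin_le Hu hu P)
    (mul_nonneg hδ0.le (by positivity : 0 ≤ m * (T.card * L) + B))
  calc _ ≤ cost P + (1 - 1) + δ * (m * (T.card * L) + B) * Real.exp (len ℓ P) := by linarith
    _ = _ := by ring

end Vale.Agent.P042.H232
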