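import Vale.Agent.P042.H232.PairT
import Vale.Agent.P042.H678.NOM

/-!
# P042, seam [B] → [C], typed: the operator norm of the second cumulant

Individual constants `M i`, individual rates `t i`, constant letters included; blocks of types.
-/

set_option linter.unusedSectionVars false

namespace Vale.Agent.P042.H232

open Finset Vale.Agent.P042.H461 Vale.Agent.P042.H742
open Vale.Agent.P042.H779 (marg m1)
open Vale.Agent.P042.H678 (NearOrthM)
open Vale.Agent.P042.H284 (BV)

section law

variable {ι : Type*} [Fintype ι] [DecidableEq ι] {V : ι → Type*} [∀ i, Fintype (V i)]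
  [∀ i, DecidableEq (V i)] {lam : ∀ i, V i → ℝ} {mu : (∀ i, V i) → ℝ} {R E t M : ι → ℝ}

/-- Variance of a linear statistic from near-orthogonality in degree one, individual
constants. -/
theorem var_of_nearOrthM {D0 : ℕ} (hNO : NearOrthM lam t M D0 mu) (hD0 : 1 ≤ D0)
    (hmu : ∑ x, mu x = 1) (h1 : ∀ i, ∑ a, lam i a = 1) (φ : ∀ i, V i → ℝ) :
    ∑ x, mu x * (∑ i, (φ i (x i) - mn mu φ i)) ^ 2
      ≤ ∑ i, (t i / M i)⁻¹ * ∑ a, lam i a * (φ i a - mn mu φ i) ^ 2 := by
  classical
  set T : Finset ι → (∀ i, V i) → ℝ := fun D x =>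
    ∑ i, if D = {i} then φ i (x i) - mn mu φ i else 0 with hT
  have hTs : ∀ i x, T {i} x = φ i (x i) - mn mu φ i := by
    intro i x
    simp only [hT, Finset.singleton_inj]
    rw [Finset.sum_eq_single i]
    · rw [if_pos rfl]
    · intro j _ hj; rw [if_neg (Ne.symm hj)]
    · intro h; exact absurd (Finset.mem_univ _) h
  have hT0 : ∀ D x, D.card ≠ 1 → T D x = 0 := by
    intro D x hD
    simp only [hT]
    apply Finset.sum_eq_zero
    intro i _
    rw [if_neg]
    rintro rfl
    exact hD (Finset.card_singleton i)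
  have hsum : ∀ G : Finset ι → ℝ, (∀ D : Finset ι, D.card ≠ 1 → G D = 0) →
      ∑ D, G D = ∑ i, G {i} := by
    intro G hG
    symm
    rw [← Finset.sum_image (f := G) (g := fun i : ι => ({i} : Finset ι)) (s := univ)]
    · apply Finset.sum_subset (Finset.subset_univ _)
      intro D _ hD
      apply hG
      intro hc
      obtain ⟨i, rfl⟩ := Finset.card_eq_one.1 hc
      exact hD (Finset.mem_image_of_mem _ (Finset.mem_univ i))
    · intro i _ j _ hij
      exact Finset.singleton_injective hij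
  have hfam : IsFam mu ∅ 1 T := by
    refine ⟨fun D hD => funext fun x => hT0 D x hD, fun D hD => absurd (by simp) hD, ?_, ?_⟩
    · intro D x y hxy
      by_cases hc : D.card = 1
      · obtain ⟨i, rfl⟩ := Finset.card_eq_one.1 hc
        rw [hTs, hTs, hxy i (by simp)]
      · rw [hT0 D x hc, hT0 D y hc]
    · intro J hJ z
      have hJ0 : J = ∅ := Finset.card_eq_zero.1 (by omega)
      subst hJ0
      simp only [Finset.empty_subset, Finset.filter_true, Finset.piecewise_empty]
      rw [hsum (fun D => ∑ x, mu x * T D x)]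
      · apply Finset.sum_eq_zero
        intro i _
        simp only [hTs, mul_sub, Finset.sum_sub_distrib]
        rw [← Finset.sum_mul, hmu, one_mul]
        exact sub_self _
      · intro D hD
        apply Finset.sum_eq_zero
        intro x _
        rw [hT0 D x hD, mul_zero]
  by_cases hne : Nonempty (∀ i, V i)
  · obtain ⟨w⟩ := hne
    have h2 := hNO 1 ∅ w T (by simpa using hD0) hfam
    have h3 : pint mu ∅ w (fun x => (∑ D, T D x) ^ 2)
        = ∑ x, mu x * (∑ i, (φ i (x i) - mn mu φ i)) ^ 2 := by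
      unfold pint
      refine Finset.sum_congr rfl fun x _ => ?_
      rw [if_pos (by simp)]
      beta_reduce
      rw [hsum (fun D => T D x) (fun D hD => hT0 D x hD)]
      simp only [hTs]
    have h4 : H742.nrm lam (fun i => t i / M i) T
        = ∑ i, (t i / M i)⁻¹ * ∑ a, lam i a * (φ i a - mn mu φ i) ^ 2 := by
      unfold H742.nrm
      rw [hsum (fun D => (∏ i ∈ D, t i / M i)⁻¹ * ∑ x, W lam x * T D x ^ 2)]
      · refine Finset.sum_congr rfl fun i _ => ?_
        simp only [hTs, Finset.prod_singleton]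
        rw [sum_W_one h1 i (fun a => (φ i a - mn mu φ i) ^ 2)]
      · intro D hD
        have : ∑ x, W lam x * T D x ^ 2 = 0 := by
          apply Finset.sum_eq_zero
          intro x _
          rw [hT0 D x hD]; ring
        rw [this, mul_zero]
    rw [h3, h4] at h2
    refine h2.trans (le_of_eq ?_)
    simp [lw]
  · have hemp : IsEmpty (∀ i, V i) := not_nonempty_iff.1 hne
    simp at hmu

/-- the one-coordinate function attached to a vector of extended letters -/
noncomputable def po (lam : ∀ i, V i → ℝ) (R E : ι → ℝ) (u : (Σ i, Option (V i)) → ℝ) (i : ι)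
    (b : V i) : ℝ := u (no i) * √(E i) + ph lam R (fun ω => u (em ω)) i b

/-- squared norm of the vector at the coordinate `i` -/
noncomputable def sq (u : (Σ i, Option (V i)) → ℝ) (i : ι) : ℝ := ∑ a, u ⟨i, a⟩ ^ 2

lemma sq_nonneg' (u : (Σ i, Option (V i)) → ℝ) (i : ι) : 0 ≤ sq u i :=
  Finset.sum_nonneg fun _ _ => sq_nonneg _

lemma sq_eq (u : (Σ i, Option (V i)) → ℝ) (i : ι) :
    sq u i = u (no i) ^ 2 + ∑ a, u (em ⟨i, a⟩) ^ 2 := by
  unfold sq
  rw [Fintype.sum_option]
  rfl

/-- **Typed operator norm of the second cumulant**, constant letters included. -/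
theorem op_T {D0 : ℕ} (hNO : NearOrthM lam t M D0 mu) (hD0 : 1 ≤ D0)
    (hmu0 : ∀ x, 0 ≤ mu x) (hmu : ∑ x, mu x = 1) (h0 : ∀ i a, 0 ≤ lam i a)
    (h1 : ∀ i, ∑ a, lam i a = 1) (hR : ∀ i, 0 ≤ R i) (hE : ∀ i, 0 ≤ E i) (ht : ∀ i, 0 < t i)
    (hM0 : ∀ i, 0 ≤ M i) (hM : ∀ i a, m1 mu i a ≤ M i * lam i a)
    {Λ : Type*} {sc : ι → Λ} {VV : Λ → Finset (Σ i, Option (V i))}
    (hV : ∀ l ω, ω ∈ VV l ↔ sc ω.1 = l) {o : Λ → ℝ}
    (ho : ∀ i, M i * (1 + M i) * R i / t i + 2 * (M i * R i) + 2 * E i ≤ o (sc i)) (l m : Λ) :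
    BV (√(o l * o m)) (VV l) (VV m) (fun p q => Tn lam mu R E (p ::ₘ q ::ₘ 0)) := by
  classical
  intro u' v'
  -- extend by zero
  set u : (Σ i, Option (V i)) → ℝ := fun ω => if sc ω.1 = l then u' ω else 0 with hu
  set v : (Σ i, Option (V i)) → ℝ := fun ω => if sc ω.1 = m then v' ω else 0 with hv
  have hVV : ∀ l, VV l = univ.filter fun ω => sc ω.1 = l := by
    intro l
    ext ω
    rw [hV]
    simp
  have hsu : ∑ p ∈ VV l, u' p ^ 2 = ∑ p, u p ^ 2 := by
    rw [hVV, Finset.sum_filter]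
    refine Finset.sum_congr rfl fun p _ => ?_
    simp only [hu]
    by_cases h : sc p.1 = l <;> simp [h]
  have hsv : ∑ p ∈ VV m, v' p ^ 2 = ∑ p, v p ^ 2 := by
    rw [hVV, Finset.sum_filter]
    refine Finset.sum_congr rfl fun p _ => ?_
    simp only [hv]
    by_cases h : sc p.1 = m <;> simp [h]
  have hbil : ∑ p ∈ VV l, ∑ q ∈ VV m, u' p * Tn lam mu R E (p ::ₘ q ::ₘ 0) * v' q
      = ∑ p, ∑ q, u p * (√(wo lam R E p) * √(wo lam R E q) *
          cumT (Mo lam mu) (p ::ₘ q ::ₘ 0)) * v q := by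
    rw [hVV, hVV, Finset.sum_filter]
    refine Finset.sum_congr rfl fun p _ => ?_
    by_cases h : sc p.1 = l
    · rw [if_pos h, Finset.sum_filter]
      refine Finset.sum_congr rfl fun q _ => ?_
      by_cases h' : sc q.1 = m
      · rw [if_pos h']
        simp only [hu, hv, if_pos h, if_pos h', Tn, Multiset.map_cons, Multiset.prod_cons,
          Multiset.map_zero, Multiset.prod_zero]
        ring
      · rw [if_neg h']
        simp only [hv, if_neg h']
        ring
    · rw [if_neg h]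
      symm
      apply Finset.sum_eq_zero
      intro q _
      simp only [hu, if_neg h]
      ring
  rw [hbil, hsu, hsv]
  have hb := bilin_eq (Sigma.fst : (Σ i, Option (V i)) → ι) univ mu (uo lam) hmu
    (fun p => √(wo lam R E p)) u v
  -- the statistics are sums of one-coordinate functions
  have hPh : ∀ (u : (Σ i, Option (V i)) → ℝ) (i : ι) (x : ∀ i, V i),
      (∑ p : Σ i, Option (V i), if p.1 = i then u p * √(wo lam R E p) * uo lam p x else 0)
        = po lam R E u i (x i) := by
    intro u i x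
    rw [Fintype.sum_sigma, Finset.sum_eq_single i]
    · simp only [if_true]
      rw [Fintype.sum_option]
      unfold po ph
      congr 1
      show u (no i) * √(E i) * 1 = _
      ring
    · intro j _ hj
      apply Finset.sum_eq_zero
      intro a _
      rw [if_neg hj]
    · intro h; exact absurd (Finset.mem_univ _) h
  have hPs : ∀ (u : (Σ i, Option (V i)) → ℝ) (x : ∀ i, V i),
      ∑ p : Σ i, Option (V i), u p * √(wo lam R E p) * uo lam p x
        = ∑ i, po lam R E u i (x i) := by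
    intro u x
    rw [← Finset.sum_congr rfl (fun i _ => hPh u i x), Finset.sum_comm]
    refine Finset.sum_congr rfl fun p _ => ?_
    rw [Finset.sum_eq_single p.1]
    · rw [if_pos rfl]
    · intro i _ hi; rw [if_neg (Ne.symm hi)]
    · intro h; exact absurd (Finset.mem_univ _) h
  simp only [hPh, hPs] at hb
  -- sums of squares
  have hsig : ∀ u : (Σ i, Option (V i)) → ℝ, ∑ p, u p ^ 2 = ∑ i, sq u i := by
    intro u; rw [Fintype.sum_sigma]; rfl
  have hse : ∀ (u : (Σ i, Option (V i)) → ℝ) (i : ι),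
      0 ≤ ∑ a, u (em ⟨i, a⟩) ^ 2 := fun u i => Finset.sum_nonneg fun _ _ => sq_nonneg _
  -- second moments of the one-coordinate functions
  have hE2' : ∀ (u : (Σ i, Option (V i)) → ℝ) (i : ι),
      ∑ x, mu x * ph lam R (fun ω => u (em ω)) i (x i) ^ 2
        ≤ M i * (R i * ∑ a, u (em ⟨i, a⟩) ^ 2) := by
    intro u i
    have h3 : ∑ x, mu x * ph lam R (fun ω => u (em ω)) i (x i) ^ 2
        ≤ M i * ∑ a, lam i a * ph lam R (fun ω => u (em ω)) i a ^ 2 := by
      have h4 : ∑ x, mu x * ph lam R (fun ω => u (em ω)) i (x i) ^ 2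
          = ∑ a, m1 mu i a * ph lam R (fun ω => u (em ω)) i a ^ 2 := by
        unfold m1
        simp only [Finset.sum_mul]
        rw [Finset.sum_comm]
        refine Finset.sum_congr rfl fun x _ => ?_
        rw [Finset.sum_eq_single (x i)]
        · rw [if_pos rfl]
        · intro a _ ha; rw [if_neg (Ne.symm ha), zero_mul]
        · intro h; exact absurd (Finset.mem_univ _) h
      rw [h4, Finset.mul_sum]
      refine Finset.sum_le_sum fun a _ => ?_
      rw [← mul_assoc]
      exact mul_le_mul_of_nonneg_right (hM i a) (sq_nonneg _)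
    refine h3.trans ?_
    exact mul_le_mul_of_nonneg_left (ph_norm h0 h1 hR _ i) (hM0 i)
  have hmn : ∀ (u : (Σ i, Option (V i)) → ℝ) (i : ι),
      mn mu (ph lam R (fun ω => u (em ω))) i ^ 2 ≤ M i * (R i * ∑ a, u (em ⟨i, a⟩) ^ 2) := by
    intro u i
    refine le_trans ?_ (hE2' u i)
    have h3 := cs_w (univ : Finset (∀ i, V i)) (w := mu) (fun x _ => hmu0 x) (fun _ => 1)
      (fun x => ph lam R (fun ω => u (em ω)) i (x i))
    simp only [one_pow, mul_one, one_mul, hmu, Real.sqrt_one] at h3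
    have h4 : mn mu (ph lam R (fun ω => u (em ω))) i ^ 2
        = |∑ x, mu x * ph lam R (fun ω => u (em ω)) i (x i)| ^ 2 := by
      rw [sq_abs]; rfl
    rw [h4]
    have h5 : 0 ≤ ∑ x, mu x * ph lam R (fun ω => u (em ω)) i (x i) ^ 2 :=
      Finset.sum_nonneg fun x _ => mul_nonneg (hmu0 x) (sq_nonneg _)
    calc _ ≤ (√(∑ x, mu x * ph lam R (fun ω => u (em ω)) i (x i) ^ 2)) ^ 2 :=
          pow_le_pow_left₀ (abs_nonneg _) h3 2
      _ = _ := Real.sq_sqrt h5
  have hE2 : ∀ (u : (Σ i, Option (V i)) → ℝ) (i : ι),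
      ∑ x, mu x * po lam R E u i (x i) ^ 2 ≤ (2 * (M i * R i) + 2 * E i) * sq u i := by
    intro u i
    have h3 : ∀ x, mu x * po lam R E u i (x i) ^ 2
        ≤ 2 * (u (no i) ^ 2 * E i) * mu x
          + 2 * (mu x * ph lam R (fun ω => u (em ω)) i (x i) ^ 2) := by
      intro x
      unfold po
      have h4 : (u (no i) * √(E i) + ph lam R (fun ω => u (em ω)) i (x i)) ^ 2
          ≤ 2 * (u (no i) ^ 2 * E i) + 2 * ph lam R (fun ω => u (em ω)) i (x i) ^ 2 := by
        have h5 := Real.sq_sqrt (hE i)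
        nlinarith [sq_nonneg (u (no i) * √(E i) - ph lam R (fun ω => u (em ω)) i (x i))]
      calc _ ≤ mu x * (2 * (u (no i) ^ 2 * E i)
            + 2 * ph lam R (fun ω => u (em ω)) i (x i) ^ 2) :=
            mul_le_mul_of_nonneg_left h4 (hmu0 x)
        _ = _ := by ring
    refine (Finset.sum_le_sum fun x _ => h3 x).trans ?_
    rw [Finset.sum_add_distrib, ← Finset.mul_sum, ← Finset.mul_sum, hmu, mul_one, sq_eq]
    have h6 := hE2' u i
    have h7 := hse u i
    have h8 := mul_nonneg (hM0 i) (hR i)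
    have h9 := hE i
    have h10 := sq_nonneg (u (no i))
    nlinarith [mul_nonneg h8 h10, mul_nonneg h9 h7]
  -- variance
  have hVar : ∀ (u : (Σ i, Option (V i)) → ℝ) (l : Λ), (∀ ω, sc ω.1 ≠ l → u ω = 0) →
      ∑ x, mu x * (∑ i, (ph lam R (fun ω => u (em ω)) i (x i)
          - mn mu (ph lam R (fun ω => u (em ω))) i)) ^ 2
        ≤ ∑ i, (M i * (1 + M i) * R i / t i) * sq u i := by
    intro u l _
    refine (var_of_nearOrthM hNO hD0 hmu h1 (ph lam R (fun ω => u (em ω)))).trans ?_
    refine Finset.sum_le_sum fun i _ => ?_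
    have h3 : ∑ a, lam i a * (ph lam R (fun ω => u (em ω)) i a
        - mn mu (ph lam R (fun ω => u (em ω))) i) ^ 2
        ≤ (1 + M i) * (R i * sq u i) := by
      have h4 : ∑ a, lam i a * (ph lam R (fun ω => u (em ω)) i a
          - mn mu (ph lam R (fun ω => u (em ω))) i) ^ 2
          = ∑ a, lam i a * ph lam R (fun ω => u (em ω)) i a ^ 2
            + mn mu (ph lam R (fun ω => u (em ω))) i ^ 2 := by
        have h5 : ∀ a, lam i a * (ph lam R (fun ω => u (em ω)) i a
            - mn mu (ph lam R (fun ω => u (em ω))) i) ^ 2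
            = lam i a * ph lam R (fun ω => u (em ω)) i a ^ 2
              - 2 * mn mu (ph lam R (fun ω => u (em ω))) i
                * (lam i a * ph lam R (fun ω => u (em ω)) i a)
              + mn mu (ph lam R (fun ω => u (em ω))) i ^ 2 * lam i a := by
          intro a; ring
        simp only [h5]
        rw [Finset.sum_add_distrib, Finset.sum_sub_distrib, ← Finset.mul_sum, ← Finset.mul_sum,
          h1, ph_mean h1]
        ring
      rw [h4]
      have e1 := ph_norm h0 h1 hR (fun ω => u (em ω)) i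
      have e2 := hmn u i
      have e3 : ∑ a, u (em ⟨i, a⟩) ^ 2 ≤ sq u i := by
        rw [sq_eq]; linarith [sq_nonneg (u (no i))]
      have e4 : R i * ∑ a, u (em ⟨i, a⟩) ^ 2 ≤ R i * sq u i :=
        mul_le_mul_of_nonneg_left e3 (hR i)
      have e5 : M i * (R i * ∑ a, u (em ⟨i, a⟩) ^ 2) ≤ M i * (R i * sq u i) :=
        mul_le_mul_of_nonneg_left e4 (hM0 i)
      nlinarith
    have h6 : (0 : ℝ) ≤ (t i / M i)⁻¹ := inv_nonneg.2 (div_nonneg (ht i).le (hM0 i))
    refine (mul_le_mul_of_nonneg_left h3 h6).trans (le_of_eq ?_)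
    rw [inv_div]
    ring
  have hVo : ∀ (u : (Σ i, Option (V i)) → ℝ) (l : Λ), (∀ ω, sc ω.1 ≠ l → u ω = 0) →
      ∀ f : ι → ℝ, (∀ i, f i ≤ o (sc i)) → ∑ i, f i * sq u i ≤ o l * ∑ p, u p ^ 2 := by
    intro u l hul f hf
    rw [hsig, Finset.mul_sum]
    refine Finset.sum_le_sum fun i _ => ?_
    by_cases h : sc i = l
    · rw [← h]
      exact mul_le_mul_of_nonneg_right (hf i) (sq_nonneg' u i)
    · have : sq u i = 0 := by
        unfold sq
        apply Finset.sum_eq_zero
        intro a _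
        rw [hul ⟨i, a⟩ h]; ring
      rw [this, mul_zero, mul_zero]
  have hul : ∀ ω, sc ω.1 ≠ l → u ω = 0 := fun ω h => by simp only [hu, if_neg h]
  have hvm : ∀ ω, sc ω.1 ≠ m → v ω = 0 := fun ω h => by simp only [hv, if_neg h]
  have ha0 : ∀ i, 0 ≤ M i * (1 + M i) * R i / t i := fun i =>
    div_nonneg (mul_nonneg (mul_nonneg (hM0 i) (by linarith [hM0 i])) (hR i)) (ht i).le
  have hb0 : ∀ i, 0 ≤ 2 * (M i * R i) + 2 * E i := fun i => by
    have := mul_nonneg (hM0 i) (hR i)
    linarith [hE i]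
  set A : ι → ℝ := fun i => M i * (1 + M i) * R i / t i with hA
  set B : ι → ℝ := fun i => 2 * (M i * R i) + 2 * E i with hB
  have hAB : ∀ i, A i + B i ≤ o (sc i) := fun i => by
    have := ho i
    simp only [hA, hB]
    linarith
  -- covariance
  have hpo : ∀ (u : (Σ i, Option (V i)) → ℝ) (x : ∀ i, V i),
      ∑ i, po lam R E u i (x i) = (∑ i, u (no i) * √(E i))
        + ∑ i, ph lam R (fun ω => u (em ω)) i (x i) := by
    intro u x
    unfold po
    rw [Finset.sum_add_distrib]
  have hCov : |∑ x, mu x * ((∑ i, po lam R E u i (x i)) * (∑ i, po lam R E v i (x i)))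
      - (∑ x, mu x * ∑ i, po lam R E u i (x i)) * (∑ x, mu x * ∑ i, po lam R E v i (x i))|
      ≤ √(∑ i, A i * sq u i) * √(∑ i, A i * sq v i) := by
    set Cu := ∑ i, u (no i) * √(E i) with hCu
    set Cv := ∑ i, v (no i) * √(E i) with hCv
    set U1 := ∑ i, mn mu (ph lam R (fun ω => u (em ω))) i with hU1
    set V1 := ∑ i, mn mu (ph lam R (fun ω => v (em ω))) i with hV1
    have hc : ∀ u : (Σ i, Option (V i)) → ℝ,
        ∑ x, mu x * ∑ i, ph lam R (fun ω => u (em ω)) i (x i)
        = ∑ i, mn mu (ph lam R (fun ω => u (em ω))) i := by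
      intro u
      unfold mn
      simp only [Finset.mul_sum]
      rw [Finset.sum_comm]
    have hcu := hc u
    have hcv := hc v
    have h3 : ∑ x, mu x * ((∑ i, po lam R E u i (x i)) * (∑ i, po lam R E v i (x i)))
      - (∑ x, mu x * ∑ i, po lam R E u i (x i)) * (∑ x, mu x * ∑ i, po lam R E v i (x i))
        = ∑ x, mu x * ((∑ i, (ph lam R (fun ω => u (em ω)) i (x i)
            - mn mu (ph lam R (fun ω => u (em ω))) i))
          * (∑ i, (ph lam R (fun ω => v (em ω)) i (x i)
            - mn mu (ph lam R (fun ω => v (em ω))) i))) := by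
      simp only [hpo]
      have g1 : ∀ x, mu x * ((∑ i, (ph lam R (fun ω => u (em ω)) i (x i)
            - mn mu (ph lam R (fun ω => u (em ω))) i))
          * (∑ i, (ph lam R (fun ω => v (em ω)) i (x i)
            - mn mu (ph lam R (fun ω => v (em ω))) i)))
          = mu x * ((∑ i, ph lam R (fun ω => u (em ω)) i (x i))
              * (∑ i, ph lam R (fun ω => v (em ω)) i (x i)))
            - V1 * (mu x * ∑ i, ph lam R (fun ω => u (em ω)) i (x i))
            - U1 * (mu x * ∑ i, ph lam R (fun ω => v (em ω)) i (x i))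
            + U1 * V1 * mu x := by
        intro x
        rw [Finset.sum_sub_distrib, Finset.sum_sub_distrib]
        ring
      have g2 : ∀ x, mu x * ((Cu + ∑ i, ph lam R (fun ω => u (em ω)) i (x i))
            * (Cv + ∑ i, ph lam R (fun ω => v (em ω)) i (x i)))
          = mu x * ((∑ i, ph lam R (fun ω => u (em ω)) i (x i))
              * (∑ i, ph lam R (fun ω => v (em ω)) i (x i)))
            + Cv * (mu x * ∑ i, ph lam R (fun ω => u (em ω)) i (x i))
            + Cu * (mu x * ∑ i, ph lam R (fun ω => v (em ω)) i (x i))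
            + Cu * Cv * mu x := by
        intro x; ring
      have g3 : ∀ (C : ℝ) (u : (Σ i, Option (V i)) → ℝ) (x : ∀ i, V i),
          mu x * (C + ∑ i, ph lam R (fun ω => u (em ω)) i (x i))
          = C * mu x + mu x * ∑ i, ph lam R (fun ω => u (em ω)) i (x i) := by
        intro C u x; ring
      have k1 : ∑ x, mu x * ((Cu + ∑ i, ph lam R (fun ω => u (em ω)) i (x i))
            * (Cv + ∑ i, ph lam R (fun ω => v (em ω)) i (x i)))
          = ∑ x, mu x * ((∑ i, ph lam R (fun ω => u (em ω)) i (x i))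
              * (∑ i, ph lam R (fun ω => v (em ω)) i (x i))) + Cv * U1 + Cu * V1 + Cu * Cv := by
        rw [Finset.sum_congr rfl (fun x _ => g2 x), Finset.sum_add_distrib,
          Finset.sum_add_distrib, Finset.sum_add_distrib, ← Finset.mul_sum, ← Finset.mul_sum,
          ← Finset.mul_sum, hmu, hcu, hcv, mul_one]
      have k2 : ∑ x, mu x * ((∑ i, (ph lam R (fun ω => u (em ω)) i (x i)
            - mn mu (ph lam R (fun ω => u (em ω))) i))
          * (∑ i, (ph lam R (fun ω => v (em ω)) i (x i)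
            - mn mu (ph lam R (fun ω => v (em ω))) i)))
          = ∑ x, mu x * ((∑ i, ph lam R (fun ω => u (em ω)) i (x i))
              * (∑ i, ph lam R (fun ω => v (em ω)) i (x i))) - V1 * U1 - U1 * V1 + U1 * V1 := by
        rw [Finset.sum_congr rfl (fun x _ => g1 x), Finset.sum_add_distrib,
          Finset.sum_sub_distrib, Finset.sum_sub_distrib, ← Finset.mul_sum, ← Finset.mul_sum,
          ← Finset.mul_sum, hmu, hcu, hcv, mul_one]
      have k3 : ∀ (C : ℝ) (u : (Σ i, Option (V i)) → ℝ),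
          ∑ x, mu x * (C + ∑ i, ph lam R (fun ω => u (em ω)) i (x i))
          = C + ∑ x, mu x * ∑ i, ph lam R (fun ω => u (em ω)) i (x i) := by
        intro C u
        rw [Finset.sum_congr rfl (fun x _ => g3 C u x), Finset.sum_add_distrib,
          ← Finset.mul_sum, hmu, mul_one]
      rw [k2, k1, k3, k3, hcu, hcv]
      ring
    rw [h3]
    refine (cs_w univ (fun x _ => hmu0 x) _ _).trans ?_
    exact mul_le_mul (Real.sqrt_le_sqrt (hVar u l hul)) (Real.sqrt_le_sqrt (hVar v m hvm))
      (Real.sqrt_nonneg _) (Real.sqrt_nonneg _)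
  -- the diagonal terms
  have hDiag : |∑ i, ∑ x, mu x * (po lam R E u i (x i) * po lam R E v i (x i))|
      ≤ √(∑ i, B i * sq u i) * √(∑ i, B i * sq v i) := by
    have h3 : ∀ i, |∑ x, mu x * (po lam R E u i (x i) * po lam R E v i (x i))|
        ≤ √(B i * sq u i) * √(B i * sq v i) := by
      intro i
      refine (cs_w univ (fun x _ => hmu0 x) _ _).trans ?_
      exact mul_le_mul (Real.sqrt_le_sqrt (hE2 u i)) (Real.sqrt_le_sqrt (hE2 v i))
        (Real.sqrt_nonneg _) (Real.sqrt_nonneg _)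
    refine (Finset.abs_sum_le_sum_abs _ _).trans ((Finset.sum_le_sum fun i _ => h3 i).trans ?_)
    refine (le_abs_self _).trans ((cs_u univ _ _).trans (le_of_eq ?_))
    congr 2
    · exact Finset.sum_congr rfl fun i _ => Real.sq_sqrt (mul_nonneg (hb0 i) (sq_nonneg' u i))
    · exact Finset.sum_congr rfl fun i _ => Real.sq_sqrt (mul_nonneg (hb0 i) (sq_nonneg' v i))
  have hfin : ∑ p, ∑ q, u p * (√(wo lam R E p) * √(wo lam R E q) *
        cumT (Mo lam mu) (p ::ₘ q ::ₘ 0)) * v q
      = (∑ x, mu x * ((∑ i, po lam R E u i (x i)) * (∑ i, po lam R E v i (x i)))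
      - (∑ x, mu x * ∑ i, po lam R E u i (x i)) * (∑ x, mu x * ∑ i, po lam R E v i (x i)))
      - ∑ i, ∑ x, mu x * (po lam R E u i (x i) * po lam R E v i (x i)) := hb
  rw [hfin]
  refine (abs_sub _ _).trans ((add_le_add hCov hDiag).trans ?_)
  -- Cauchy-Schwarz in two dimensions
  have hnA : ∀ u : (Σ i, Option (V i)) → ℝ, 0 ≤ ∑ i, A i * sq u i := fun u =>
    Finset.sum_nonneg fun i _ => mul_nonneg (ha0 i) (sq_nonneg' u i)
  have hnB : ∀ u : (Σ i, Option (V i)) → ℝ, 0 ≤ ∑ i, B i * sq u i := fun u =>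
    Finset.sum_nonneg fun i _ => mul_nonneg (hb0 i) (sq_nonneg' u i)
  have hcs : √(∑ i, A i * sq u i) * √(∑ i, A i * sq v i)
      + √(∑ i, B i * sq u i) * √(∑ i, B i * sq v i)
      ≤ √(∑ i, A i * sq u i + ∑ i, B i * sq u i) * √(∑ i, A i * sq v i + ∑ i, B i * sq v i) := by
    rw [← Real.sqrt_mul (add_nonneg (hnA u) (hnB u))]
    apply Real.le_sqrt_of_sq_le
    set a := √(∑ i, A i * sq u i) with ha
    set b := √(∑ i, A i * sq v i) with hb
    set a' := √(∑ i, B i * sq u i) with ha'
    set b' := √(∑ i, B i * sq v i) with hb'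
    have e1 : ∑ i, A i * sq u i = a ^ 2 := (Real.sq_sqrt (hnA u)).symm
    have e2 : ∑ i, A i * sq v i = b ^ 2 := (Real.sq_sqrt (hnA v)).symm
    have e3 : ∑ i, B i * sq u i = a' ^ 2 := (Real.sq_sqrt (hnB u)).symm
    have e4 : ∑ i, B i * sq v i = b' ^ 2 := (Real.sq_sqrt (hnB v)).symm
    rw [e1, e2, e3, e4]
    nlinarith [sq_nonneg (a * b' - a' * b)]
  refine hcs.trans ?_
  have hou : ∑ i, A i * sq u i + ∑ i, B i * sq u i ≤ o l * ∑ p, u p ^ 2 := by
    rw [← Finset.sum_add_distrib]
    have := hVo u l hul (fun i => A i + B i) hAB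
    refine le_trans (le_of_eq ?_) this
    exact Finset.sum_congr rfl fun i _ => by ring
  have hov : ∑ i, A i * sq v i + ∑ i, B i * sq v i ≤ o m * ∑ p, v p ^ 2 := by
    rw [← Finset.sum_add_distrib]
    have := hVo v m hvm (fun i => A i + B i) hAB
    refine le_trans (le_of_eq ?_) this
    exact Finset.sum_congr rfl fun i _ => by ring
  have hsu0 : 0 ≤ ∑ p, u p ^ 2 := Finset.sum_nonneg fun _ _ => sq_nonneg _
  have hsv0 : 0 ≤ ∑ p, v p ^ 2 := Finset.sum_nonneg fun _ _ => sq_nonneg _
  calc _ ≤ √(o l * ∑ p, u p ^ 2) * √(o m * ∑ p, v p ^ 2) :=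
        mul_le_mul (Real.sqrt_le_sqrt hou) (Real.sqrt_le_sqrt hov) (Real.sqrt_nonneg _)
          (Real.sqrt_nonneg _)
    _ = √(o l * o m) * √(∑ p, u p ^ 2) * √(∑ p, v p ^ 2) := by
        have hol : 0 ≤ o l * ∑ p, u p ^ 2 := (add_nonneg (hnA u) (hnB u)).trans hou
        rw [← Real.sqrt_mul hol, show o l * (∑ p, u p ^ 2) * (o m * ∑ p, v p ^ 2)
          = (o l * o m) * ((∑ p, u p ^ 2) * ∑ p, v p ^ 2) by ring,
          Real.sqrt_mul' _ (mul_nonneg hsu0 hsv0), Real.sqrt_mul hsu0, mul_assoc]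

end law

end Vale.Agent.P042.H232
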