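import Vale.Agent.P042.H232.Clos
import Vale.Agent.P042.H232.Law
import Vale.Agent.P042.H159.Main

/-!
# P042, seam [B] → [C]: output in the form of `H159.blockC`
-/

set_option linter.unusedSectionVars false

namespace Vale.Agent.P042.H232

open Finset Vale.Agent.P042.H159

universe u

section ls

variable {Ω : Type u} [Fintype Ω]

/-- `I` is a sum over lists. -/
lemma I_Ls (m : Ω → ℝ) (e : ℕ) (F : Multiset Ω → ℝ) :
    I m e F = ∑ l ∈ Ls Ω e, (l.map m).prod * F (l : Multiset Ω) := by
  induction e generalizing F with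
  | zero => simp [sum_Ls_zero]
  | succ e ih =>
    rw [I_succ, sum_Ls_succ]
    refine Finset.sum_congr rfl fun b _ => ?_
    rw [ih, Finset.mul_sum]
    refine Finset.sum_congr rfl fun l _ => ?_
    rw [List.map_cons, List.prod_cons, ← Multiset.cons_coe]
    ring

/-- Norm of the scaled function. -/
lemma nrm_Ls {m : Ω → ℝ} (hm : ∀ a, 0 ≤ m a) (e : ℕ) (T : Multiset Ω → ℝ) :
    ∑ l ∈ Ls Ω e, ((fun S => T S * (S.map (fun ω => √(m ω))).prod) (l : Multiset Ω)) ^ 2
      = nrm m e T ^ 2 := by
  rw [nrm_sq hm, I_Ls]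
  refine Finset.sum_congr rfl fun l _ => ?_
  have h1 : ((l : Multiset Ω).map (fun ω => √(m ω))).prod ^ 2 = (l.map m).prod := by
    rw [Multiset.map_coe, Multiset.prod_coe]
    clear * - hm
    induction l with
    | nil => simp
    | cons a l ih =>
      rw [List.map_cons, List.prod_cons, List.map_cons, List.prod_cons, mul_pow, ih,
        Real.sq_sqrt (hm a)]
  beta_reduce
  rw [mul_pow, h1]
  ring

/-- **The bounds of block [C] from the norms of `T`.** -/
theorem bd_of_nrm {m : Ω → ℝ} (hm : ∀ a, 0 ≤ m a) {T : Multiset Ω → ℝ} {b0 : ℕ} {y κ : ℝ}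
    (h1 : nrm m 1 T ≤ y) (h2 : nrm m 2 T ≤ y ^ 2)
    (hop : ∀ u v : Ω → ℝ, |∑ p, ∑ q, u p * (√(m p) * √(m q) * T (p ::ₘ q ::ₘ 0)) * v q|
      ≤ (κ / y) ^ 2 * √(∑ p, u p ^ 2) * √(∑ q, v q ^ 2))
    (h3 : ∀ j, 3 ≤ j → j ≤ b0 → nrm m j T ≤ (κ / y) ^ j) :
    Bd b0 y κ (fun S => T S * (S.map (fun ω => √(m ω))).prod) where
  one := by
    rw [nrm_Ls hm]
    exact pow_le_pow_left₀ (nrm_nonneg _ _) h1 2
  two := by
    rw [nrm_Ls hm, show y ^ 4 = (y ^ 2) ^ 2 by ring]
    exact pow_le_pow_left₀ (nrm_nonneg _ _) h2 2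
  op := by
    intro u v
    have := hop u v
    refine le_trans (le_of_eq ?_) this
    congr 1
    refine Finset.sum_congr rfl fun p _ => Finset.sum_congr rfl fun q _ => ?_
    simp only [Multiset.map_cons, Multiset.prod_cons, Multiset.map_zero, Multiset.prod_zero]
    ring
  hs := by
    intro j hj hj'
    rw [nrm_Ls hm, show 2 * j = j * 2 by ring, pow_mul]
    exact pow_le_pow_left₀ (nrm_nonneg _ _) (h3 j hj hj') 2

/-- `IsCum` is the recursion `MC` of block [C]. -/
lemma IsCum.mc {M T : Multiset Ω → ℝ} (h : IsCum M T) : MC M T := h.cons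

end ls

/-! ### sums over tuples of pairs -/

section dst

variable {Ω : Type*} [Fintype Ω] {ι : Type*} [Fintype ι] [DecidableEq ι] (c : Ω → ι)

open Classical in
/-- Distinct tuples with a product weight are sets. -/
theorem I_dst_prod (w : Ω → ℝ) (e : ℕ) : ∀ U : Finset ι,
    I w e (fun S => if Dst c S ∧ (∀ ω ∈ S, c ω ∉ U) then (1 : ℝ) else 0)
      = e.factorial * ∑ B ∈ powersetCard e Uᶜ, ∏ i ∈ B, ∑ ω, if c ω = i then w ω else 0 := by
  induction e with
  | zero =>
    intro U
    have : Dst c (0 : Multiset Ω) ∧ (∀ ω ∈ (0 : Multiset Ω), c ω ∉ U) :=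
      ⟨dst_zero _, fun ω h => absurd h (Multiset.notMem_zero _)⟩
    rw [I_zero, if_pos this]
    simp
  | succ e ih =>
    intro U
    rw [I_succ]
    have h2 : ∀ ω : Ω, I w e
        (fun S => if Dst c (ω ::ₘ S) ∧ (∀ ω' ∈ ω ::ₘ S, c ω' ∉ U) then (1 : ℝ) else 0)
        = if c ω ∈ U then 0 else e.factorial * ∑ B ∈ powersetCard e (insert (c ω) U)ᶜ,
          ∏ i ∈ B, ∑ ω', if c ω' = i then w ω' else 0 := by
      intro ω
      by_cases hω : c ω ∈ U
      · rw [if_pos hω]
        have h0 : ∀ S, (if Dst c (ω ::ₘ S) ∧ (∀ ω' ∈ ω ::ₘ S, c ω' ∉ U) then (1 : ℝ) else 0)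
            = (0 : ℝ) := by
          intro S
          rw [if_neg]
          rintro ⟨_, h⟩
          exact h ω (Multiset.mem_cons_self _ _) hω
        rw [I_congr e h0, I_zero_fun]
      · rw [if_neg hω, ← ih (insert (c ω) U)]
        refine I_congr e fun S => ?_
        have : (Dst c (ω ::ₘ S) ∧ (∀ ω' ∈ ω ::ₘ S, c ω' ∉ U)) ↔
            (Dst c S ∧ (∀ ω' ∈ S, c ω' ∉ insert (c ω) U)) := by
          unfold Dst
          rw [Multiset.map_cons, Multiset.nodup_cons]
          constructor
          · rintro ⟨⟨h3, h4⟩, h5⟩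
            refine ⟨h4, fun ω' hω' => ?_⟩
            rw [Finset.mem_insert, not_or]
            refine ⟨fun h6 => h3 ?_, h5 ω' (Multiset.mem_cons_of_mem hω')⟩
            rw [← h6]
            exact Multiset.mem_map_of_mem _ hω'
          · rintro ⟨h4, h5⟩
            refine ⟨⟨fun h3 => ?_, h4⟩, fun ω' hω' => ?_⟩
            · obtain ⟨ω', h6, h7⟩ := Multiset.mem_map.1 h3
              exact h5 ω' h6 (by rw [h7]; exact Finset.mem_insert_self _ _)
            · rcases Multiset.mem_cons.1 hω' with rfl | h6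
              · exact hω
              · exact fun h7 => h5 ω' h6 (Finset.mem_insert_of_mem h7)
        simp only [this]
    simp only [h2]
    -- group by the coordinate
    have h3 : ∑ ω : Ω, w ω * (if c ω ∈ U then 0 else (e.factorial : ℝ) *
        ∑ B ∈ powersetCard e (insert (c ω) U)ᶜ, ∏ i ∈ B, ∑ ω', if c ω' = i then w ω' else 0)
        = ∑ i : ι, (∑ ω, if c ω = i then w ω else 0) * (if i ∈ U then 0 else (e.factorial : ℝ) *
        ∑ B ∈ powersetCard e (insert i U)ᶜ, ∏ i ∈ B, ∑ ω', if c ω' = i then w ω' else 0) := by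
      simp only [Finset.sum_mul]
      rw [Finset.sum_comm]
      refine Finset.sum_congr rfl fun ω _ => ?_
      rw [Finset.sum_eq_single (c ω)]
      · rw [if_pos rfl]
      · intro i _ hi
        rw [if_neg (Ne.symm hi), zero_mul]
      · intro h
        exact absurd (Finset.mem_univ _) h
    rw [h3]
    have h4 : ∀ i : ι, (∑ ω, if c ω = i then w ω else 0) * (if i ∈ U then 0 else
        (e.factorial : ℝ) * ∑ B ∈ powersetCard e (insert i U)ᶜ,
          ∏ i ∈ B, ∑ ω', if c ω' = i then w ω' else 0)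
        = if i ∈ Uᶜ then (e.factorial : ℝ) * ∑ B ∈ powersetCard e (insert i U)ᶜ,
          ∏ j ∈ insert i B, ∑ ω', (if c ω' = j then w ω' else 0) else 0 := by
      intro i
      by_cases hi : i ∈ U
      · simp [hi]
      · rw [if_neg hi, if_pos (by simpa using hi), mul_left_comm, Finset.mul_sum]
        congr 1
        refine Finset.sum_congr rfl fun B hB => ?_
        have hiB : i ∉ B := fun h => by
          have := (Finset.mem_powersetCard.1 hB).1 h
          simp at this
        rw [Finset.prod_insert hiB]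
    rw [Finset.sum_congr rfl (fun i _ => h4 i), ← Finset.sum_filter]
    have h5 : (univ : Finset ι).filter (fun i => i ∈ Uᶜ) = Uᶜ := by ext i; simp
    rw [h5, ← Finset.mul_sum]
    rw [comb_sets U e (fun B => ∏ j ∈ B, ∑ ω', (if c ω' = j then w ω' else 0))]
    rw [Nat.factorial_succ]
    push_cast
    ring

end dst

section fmom

variable {Ω : Type u} [Fintype Ω] {ι : Type*} [Fintype ι] [DecidableEq ι] (c : Ω → ι)
  {X Y : Type*} (D : Finset X) (D' : Finset Y) (μ : X → ℝ) (μ' : Y → ℝ) (U : Ω → X → ℝ)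
  (U' : Ω → Y → ℝ) (ξ : Ω → Ω → ℝ)

/-- The kernel at the coordinate `i`. -/
noncomputable def Kf (i : ι) (x : X) (y : Y) : ℝ :=
  ∑ p : Ω × Ω, if c p.1 = i then ξ p.1 p.2 * U p.1 x * U' p.2 y else 0

/-- **Block [C]'s sum is the sum over the sets of coordinates of the expectations of the products
of the kernels.** -/
theorem F_mom (hξ : ∀ p q, c p ≠ c q → ξ p q = 0) (d : ℕ) :
    F ξ (mom c D μ U) (mom c D' μ' U') d
      = ∑ B ∈ powersetCard d (univ : Finset ι), ∑ x ∈ D, ∑ y ∈ D',
          μ x * μ' y * ∏ i ∈ B, Kf c U U' ξ i x y := by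
  classical
  unfold F
  -- each term
  have h1 : ∀ E : List (Ω × Ω), xi ξ E * mom c D μ U ↑(E.map Prod.fst) *
      mom c D' μ' U' ↑(E.map Prod.snd)
      = ∑ x ∈ D, ∑ y ∈ D', μ x * μ' y * ((E.map (fun e => ξ e.1 e.2 * U e.1 x * U' e.2 y)).prod *
          (if Dst (fun e : Ω × Ω => c e.1) (E : Multiset (Ω × Ω)) then 1 else 0)) := by
    intro E
    by_cases hE : ∀ e ∈ E, c e.1 = c e.2
    · have hmap : ((E.map Prod.snd : List Ω) : Multiset Ω).map c
          = ((E.map Prod.fst : List Ω) : Multiset Ω).map c := by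
        simp only [Multiset.map_coe, List.map_map]
        congr 1
        apply List.map_congr_left
        intro e he
        exact (hE e he).symm
      have hmap2 : (E : Multiset (Ω × Ω)).map (fun e : Ω × Ω => c e.1)
          = ((E.map Prod.fst : List Ω) : Multiset Ω).map c := by
        simp only [Multiset.map_coe, List.map_map]
        rfl
      by_cases hd : Dst (fun e : Ω × Ω => c e.1) (E : Multiset (Ω × Ω))
      · have hd1 : Dst c ((E.map Prod.fst : List Ω) : Multiset Ω) := by
          unfold Dst at hd ⊢; rwa [hmap2] at hd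
        have hd2 : Dst c ((E.map Prod.snd : List Ω) : Multiset Ω) := by
          unfold Dst at hd ⊢; rwa [hmap, ← hmap2]
        rw [mom_of_dst c D μ U hd1, mom_of_dst c D' μ' U' hd2]
        simp only [if_pos hd, mul_one]
        rw [mul_assoc, Finset.sum_mul_sum, Finset.mul_sum]
        refine Finset.sum_congr rfl fun x _ => ?_
        rw [Finset.mul_sum]
        refine Finset.sum_congr rfl fun y _ => ?_
        have h2 : (E.map (fun e => ξ e.1 e.2 * U e.1 x * U' e.2 y)).prod
            = xi ξ E * (((E.map Prod.fst : List Ω) : Multiset Ω).map (fun ω => U ω x)).prod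
              * (((E.map Prod.snd : List Ω) : Multiset Ω).map (fun ω => U' ω y)).prod := by
          simp only [Multiset.map_coe, Multiset.prod_coe, List.map_map]
          unfold xi
          clear hE hmap hmap2 hd hd1 hd2
          induction E with
          | nil => simp
          | cons a l ih =>
            simp only [List.map_cons, List.prod_cons, Function.comp_apply]
            simp only [Function.comp_def] at ih ⊢
            rw [ih]
            ring
        rw [h2]
        ring
      · have hd1 : ¬ Dst c ((E.map Prod.fst : List Ω) : Multiset Ω) := by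
          unfold Dst at hd ⊢; rwa [hmap2] at hd
        rw [mom_of_not c D μ U hd1]
        simp [hd]
    · push Not at hE
      obtain ⟨e, he, hne⟩ := hE
      have h2 : xi ξ E = 0 := by
        unfold xi
        apply List.prod_eq_zero
        rw [List.mem_map]
        exact ⟨e, he, hξ _ _ hne⟩
      rw [h2, zero_mul, zero_mul]
      symm
      apply Finset.sum_eq_zero
      intro x _
      apply Finset.sum_eq_zero
      intro y _
      have h3 : (E.map (fun e => ξ e.1 e.2 * U e.1 x * U' e.2 y)).prod = 0 := by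
        apply List.prod_eq_zero
        rw [List.mem_map]
        exact ⟨e, he, by rw [hξ _ _ hne]; ring⟩
      rw [h3]
      ring
  have h4 : ∀ x y, ∑ E ∈ Ls (Ω × Ω) d, (E.map (fun e => ξ e.1 e.2 * U e.1 x * U' e.2 y)).prod *
      (if Dst (fun e : Ω × Ω => c e.1) (E : Multiset (Ω × Ω)) then 1 else 0)
      = d.factorial * ∑ B ∈ powersetCard d (univ : Finset ι), ∏ i ∈ B, Kf c U U' ξ i x y := by
    intro x y
    have h5 := I_dst_prod (fun e : Ω × Ω => c e.1) (fun e => ξ e.1 e.2 * U e.1 x * U' e.2 y) d ∅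
    rw [Finset.compl_empty] at h5
    unfold Kf
    rw [← h5, I_Ls]
    refine Finset.sum_congr rfl fun E _ => ?_
    simp
  rw [Finset.sum_congr rfl (fun E _ => h1 E), Finset.sum_comm]
  have h6 : ∀ x ∈ D, ∑ E ∈ Ls (Ω × Ω) d, ∑ y ∈ D', μ x * μ' y *
      ((E.map (fun e => ξ e.1 e.2 * U e.1 x * U' e.2 y)).prod *
          (if Dst (fun e : Ω × Ω => c e.1) (E : Multiset (Ω × Ω)) then 1 else 0))
      = ∑ y ∈ D', μ x * μ' y * (d.factorial *
        ∑ B ∈ powersetCard d (univ : Finset ι), ∏ i ∈ B, Kf c U U' ξ i x y) := by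
    intro x _
    rw [Finset.sum_comm]
    refine Finset.sum_congr rfl fun y _ => ?_
    rw [← Finset.mul_sum, h4]
  rw [Finset.sum_congr rfl h6, div_eq_iff (by positivity)]
  simp only [Finset.mul_sum, Finset.sum_mul]
  symm
  rw [Finset.sum_comm]
  refine Finset.sum_congr rfl fun x _ => ?_
  rw [Finset.sum_comm]
  refine Finset.sum_congr rfl fun y _ => Finset.sum_congr rfl fun B _ => ?_
  ring

end fmom

end Vale.Agent.P042.H232
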