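import Vale.Agent.P042.H232.Ext
import Vale.Agent.P042.H284.SeamF
import Vale.Agent.P042.H365.OneBody

/-!
# P042, seam [B] → [C], typed: kernels with constant and one-body parts

`K i a b = c i + u i a + u' i b + s i a b` (helper365's `OB`) becomes a bilinear form in the
extended letters (`none` = the constant), which is a contraction for the weights
`R i * lam i a` (letters) and `E i` (constant letter), `2 rho i ≤ R i`, `2 e i ≤ E i`.
-/

set_option linter.unusedSectionVars false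

namespace Vale.Agent.P042.H232

open Finset Vale.Agent.P042.H461 Vale.Agent.P042.H742 Vale.Agent.P042.H159
open Vale.Agent.P042.H284 (zt BV CV Kc FB tyi co co_zt_mom)

section gen

variable {Ω : Type*} {ι : Type*} [DecidableEq ι] {X : Type*}

/-- Scaling of the moments. -/
lemma mom_scale (c : Ω → ι) (D : Finset X) (μ : X → ℝ) (U : Ω → X → ℝ) (w : Ω → ℝ)
    (S : Multiset Ω) :
    mom c D μ U S * (S.map w).prod = mom c D μ (fun ω x => w ω * U ω x) S := by
  unfold mom
  by_cases h : Dst c S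
  · rw [if_pos h, if_pos h, Finset.sum_mul]
    refine Finset.sum_congr rfl fun x _ => ?_
    rw [Multiset.prod_map_mul]
    ring
  · rw [if_neg h, if_neg h, zero_mul]

/-- unweighted Cauchy-Schwarz in the form used below -/
lemma cs_u {α : Type*} (s : Finset α) (f g : α → ℝ) :
    |∑ a ∈ s, f a * g a| ≤ √(∑ a ∈ s, f a ^ 2) * √(∑ a ∈ s, g a ^ 2) := by
  have := cs_w s (w := fun _ => 1) (fun _ _ => zero_le_one) f g
  simpa using this

end gen

section ker

variable {ι : Type*} [Fintype ι] [DecidableEq ι] {V : ι → Type*} [∀ i, Fintype (V i)]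
  [∀ i, DecidableEq (V i)]

/-- the weights of the extended letters -/
def wo (lam : ∀ i, V i → ℝ) (R E : ι → ℝ) (ω : Σ i, Option (V i)) : ℝ :=
  match ω with
  | ⟨i, none⟩ => E i
  | ⟨i, some a⟩ => lam i a * R i

@[simp] lemma wo_no (lam : ∀ i, V i → ℝ) (R E : ι → ℝ) (i : ι) : wo lam R E (no i) = E i := rfl

@[simp] lemma wo_em (lam : ∀ i, V i → ℝ) (R E : ι → ℝ) (ω : Σ i, V i) :
    wo lam R E (em ω) = wm lam R ω := rfl

lemma wo_nonneg {lam : ∀ i, V i → ℝ} {R E : ι → ℝ} (h0 : ∀ i a, 0 ≤ lam i a) (hR : ∀ i, 0 ≤ R i)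
    (hE : ∀ i, 0 ≤ E i) (ω : Σ i, Option (V i)) : 0 ≤ wo lam R E ω := by
  obtain ⟨i, a⟩ := ω
  cases a with
  | none => exact hE i
  | some a => exact mul_nonneg (h0 i a) (hR i)

/-- the kernel on one block -/
noncomputable def xb (lam : ∀ i, V i → ℝ) (c : ι → ℝ) (u u' : ∀ i, V i → ℝ)
    (s : ∀ i, V i → V i → ℝ) (R E : ι → ℝ) (i : ι) : Option (V i) → Option (V i) → ℝ
  | none, none => c i / E i
  | some a, none => √(lam i a) * u i a / √(R i * E i)
  | none, some b => √(lam i b) * u' i b / √(R i * E i)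
  | some a, some b => √(lam i a) * √(lam i b) * s i a b / R i

/-- the kernel on the extended letters -/
noncomputable def xo (lam : ∀ i, V i → ℝ) (c : ι → ℝ) (u u' : ∀ i, V i → ℝ)
    (s : ∀ i, V i → V i → ℝ) (R E : ι → ℝ) (p q : Σ i, Option (V i)) : ℝ :=
  if h : q.1 = p.1 then xb lam c u u' s R E p.1 p.2 (h ▸ q.2) else 0

variable {lam : ∀ i, V i → ℝ} {c : ι → ℝ} {u u' : ∀ i, V i → ℝ} {s : ∀ i, V i → V i → ℝ}
  {R E : ι → ℝ}

lemma xo_same (i : ι) (a b : Option (V i)) :
    xo lam c u u' s R E ⟨i, a⟩ ⟨i, b⟩ = xb lam c u u' s R E i a b := by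
  unfold xo
  rw [dif_pos rfl]

lemma xo_ne {p q : Σ i, Option (V i)} (h : p.1 ≠ q.1) : xo lam c u u' s R E p q = 0 := by
  unfold xo
  rw [dif_neg (fun h' => h h'.symm)]

variable {K : ∀ i, V i → V i → ℝ} {rho e : ι → ℝ}

/-- **Contraction on one block.** -/
theorem xb_contr (h0 : ∀ i a, 0 ≤ lam i a) (H : H365.OB lam K c u u' s rho e)
    (hR : ∀ i, 0 < R i) (hE : ∀ i, 0 < E i) (hRr : ∀ i, 2 * rho i ≤ R i)
    (hEe : ∀ i, 2 * e i ≤ E i) (i : ι) (φ ψ : Option (V i) → ℝ) :
    |∑ p, ∑ q, φ p * xb lam c u u' s R E i p q * ψ q| ≤ √(∑ p, φ p ^ 2) * √(∑ q, ψ q ^ 2) := by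
  have hsR : 0 < √(R i * E i) := Real.sqrt_pos.2 (mul_pos (hR i) (hE i))
  set A := √(∑ a, φ (some a) ^ 2) with hA
  set B := √(∑ a, ψ (some a) ^ 2) with hB
  have hA0 : 0 ≤ A := Real.sqrt_nonneg _
  have hB0 : 0 ≤ B := Real.sqrt_nonneg _
  have hre : rho i * e i ≤ (R i * E i) / 4 := by
    have := mul_le_mul (hRr i) (hEe i) (mul_nonneg zero_le_two (H.e0 i)) (hR i).le
    nlinarith
  have hsre : √(rho i * e i) / √(R i * E i) ≤ 1 / 2 := by
    rw [div_le_iff₀ hsR]
    calc √(rho i * e i) ≤ √((R i * E i) / 4) := Real.sqrt_le_sqrt hre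
      _ = 1 / 2 * √(R i * E i) := by
          rw [show (R i * E i) / 4 = (1 / 2) ^ 2 * (R i * E i) by ring,
            Real.sqrt_mul (by norm_num), Real.sqrt_sq (by norm_num)]
  -- the constant term
  have t1 : |φ none * (c i / E i) * ψ none| ≤ 1 / 2 * (|φ none| * |ψ none|) := by
    rw [abs_mul, abs_mul, abs_div, abs_of_pos (hE i)]
    have : |c i| / E i ≤ 1 / 2 := by
      rw [div_le_iff₀ (hE i)]
      linarith [H.cn i, hEe i]
    calc |φ none| * (|c i| / E i) * |ψ none| = (|c i| / E i) * (|φ none| * |ψ none|) := by ring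
      _ ≤ _ := mul_le_mul_of_nonneg_right this (by positivity)
  -- one-body terms
  have onebody : ∀ (f : V i → ℝ) (v : V i → ℝ), ∑ a, lam i a * v a ^ 2 ≤ rho i * e i →
      |∑ a, f a * (√(lam i a) * v a / √(R i * E i))| ≤ 1 / 2 * √(∑ a, f a ^ 2) := by
    intro f v hv
    refine (cs_u univ f _).trans ?_
    rw [mul_comm]
    apply mul_le_mul_of_nonneg_right _ (Real.sqrt_nonneg _)
    refine le_trans ?_ hsre
    rw [← Real.sqrt_div' _ (mul_pos (hR i) (hE i)).le]
    apply Real.sqrt_le_sqrt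
    have : ∑ a, (√(lam i a) * v a / √(R i * E i)) ^ 2
        = (∑ a, lam i a * v a ^ 2) / (R i * E i) := by
      rw [Finset.sum_div]
      refine Finset.sum_congr rfl fun a _ => ?_
      rw [div_pow, mul_pow, Real.sq_sqrt (h0 i a), Real.sq_sqrt (mul_pos (hR i) (hE i)).le]
    rw [this]
    exact div_le_div_of_nonneg_right hv (mul_pos (hR i) (hE i)).le
  have t2 : |∑ a, φ (some a) * (√(lam i a) * u i a / √(R i * E i)) * ψ none|
      ≤ 1 / 2 * (A * |ψ none|) := by
    rw [← Finset.sum_mul, abs_mul]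
    have := onebody (fun a => φ (some a)) (u i) (H.un i)
    calc _ ≤ (1 / 2 * A) * |ψ none| := mul_le_mul_of_nonneg_right this (abs_nonneg _)
      _ = _ := by ring
  have t3 : |∑ b, φ none * (√(lam i b) * u' i b / √(R i * E i)) * ψ (some b)|
      ≤ 1 / 2 * (|φ none| * B) := by
    have e1 : ∑ b, φ none * (√(lam i b) * u' i b / √(R i * E i)) * ψ (some b)
        = φ none * ∑ b, ψ (some b) * (√(lam i b) * u' i b / √(R i * E i)) := by
      rw [Finset.mul_sum]
      exact Finset.sum_congr rfl fun b _ => by ring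
    rw [e1, abs_mul]
    have := onebody (fun a => ψ (some a)) (u' i) (H.un' i)
    calc _ ≤ |φ none| * (1 / 2 * B) := mul_le_mul_of_nonneg_left this (abs_nonneg _)
      _ = _ := by ring
  -- the two-body term
  have t4 : |∑ a, ∑ b, φ (some a) * (√(lam i a) * √(lam i b) * s i a b / R i) * ψ (some b)|
      ≤ 1 / 2 * (A * B) := by
    set f : V i → ℝ := fun b => ψ (some b) / √(lam i b) with hf
    have hf1 : ∀ b, lam i b * f b = √(lam i b) * ψ (some b) := by
      intro b
      rw [hf]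
      beta_reduce
      rcases eq_or_lt_of_le (h0 i b) with h | h
      · rw [← h]; simp
      · have h2 := Real.sqrt_pos.2 h
        rw [mul_div_assoc', div_eq_iff h2.ne']
        have := Real.mul_self_sqrt (h0 i b)
        calc lam i b * ψ (some b) = (√(lam i b) * √(lam i b)) * ψ (some b) := by rw [this]
          _ = _ := by ring
    have hf2 : ∑ b, lam i b * f b ^ 2 ≤ ∑ b, ψ (some b) ^ 2 := by
      refine Finset.sum_le_sum fun b _ => ?_
      rcases eq_or_lt_of_le (h0 i b) with h | h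
      · rw [← h, zero_mul]; exact sq_nonneg _
      · apply le_of_eq
        rw [hf]
        beta_reduce
        rw [div_pow, Real.sq_sqrt (h0 i b)]
        field_simp
    have e1 : ∑ a, ∑ b, φ (some a) * (√(lam i a) * √(lam i b) * s i a b / R i) * ψ (some b)
        = (R i)⁻¹ * ∑ a, φ (some a) * (√(lam i a) * ∑ b, lam i b * (s i a b * f b)) := by
      rw [Finset.mul_sum]
      refine Finset.sum_congr rfl fun a _ => ?_
      rw [Finset.mul_sum, Finset.mul_sum, Finset.mul_sum]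
      refine Finset.sum_congr rfl fun b _ => ?_
      have := hf1 b
      calc φ (some a) * (√(lam i a) * √(lam i b) * s i a b / R i) * ψ (some b)
          = (R i)⁻¹ * (φ (some a) * (√(lam i a) * (s i a b * (√(lam i b) * ψ (some b))))) := by
            rw [div_eq_mul_inv]; ring
        _ = _ := by rw [← this]; ring
    rw [e1, abs_mul, abs_of_pos (inv_pos.2 (hR i))]
    have e2 : |∑ a, φ (some a) * (√(lam i a) * ∑ b, lam i b * (s i a b * f b))|
        ≤ A * (rho i * B) := by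
      refine (cs_u univ _ _).trans ?_
      apply mul_le_mul_of_nonneg_left _ hA0
      have e3 : ∑ a, (√(lam i a) * ∑ b, lam i b * (s i a b * f b)) ^ 2
          ≤ (rho i * B) ^ 2 := by
        calc _ = ∑ a, lam i a * (∑ b, lam i b * (s i a b * f b)) ^ 2 := by
              refine Finset.sum_congr rfl fun a _ => ?_
              rw [mul_pow, Real.sq_sqrt (h0 i a)]
          _ ≤ rho i ^ 2 * ∑ b, lam i b * f b ^ 2 := H.sn i f
          _ ≤ rho i ^ 2 * ∑ b, ψ (some b) ^ 2 := mul_le_mul_of_nonneg_left hf2 (sq_nonneg _)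
          _ = _ := by
              rw [mul_pow, hB, Real.sq_sqrt (Finset.sum_nonneg fun _ _ => sq_nonneg _)]
      calc _ ≤ √((rho i * B) ^ 2) := Real.sqrt_le_sqrt e3
        _ = _ := Real.sqrt_sq (mul_nonneg (H.rho0 i) hB0)
    calc (R i)⁻¹ * |∑ a, φ (some a) * (√(lam i a) * ∑ b, lam i b * (s i a b * f b))|
        ≤ (R i)⁻¹ * (A * (rho i * B)) :=
          mul_le_mul_of_nonneg_left e2 (inv_pos.2 (hR i)).le
      _ = (rho i / R i) * (A * B) := by rw [div_eq_mul_inv]; ring
      _ ≤ 1 / 2 * (A * B) := by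
          apply mul_le_mul_of_nonneg_right _ (mul_nonneg hA0 hB0)
          rw [div_le_iff₀ (hR i)]
          linarith [hRr i]
  -- assemble
  have hsplit : ∑ p, ∑ q, φ p * xb lam c u u' s R E i p q * ψ q
      = φ none * (c i / E i) * ψ none
        + ∑ b, φ none * (√(lam i b) * u' i b / √(R i * E i)) * ψ (some b)
        + (∑ a, φ (some a) * (√(lam i a) * u i a / √(R i * E i)) * ψ none
        + ∑ a, ∑ b, φ (some a) * (√(lam i a) * √(lam i b) * s i a b / R i) * ψ (some b)) := by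
    rw [Fintype.sum_option, Fintype.sum_option, ← Finset.sum_add_distrib]
    congr 1
    refine Finset.sum_congr rfl fun a _ => ?_
    rw [Fintype.sum_option]
    rfl
  have hnφ : √(∑ p, φ p ^ 2) ^ 2 = φ none ^ 2 + A ^ 2 := by
    rw [Real.sq_sqrt (Finset.sum_nonneg fun _ _ => sq_nonneg _), Fintype.sum_option, hA,
      Real.sq_sqrt (Finset.sum_nonneg fun _ _ => sq_nonneg _)]
  have hnψ : √(∑ p, ψ p ^ 2) ^ 2 = ψ none ^ 2 + B ^ 2 := by
    rw [Real.sq_sqrt (Finset.sum_nonneg fun _ _ => sq_nonneg _), Fintype.sum_option, hB,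
      Real.sq_sqrt (Finset.sum_nonneg fun _ _ => sq_nonneg _)]
  rw [hsplit]
  have hsum : |φ none * (c i / E i) * ψ none
        + ∑ b, φ none * (√(lam i b) * u' i b / √(R i * E i)) * ψ (some b)
        + (∑ a, φ (some a) * (√(lam i a) * u i a / √(R i * E i)) * ψ none
        + ∑ a, ∑ b, φ (some a) * (√(lam i a) * √(lam i b) * s i a b / R i) * ψ (some b))|
      ≤ 1 / 2 * ((|φ none| + A) * (|ψ none| + B)) := by
    refine (abs_add_le _ _).trans ?_
    have h1 := (abs_add_le (φ none * (c i / E i) * ψ none)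
      (∑ b, φ none * (√(lam i b) * u' i b / √(R i * E i)) * ψ (some b)))
    have h2 := (abs_add_le (∑ a, φ (some a) * (√(lam i a) * u i a / √(R i * E i)) * ψ none)
      (∑ a, ∑ b, φ (some a) * (√(lam i a) * √(lam i b) * s i a b / R i) * ψ (some b)))
    nlinarith
  refine hsum.trans ?_
  have hφ0 : 0 ≤ √(∑ p, φ p ^ 2) := Real.sqrt_nonneg _
  have hψ0 : 0 ≤ √(∑ p, ψ p ^ 2) := Real.sqrt_nonneg _
  have k1 : (|φ none| + A) ^ 2 ≤ (√2 * √(∑ p, φ p ^ 2)) ^ 2 := by
    rw [mul_pow, Real.sq_sqrt (by norm_num), hnφ]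
    have := sq_abs (φ none)
    nlinarith [sq_nonneg (|φ none| - A)]
  have k2 : (|ψ none| + B) ^ 2 ≤ (√2 * √(∑ p, ψ p ^ 2)) ^ 2 := by
    rw [mul_pow, Real.sq_sqrt (by norm_num), hnψ]
    have := sq_abs (ψ none)
    nlinarith [sq_nonneg (|ψ none| - B)]
  have k3 := le_of_sq_le_sq' k1 (by positivity)
  have k4 := le_of_sq_le_sq' k2 (by positivity)
  have h2 : √2 * √2 = (2 : ℝ) := Real.mul_self_sqrt (by norm_num)
  calc 1 / 2 * ((|φ none| + A) * (|ψ none| + B))
      ≤ 1 / 2 * ((√2 * √(∑ p, φ p ^ 2)) * (√2 * √(∑ p, ψ p ^ 2))) := by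
        apply mul_le_mul_of_nonneg_left _ (by norm_num)
        exact mul_le_mul k3 k4 (by positivity) (by positivity)
    _ = 1 / 2 * ((√2 * √2) * (√(∑ p, φ p ^ 2) * √(∑ p, ψ p ^ 2))) := by ring
    _ = _ := by rw [h2]; ring

/-- **The kernel is a contraction on every block of types.** -/
theorem cv_xo {Λ : Type*} {sc : ι → Λ} {VV : Λ → Finset (Σ i, Option (V i))}
    (hV : ∀ l ω, ω ∈ VV l ↔ sc ω.1 = l)
    (h0 : ∀ i a, 0 ≤ lam i a) (H : H365.OB lam K c u u' s rho e)
    (hR : ∀ i, 0 < R i) (hE : ∀ i, 0 < E i) (hRr : ∀ i, 2 * rho i ≤ R i)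
    (hEe : ∀ i, 2 * e i ≤ E i) : CV VV (xo lam c u u' s R E) := by
  classical
  intro l φ ψ
  have hVV : VV l = (univ.filter fun i => sc i = l).sigma fun _ => univ := by
    ext ω
    rw [hV, Finset.mem_sigma]
    simp
  rw [hVV, Finset.sum_sigma, Finset.sum_sigma, Finset.sum_sigma, one_mul]
  have h1 : ∀ i ∈ univ.filter (fun i => sc i = l), ∀ p : Option (V i),
      ∑ q ∈ (univ.filter fun i => sc i = l).sigma (fun _ => (univ : Finset (Option (V _)))),
        φ ⟨i, p⟩ * xo lam c u u' s R E ⟨i, p⟩ q * ψ q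
      = ∑ q, φ ⟨i, p⟩ * xb lam c u u' s R E i p q * ψ ⟨i, q⟩ := by
    intro i hi p
    rw [Finset.sum_sigma, Finset.sum_eq_single i]
    · refine Finset.sum_congr rfl fun q _ => ?_
      rw [xo_same]
    · intro j _ hj
      apply Finset.sum_eq_zero
      intro q _
      rw [xo_ne (Ne.symm hj)]
      ring
    · intro h; exact absurd hi h
  rw [Finset.sum_congr rfl fun i hi => Finset.sum_congr rfl fun p _ => h1 i hi p]
  refine (Finset.abs_sum_le_sum_abs _ _).trans ?_
  have h2 : ∀ i ∈ univ.filter (fun i => sc i = l),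
      |∑ p, ∑ q, φ ⟨i, p⟩ * xb lam c u u' s R E i p q * ψ ⟨i, q⟩|
        ≤ √(∑ p, φ ⟨i, p⟩ ^ 2) * √(∑ q, ψ ⟨i, q⟩ ^ 2) :=
    fun i _ => xb_contr h0 H hR hE hRr hEe i (fun p => φ ⟨i, p⟩) (fun q => ψ ⟨i, q⟩)
  refine (Finset.sum_le_sum h2).trans ?_
  have h3 := cs_u (univ.filter (fun i => sc i = l)) (fun i => √(∑ p, φ ⟨i, p⟩ ^ 2))
    (fun i => √(∑ q, ψ ⟨i, q⟩ ^ 2))
  refine (le_abs_self _).trans (h3.trans (le_of_eq ?_))
  congr 2
  · exact Finset.sum_congr rfl fun i _ =>
      Real.sq_sqrt (Finset.sum_nonneg fun _ _ => sq_nonneg _)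
  · exact Finset.sum_congr rfl fun i _ =>
      Real.sq_sqrt (Finset.sum_nonneg fun _ _ => sq_nonneg _)

/-- Evaluation of a centred function in the letters. -/
lemma eval_centred (i : ι) {f : V i → ℝ} (hf : ∑ a, lam i a * f a = 0) (x : ∀ i, V i)
    (hx : lam i (x i) ≠ 0) : ∑ a, lam i a * f a * uh lam ⟨i, a⟩ x = f (x i) := by
  unfold uh ug
  have h1 : ∀ a, lam i a * f a * ((if x i = a then 1 else 0) / lam i a - 1)
      = (if a = x i then f (x i) else 0) - lam i a * f a := by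
    intro a
    by_cases h : a = x i
    · subst h
      rw [if_pos rfl, if_pos rfl]
      field_simp
    · rw [if_neg (Ne.symm h), if_neg h]
      ring
  simp only [h1]
  rw [Finset.sum_sub_distrib, hf, Finset.sum_ite_eq' univ (x i), if_pos (Finset.mem_univ _)]
  ring

/-- **The kernel of the tokens is the kernel.** -/
theorem kc_xo (h0 : ∀ i a, 0 ≤ lam i a) (H : H365.OB lam K c u u' s rho e)
    (hR : ∀ i, 0 < R i) (hE : ∀ i, 0 < E i) (i : ι) {x y : ∀ i, V i}
    (hx : lam i (x i) ≠ 0) (hy : lam i (y i) ≠ 0) :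
    Kc Sigma.fst (fun ω x => √(wo lam R E ω) * uo lam ω x)
      (fun ω x => √(wo lam R E ω) * uo lam ω x) (xo lam c u u' s R E) i x y
      = K i (x i) (y i) := by
  unfold Kc
  have hE' := Real.mul_self_sqrt (hE i).le
  have hR' := Real.mul_self_sqrt (hR i).le
  have hsE := Real.sqrt_pos.2 (hE i)
  have hsR := Real.sqrt_pos.2 (hR i)
  have h1 : ∑ p : (Σ i, Option (V i)) × (Σ i, Option (V i)),
      (if p.1.1 = i then xo lam c u u' s R E p.1 p.2 * (√(wo lam R E p.1) * uo lam p.1 x)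
        * (√(wo lam R E p.2) * uo lam p.2 y) else 0)
      = ∑ a : Option (V i), ∑ b : Option (V i), xb lam c u u' s R E i a b
        * (√(wo lam R E ⟨i, a⟩) * uo lam ⟨i, a⟩ x) * (√(wo lam R E ⟨i, b⟩) * uo lam ⟨i, b⟩ y) := by
    rw [Fintype.sum_prod_type, Fintype.sum_sigma, Finset.sum_eq_single i]
    · refine Finset.sum_congr rfl fun a _ => ?_
      rw [Fintype.sum_sigma, Finset.sum_eq_single i]
      · refine Finset.sum_congr rfl fun b _ => ?_
        rw [if_pos rfl, xo_same]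
      · intro j _ hj
        apply Finset.sum_eq_zero
        intro b _
        rw [if_pos rfl, xo_ne (Ne.symm hj)]
        ring
      · intro h; exact absurd (Finset.mem_univ _) h
    · intro j _ hj
      apply Finset.sum_eq_zero
      intro a _
      apply Finset.sum_eq_zero
      intro b _
      rw [if_neg hj]
    · intro h; exact absurd (Finset.mem_univ _) h
  rw [h1, Fintype.sum_option]
  simp only [Fintype.sum_option]
  have w0 : √(wo lam R E ⟨i, none⟩) = √(E i) := rfl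
  have w1 : ∀ a : V i, √(wo lam R E ⟨i, some a⟩) = √(lam i a) * √(R i) := by
    intro a
    show √(lam i a * R i) = _
    rw [Real.sqrt_mul (h0 i a)]
  have v0 : ∀ x : ∀ i, V i, uo lam (⟨i, none⟩ : Σ i, Option (V i)) x = 1 := fun _ => rfl
  have v1 : ∀ (a : V i) (x : ∀ i, V i),
      uo lam (⟨i, some a⟩ : Σ i, Option (V i)) x = uh lam ⟨i, a⟩ x := fun _ _ => rfl
  simp only [w0, w1, v0, v1, xb, mul_one]
  rw [Real.sqrt_mul (hR i).le]
  have hl : ∀ a : V i, √(lam i a) * √(lam i a) = lam i a := fun a => Real.mul_self_sqrt (h0 i a)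
  -- the four sums
  have s1 : c i / E i * √(E i) * √(E i) = c i := by
    rw [mul_assoc, hE']
    exact div_mul_cancel₀ _ (hE i).ne'
  have s2 : ∑ b : V i, √(lam i b) * u' i b / (√(R i) * √(E i)) * √(E i)
      * (√(lam i b) * √(R i) * uh lam ⟨i, b⟩ y) = u' i (y i) := by
    rw [← eval_centred i (H.ur i) y hy]
    refine Finset.sum_congr rfl fun b _ => ?_
    calc _ = (√(lam i b) * √(lam i b)) * u' i b * uh lam ⟨i, b⟩ y := by field_simp
      _ = _ := by rw [hl b]
  have s3 : ∑ a : V i, √(lam i a) * u i a / (√(R i) * √(E i))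
      * (√(lam i a) * √(R i) * uh lam ⟨i, a⟩ x) * √(E i) = u i (x i) := by
    rw [← eval_centred i (H.ul i) x hx]
    refine Finset.sum_congr rfl fun a _ => ?_
    calc _ = (√(lam i a) * √(lam i a)) * u i a * uh lam ⟨i, a⟩ x := by field_simp
      _ = _ := by rw [hl a]
  have s4 : ∑ a : V i, ∑ b : V i, √(lam i a) * √(lam i b) * s i a b / R i
      * (√(lam i a) * √(R i) * uh lam ⟨i, a⟩ x) * (√(lam i b) * √(R i) * uh lam ⟨i, b⟩ y)
      = s i (x i) (y i) := by
    have e1 : ∀ a : V i, ∑ b : V i, √(lam i a) * √(lam i b) * s i a b / R i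
      * (√(lam i a) * √(R i) * uh lam ⟨i, a⟩ x) * (√(lam i b) * √(R i) * uh lam ⟨i, b⟩ y)
        = lam i a * s i a (y i) * uh lam ⟨i, a⟩ x := by
      intro a
      rw [← eval_centred i (f := fun b => s i a b) (H.sr i a) y hy, Finset.mul_sum,
        Finset.sum_mul]
      refine Finset.sum_congr rfl fun b _ => ?_
      calc _ = (√(lam i a) * √(lam i a)) * (√(lam i b) * √(lam i b)) * ((√(R i) * √(R i)) / R i)
            * s i a b * uh lam ⟨i, a⟩ x * uh lam ⟨i, b⟩ y := by ring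
        _ = _ := by rw [hl a, hl b, hR', div_self (hR i).ne']; ring
    rw [Finset.sum_congr rfl fun a _ => e1 a]
    exact eval_centred i (f := fun a => s i a (y i)) (H.sl i (y i)) x hx
  rw [Finset.sum_add_distrib, s1, s2, s3, s4, H.split]
  ring

/-- The normalised moments of the extended letters. -/
noncomputable def Mn (lam : ∀ i, V i → ℝ) (mu : (∀ i, V i) → ℝ) (R E : ι → ℝ) :
    Multiset (Σ i, Option (V i)) → ℝ :=
  fun S => Mo lam mu S * (S.map (fun ω => √(wo lam R E ω))).prod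

/-- The normalised cumulants of the extended letters. -/
noncomputable def Tn (lam : ∀ i, V i → ℝ) (mu : (∀ i, V i) → ℝ) (R E : ι → ℝ) :
    Multiset (Σ i, Option (V i)) → ℝ :=
  fun S => cumT (Mo lam mu) S * (S.map (fun ω => √(wo lam R E ω))).prod

lemma Mn_eq (mu : (∀ i, V i) → ℝ) : Mn lam mu R E
    = mom Sigma.fst univ mu (fun ω x => √(wo lam R E ω) * uo lam ω x) := by
  funext S
  unfold Mn Mo
  rw [mom_scale]

theorem mn_zero {mu : (∀ i, V i) → ℝ} (h : ∑ x, mu x = 1) : Mn lam mu R E 0 = 1 := by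
  unfold Mn Mo
  rw [mom_zero _ _ _ _ h]
  simp

theorem mc_mn {mu : (∀ i, V i) → ℝ} (h : ∑ x, mu x = 1) :
    MC (Mn lam mu R E) (Tn lam mu R E) :=
  ((isCumC_Mo (lam := lam) h).toIsCum.scale _).mc

/-- **The typed pairing with the kernels**: the coefficient of type `a` of block [C] is the sum
over the sets `B` of coordinates of type `a` of `∑ x ∑ y mu x mu' y ∏_{i ∈ B} K i (x i) (y i)`. -/
theorem co_kernel {J : Type*} [Fintype J] [DecidableEq J] {sc : ι → J}
    {VV : J → Finset (Σ i, Option (V i))} (hV : ∀ l ω, ω ∈ VV l ↔ sc ω.1 = l)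
    (h0 : ∀ i a, 0 ≤ lam i a) (H : H365.OB lam K c u u' s rho e)
    (hR : ∀ i, 0 < R i) (hE : ∀ i, 0 < E i) {mu mu' : (∀ i, V i) → ℝ}
    (hmu : ∀ x, mu x ≠ 0 → ∀ i, lam i (x i) ≠ 0) (hmu' : ∀ x, mu' x ≠ 0 → ∀ i, lam i (x i) ≠ 0)
    (a : J →₀ ℕ) :
    co (zt VV (xo lam c u u' s R E) (Mn lam mu R E) (Mn lam mu' R E)) a
      = ∑ B ∈ (univ : Finset ι).powerset.filter (fun B => tyi sc B = a),
          ∑ x, ∑ y, mu x * mu' y * ∏ i ∈ B, K i (x i) (y i) := by
  rw [Mn_eq, Mn_eq, co_zt_mom sc Sigma.fst univ univ mu mu' _ _ _ hV (fun p q h => xo_ne h) a]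
  refine Finset.sum_congr rfl fun B _ => ?_
  unfold FB
  refine Finset.sum_congr rfl fun x _ => Finset.sum_congr rfl fun y _ => ?_
  by_cases hx : mu x = 0
  · rw [hx]; ring
  by_cases hy : mu' y = 0
  · rw [hy]; ring
  congr 1
  refine Finset.prod_congr rfl fun i _ => ?_
  exact kc_xo h0 H hR hE i (hmu x hx i) (hmu' y hy i)

/-- absolute continuity of the marginals gives the hypothesis of `co_kernel` -/
lemma ne_zero_of_ref {mu : (∀ i, V i) → ℝ} (h0 : ∀ x, 0 ≤ mu x)
    (hac : ∀ i a, lam i a = 0 → H779.m1 mu i a = 0) (x : ∀ i, V i) (hx : mu x ≠ 0) (i : ι) :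
    lam i (x i) ≠ 0 := by
  intro h
  have h1 := hac i (x i) h
  unfold H779.m1 at h1
  rw [Finset.sum_eq_zero_iff_of_nonneg (fun y _ => by split_ifs; exacts [h0 y, le_rfl])] at h1
  have := h1 x (Finset.mem_univ _)
  simp at this
  exact hx this

end ker

end Vale.Agent.P042.H232
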