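import Mathlib

/-!
# P042, seam [B] → [C]: cumulants with repeated coordinates

`M, T : Multiset Ω → ℝ`, `M` the moments (`M S = 0` if `S` has two elements with the same
coordinate `c`), `T` the cumulants.  We bound the weighted `L²` norms of `T` over ALL tuples by the
norms over tuples with pairwise distinct coordinates.
-/

namespace Vale.Agent.P042.H232

open Finset

variable {Ω : Type*}

/-! ### labelled splits of a multiset -/

/-- Sum over the labelled splits `S = x + y` of `F x y`. -/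
def sp (S : Multiset Ω) (F : Multiset Ω → Multiset Ω → ℝ) : ℝ :=
  (S.antidiagonal.map (fun p => F p.1 p.2)).sum

@[simp] lemma sp_zero (F : Multiset Ω → Multiset Ω → ℝ) : sp (0 : Multiset Ω) F = F 0 0 := by
  simp [sp]

lemma sp_cons (a : Ω) (S : Multiset Ω) (F : Multiset Ω → Multiset Ω → ℝ) :
    sp (a ::ₘ S) F = sp S (fun x y => F x (a ::ₘ y)) + sp S (fun x y => F (a ::ₘ x) y) := by
  simp [sp, Multiset.antidiagonal_cons, Multiset.map_map]

lemma sp_add (S : Multiset Ω) (F G : Multiset Ω → Multiset Ω → ℝ) :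
    sp S (fun x y => F x y + G x y) = sp S F + sp S G := by
  simp [sp, Multiset.sum_map_add]

lemma sp_const_mul (S : Multiset Ω) (r : ℝ) (F : Multiset Ω → Multiset Ω → ℝ) :
    sp S (fun x y => r * F x y) = r * sp S F := by
  simp [sp, Multiset.sum_map_mul_left]

lemma sp_mul_const (S : Multiset Ω) (r : ℝ) (F : Multiset Ω → Multiset Ω → ℝ) :
    sp S (fun x y => F x y * r) = sp S F * r := by
  simp [sp, Multiset.sum_map_mul_right]

lemma sp_congr {S : Multiset Ω} {F G : Multiset Ω → Multiset Ω → ℝ}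
    (h : ∀ x y, x + y = S → F x y = G x y) : sp S F = sp S G := by
  unfold sp
  congr 1
  apply Multiset.map_congr rfl
  intro p hp
  exact h p.1 p.2 (Multiset.mem_antidiagonal.1 hp)

lemma sp_eq_zero {S : Multiset Ω} {F : Multiset Ω → Multiset Ω → ℝ}
    (h : ∀ x y, x + y = S → F x y = 0) : sp S F = 0 := by
  rw [sp_congr (G := fun _ _ => 0) h]
  simp [sp]

lemma sp_assoc (S : Multiset Ω) (F : Multiset Ω → Multiset Ω → Multiset Ω → ℝ) :
    sp S (fun x y => sp y (fun u v => F x u v)) = sp S (fun x y => sp x (fun u v => F u v y)) := by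
  induction S using Multiset.induction_on generalizing F with
  | empty => simp
  | cons a S ih =>
    simp only [sp_cons, sp_add]
    have h1 := ih (fun x u v => F x u (a ::ₘ v))
    have h2 := ih (fun x u v => F x (a ::ₘ u) v)
    have h3 := ih (fun x u v => F (a ::ₘ x) u v)
    rw [h1, h2, h3]
    ring

lemma sp_top {S : Multiset Ω} {F : Multiset Ω → Multiset Ω → ℝ}
    (h : ∀ x y, x + y = S → y ≠ 0 → F x y = 0) : sp S F = F S 0 := by
  induction S using Multiset.induction_on generalizing F with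
  | empty => simp
  | cons a S ih =>
    rw [sp_cons]
    have h1 : sp S (fun x y => F x (a ::ₘ y)) = 0 := by
      apply sp_eq_zero
      intro x y hxy
      apply h
      · rw [Multiset.add_cons, hxy]
      · exact Multiset.cons_ne_zero
    rw [h1, zero_add]
    apply ih
    intro x y hxy hy
    apply h
    · rw [Multiset.cons_add, hxy]
    · exact hy

/-! ### the key identity -/

/-- `T` is the cumulant function of `M`. -/
structure IsCum (M T : Multiset Ω → ℝ) : Prop where
  zero : M 0 = 1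
  cons : ∀ a S, M (a ::ₘ S) = sp S (fun x y => T (a ::ₘ x) * M y)

/-- Key identity: at two elements with the same coordinate the cumulant is minus a product of
cumulants.  Only `M (a + b + S) = 0` for all `S` is used. -/
theorem IsCum.rep {M T : Multiset Ω → ℝ} (h : IsCum M T) {a b : Ω}
    (hab : ∀ S, M (a ::ₘ b ::ₘ S) = 0) (S : Multiset Ω) :
    T (a ::ₘ b ::ₘ S) = - sp S (fun x y => T (a ::ₘ x) * T (b ::ₘ y)) := by
  have key : ∀ n : ℕ, ∀ S : Multiset Ω, Multiset.card S = n →
      T (a ::ₘ b ::ₘ S) + sp S (fun x y => T (a ::ₘ x) * T (b ::ₘ y)) = 0 := by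
    intro n
    induction n using Nat.strong_induction_on with
    | _ n ih =>
      intro S hS
      have h0 := hab S
      rw [h.cons, sp_cons] at h0
      have h1 : sp S (fun x y => T (a ::ₘ x) * M (b ::ₘ y))
          = sp S (fun x y => sp x (fun u v => T (a ::ₘ u) * T (b ::ₘ v)) * M y) := by
        have e1 : sp S (fun x y => T (a ::ₘ x) * M (b ::ₘ y))
            = sp S (fun x y => sp y (fun u v => T (a ::ₘ x) * T (b ::ₘ u) * M v)) := by
          apply sp_congr
          intro x y _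
          rw [h.cons, ← sp_const_mul]
          congr 1
          funext u v
          ring
        rw [e1, sp_assoc S (fun x u v => T (a ::ₘ x) * T (b ::ₘ u) * M v)]
        apply sp_congr
        intro x y _
        rw [← sp_mul_const]
      rw [h1, ← sp_add] at h0
      rw [sp_top] at h0
      · rw [h.zero] at h0
        linarith
      · intro x y hxy hy
        have hc : Multiset.card x < n := by
          rw [← hS, ← hxy, Multiset.card_add]
          have := Multiset.card_pos.2 hy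
          omega
        have := ih _ hc x rfl
        rw [← add_mul, add_comm (sp x _), this, zero_mul]
  linarith [key _ S rfl]

/-! ### weighted integrals over tuples -/

variable [Fintype Ω]

/-- `I m e F = ∑ over (ω₁,…,ω_e) of m ω₁ ⋯ m ω_e F {ω₁,…,ω_e}`. -/
def I (m : Ω → ℝ) : ℕ → (Multiset Ω → ℝ) → ℝ
  | 0, F => F 0
  | e + 1, F => ∑ b, m b * I m e (fun S => F (b ::ₘ S))

@[simp] lemma I_zero (m : Ω → ℝ) (F : Multiset Ω → ℝ) : I m 0 F = F 0 := rfl

lemma I_succ (m : Ω → ℝ) (e : ℕ) (F : Multiset Ω → ℝ) :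
    I m (e + 1) F = ∑ b, m b * I m e (fun S => F (b ::ₘ S)) := rfl

variable {m : Ω → ℝ}

lemma I_mono (hm : ∀ a, 0 ≤ m a) (e : ℕ) {F G : Multiset Ω → ℝ} (h : ∀ S, F S ≤ G S) :
    I m e F ≤ I m e G := by
  induction e generalizing F G with
  | zero => exact h 0
  | succ e ih =>
    rw [I_succ, I_succ]
    exact Finset.sum_le_sum fun b _ => mul_le_mul_of_nonneg_left (ih fun S => h _) (hm b)

lemma I_add (e : ℕ) (F G : Multiset Ω → ℝ) :
    I m e (fun S => F S + G S) = I m e F + I m e G := by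
  induction e generalizing F G with
  | zero => rfl
  | succ e ih =>
    rw [I_succ, I_succ, I_succ, ← Finset.sum_add_distrib]
    refine Finset.sum_congr rfl fun b _ => ?_
    rw [ih, mul_add]

lemma I_const_mul (e : ℕ) (r : ℝ) (F : Multiset Ω → ℝ) :
    I m e (fun S => r * F S) = r * I m e F := by
  induction e generalizing F with
  | zero => rfl
  | succ e ih =>
    rw [I_succ, I_succ, Finset.mul_sum]
    refine Finset.sum_congr rfl fun b _ => ?_
    rw [ih]; ring

lemma I_zero_fun (e : ℕ) : I m e (fun _ => 0) = 0 := by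
  have := I_const_mul (m := m) e 0 (fun _ => 0)
  simpa using this

lemma I_nonneg (hm : ∀ a, 0 ≤ m a) (e : ℕ) {F : Multiset Ω → ℝ} (h : ∀ S, 0 ≤ F S) :
    0 ≤ I m e F := by
  rw [← I_zero_fun (m := m) e]
  exact I_mono hm e h

lemma I_sum {ι : Type*} (e : ℕ) (s : Finset ι) (F : ι → Multiset Ω → ℝ) :
    I m e (fun S => ∑ i ∈ s, F i S) = ∑ i ∈ s, I m e (F i) := by
  classical
  induction s using Finset.induction_on with
  | empty => simp [I_zero_fun]
  | insert i s hi ih =>
    simp only [Finset.sum_insert hi]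
    rw [I_add, ih]

lemma I_congr (e : ℕ) {F G : Multiset Ω → ℝ} (h : ∀ S, F S = G S) :
    I m e F = I m e G := by
  rw [show F = G from funext h]

/-- The weighted `L²` norm. -/
noncomputable def nrm (m : Ω → ℝ) (e : ℕ) (F : Multiset Ω → ℝ) : ℝ :=
  Real.sqrt (I m e (fun S => F S ^ 2))

lemma nrm_nonneg (e : ℕ) (F : Multiset Ω → ℝ) : 0 ≤ nrm m e F := Real.sqrt_nonneg _

lemma nrm_sq (hm : ∀ a, 0 ≤ m a) (e : ℕ) (F : Multiset Ω → ℝ) :
    nrm m e F ^ 2 = I m e (fun S => F S ^ 2) :=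
  Real.sq_sqrt (I_nonneg hm e fun _ => sq_nonneg _)

lemma nrm_zero (F : Multiset Ω → ℝ) : nrm m 0 F = |F 0| := by
  simp [nrm, Real.sqrt_sq_eq_abs]

lemma nrm_succ (hm : ∀ a, 0 ≤ m a) (e : ℕ) (F : Multiset Ω → ℝ) :
    nrm m (e + 1) F = Real.sqrt (∑ b, m b * nrm m e (fun S => F (b ::ₘ S)) ^ 2) := by
  unfold nrm
  rw [I_succ]
  congr 1
  refine Finset.sum_congr rfl fun b _ => ?_
  rw [Real.sq_sqrt (I_nonneg hm e fun S => sq_nonneg _)]

/-! ### Minkowski -/

/-- Minkowski for a weighted finite `ℓ²`. -/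
lemma mink {ι : Type*} (s : Finset ι) {w : ι → ℝ} (hw : ∀ a, 0 ≤ w a) (u v : ι → ℝ) :
    Real.sqrt (∑ a ∈ s, w a * (u a + v a) ^ 2)
      ≤ Real.sqrt (∑ a ∈ s, w a * u a ^ 2) + Real.sqrt (∑ a ∈ s, w a * v a ^ 2) := by
  have hu : 0 ≤ ∑ a ∈ s, w a * u a ^ 2 :=
    Finset.sum_nonneg fun a _ => mul_nonneg (hw a) (sq_nonneg _)
  have hv : 0 ≤ ∑ a ∈ s, w a * v a ^ 2 :=
    Finset.sum_nonneg fun a _ => mul_nonneg (hw a) (sq_nonneg _)
  apply Real.sqrt_le_iff.2
  refine ⟨by positivity, ?_⟩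
  have hcs : (∑ a ∈ s, w a * (u a * v a)) ^ 2
      ≤ (∑ a ∈ s, w a * u a ^ 2) * (∑ a ∈ s, w a * v a ^ 2) := by
    have := Finset.sum_mul_sq_le_sq_mul_sq s (fun a => Real.sqrt (w a) * u a)
      (fun a => Real.sqrt (w a) * v a)
    have e1 : ∀ a, Real.sqrt (w a) * u a * (Real.sqrt (w a) * v a) = w a * (u a * v a) := by
      intro a
      have := Real.mul_self_sqrt (hw a)
      calc _ = (Real.sqrt (w a) * Real.sqrt (w a)) * (u a * v a) := by ring
        _ = _ := by rw [this]
    have e2 : ∀ (z : ι → ℝ) a, (Real.sqrt (w a) * z a) ^ 2 = w a * z a ^ 2 := by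
      intro z a
      rw [mul_pow, Real.sq_sqrt (hw a)]
    simpa only [e1, e2] using this
  have h1 : ∑ a ∈ s, w a * (u a * v a)
      ≤ Real.sqrt (∑ a ∈ s, w a * u a ^ 2) * Real.sqrt (∑ a ∈ s, w a * v a ^ 2) := by
    rw [← Real.sqrt_mul hu]
    exact Real.le_sqrt_of_sq_le hcs
  have h2 : ∑ a ∈ s, w a * (u a + v a) ^ 2
      = ∑ a ∈ s, w a * u a ^ 2 + 2 * ∑ a ∈ s, w a * (u a * v a) + ∑ a ∈ s, w a * v a ^ 2 := by
    rw [Finset.mul_sum, ← Finset.sum_add_distrib, ← Finset.sum_add_distrib]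
    refine Finset.sum_congr rfl fun a _ => by ring
  rw [h2]
  nlinarith [Real.sq_sqrt hu, Real.sq_sqrt hv, h1]

/-- Minkowski for a sum with nonnegative coefficients. -/
lemma mink_sum {ι κ : Type*} (s : Finset ι) {w : ι → ℝ} (hw : ∀ a, 0 ≤ w a)
    (t : Finset κ) (k : κ → ℝ) (hk : ∀ c, 0 ≤ k c) (u : κ → ι → ℝ) :
    Real.sqrt (∑ a ∈ s, w a * (∑ c ∈ t, k c * u c a) ^ 2)
      ≤ ∑ c ∈ t, k c * Real.sqrt (∑ a ∈ s, w a * u c a ^ 2) := by
  classical
  induction t using Finset.induction_on with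
  | empty => simp
  | insert i t hi ih =>
    simp only [Finset.sum_insert hi]
    refine (mink s hw _ _).trans (add_le_add ?_ ih)
    apply le_of_eq
    have : ∑ a ∈ s, w a * (k i * u i a) ^ 2 = k i ^ 2 * ∑ a ∈ s, w a * u i a ^ 2 := by
      rw [Finset.mul_sum]
      refine Finset.sum_congr rfl fun a _ => by ring
    rw [this, Real.sqrt_mul (sq_nonneg _), Real.sqrt_sq (hk i)]

lemma sqrt_sum_mono {ι : Type*} (s : Finset ι) {w : ι → ℝ} (hw : ∀ a, 0 ≤ w a) {u v : ι → ℝ}
    (hu : ∀ a, 0 ≤ u a) (huv : ∀ a, u a ≤ v a) :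
    Real.sqrt (∑ a ∈ s, w a * u a ^ 2) ≤ Real.sqrt (∑ a ∈ s, w a * v a ^ 2) := by
  apply Real.sqrt_le_sqrt
  exact Finset.sum_le_sum fun a _ =>
    mul_le_mul_of_nonneg_left (pow_le_pow_left₀ (hu a) (huv a) 2) (hw a)

lemma nrm_add_le (hm : ∀ a, 0 ≤ m a) (e : ℕ) (F G : Multiset Ω → ℝ) :
    nrm m e (fun S => F S + G S) ≤ nrm m e F + nrm m e G := by
  induction e generalizing F G with
  | zero => simpa [nrm_zero] using abs_add_le (F 0) (G 0)
  | succ e ih =>
    rw [nrm_succ hm, nrm_succ hm, nrm_succ hm]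
    refine (sqrt_sum_mono Finset.univ hm (fun a => nrm_nonneg _ _) (fun a => ih _ _)).trans ?_
    exact mink Finset.univ hm _ _

lemma nrm_neg (e : ℕ) (F : Multiset Ω → ℝ) : nrm m e (fun S => - F S) = nrm m e F := by
  unfold nrm
  congr 1
  exact I_congr e fun _ => by ring

lemma nrm_congr (e : ℕ) {F G : Multiset Ω → ℝ} (h : ∀ S, F S = G S) :
    nrm m e F = nrm m e G := by
  rw [show F = G from funext h]

/-! ### norm of the shuffle product -/

/-- `‖F ⋆ G‖_e ≤ ∑ C(e,c) ‖F‖_c ‖G‖_{e-c}`. -/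
theorem nrm_shuffle (hm : ∀ a, 0 ≤ m a) (e : ℕ) (F G : Multiset Ω → ℝ) :
    nrm m e (fun S => sp S (fun x y => F x * G y))
      ≤ ∑ p ∈ antidiagonal e, (e.choose p.1 : ℝ) * (nrm m p.1 F * nrm m p.2 G) := by
  induction e generalizing F G with
  | zero => simp [nrm_zero, abs_mul]
  | succ e ih =>
    rw [Finset.sum_antidiagonal_choose_succ_mul (fun i j => nrm m i F * nrm m j G) e]
    rw [nrm_succ hm]
    have h1 : ∀ b : Ω, nrm m e (fun S => sp (b ::ₘ S) (fun x y => F x * G y))
        ≤ nrm m e (fun S => sp S (fun x y => F x * G (b ::ₘ y)))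
          + nrm m e (fun S => sp S (fun x y => F (b ::ₘ x) * G y)) := by
      intro b
      refine le_trans (le_of_eq ?_) (nrm_add_le hm e _ _)
      exact nrm_congr e fun S => sp_cons _ _ _
    refine (sqrt_sum_mono Finset.univ hm (fun a => nrm_nonneg _ _) h1).trans ?_
    refine (mink Finset.univ hm _ _).trans ?_
    apply add_le_add
    · refine (sqrt_sum_mono Finset.univ hm (fun a => nrm_nonneg _ _)
        (fun b => ih F (fun y => G (b ::ₘ y)))).trans ?_
      have : ∀ b : Ω, ∑ p ∈ antidiagonal e, (e.choose p.1 : ℝ) *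
            (nrm m p.1 F * nrm m p.2 (fun y => G (b ::ₘ y)))
          = ∑ p ∈ antidiagonal e, ((e.choose p.1 : ℝ) * nrm m p.1 F)
            * nrm m p.2 (fun y => G (b ::ₘ y)) := by
        intro b
        exact Finset.sum_congr rfl fun p _ => by ring
      simp only [this]
      refine (mink_sum Finset.univ hm (antidiagonal e)
        (fun p => (e.choose p.1 : ℝ) * nrm m p.1 F)
        (fun p => mul_nonneg (Nat.cast_nonneg _) (nrm_nonneg _ _))
        (fun p b => nrm m p.2 (fun y => G (b ::ₘ y)))).trans ?_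
      apply le_of_eq
      refine Finset.sum_congr rfl fun p _ => ?_
      rw [← nrm_succ hm]; ring
    · refine (sqrt_sum_mono Finset.univ hm (fun a => nrm_nonneg _ _)
        (fun b => ih (fun x => F (b ::ₘ x)) G)).trans ?_
      have : ∀ b : Ω, ∑ p ∈ antidiagonal e, (e.choose p.1 : ℝ) *
            (nrm m p.1 (fun x => F (b ::ₘ x)) * nrm m p.2 G)
          = ∑ p ∈ antidiagonal e, ((e.choose p.1 : ℝ) * nrm m p.2 G)
            * nrm m p.1 (fun x => F (b ::ₘ x)) := by
        intro b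
        exact Finset.sum_congr rfl fun p _ => by ring
      simp only [this]
      refine (mink_sum Finset.univ hm (antidiagonal e)
        (fun p => (e.choose p.1 : ℝ) * nrm m p.2 G)
        (fun p => mul_nonneg (Nat.cast_nonneg _) (nrm_nonneg _ _))
        (fun p b => nrm m p.1 (fun x => F (b ::ₘ x)))).trans ?_
      apply le_of_eq
      refine Finset.sum_congr rfl fun p hp => ?_
      rw [← nrm_succ hm]
      have hp' : p.1 + p.2 = e := Finset.HasAntidiagonal.mem_antidiagonal.1 hp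
      rw [Nat.choose_symm_of_eq_add hp'.symm]; ring

/-! ### the union bound over repeated coordinates -/

lemma I_sum_mem (e : ℕ) (g : Ω → ℝ) (F : Multiset Ω → ℝ) :
    I m e (fun S => (S.map g).sum * F S)
      = e * ∑ x, m x * g x * I m (e - 1) (fun S => F (x ::ₘ S)) := by
  induction e generalizing F with
  | zero => simp
  | succ e ih =>
    rw [I_succ]
    have h1 : ∀ b : Ω, I m e (fun S => ((b ::ₘ S).map g).sum * F (b ::ₘ S))
        = g b * I m e (fun S => F (b ::ₘ S))
          + e * ∑ x, m x * g x * I m (e - 1) (fun S => F (b ::ₘ x ::ₘ S)) := by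
      intro b
      have h0 := ih (fun S => F (b ::ₘ S))
      beta_reduce at h0
      rw [← h0, ← I_const_mul, ← I_add]
      refine I_congr e fun S => ?_
      rw [Multiset.map_cons, Multiset.sum_cons]; ring
    simp only [h1]
    rcases e with _ | e
    · simp
      refine Finset.sum_congr rfl fun x _ => by ring
    · simp only [Nat.add_sub_cancel, mul_add, Finset.sum_add_distrib]
      have h2 : ∑ b, m b * (((e + 1 : ℕ) : ℝ) * ∑ x, m x * g x * I m e
            (fun S => F (b ::ₘ x ::ₘ S)))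
          = ((e + 1 : ℕ) : ℝ) * ∑ x, m x * g x * I m (e + 1) (fun S => F (x ::ₘ S)) := by
        rw [Finset.mul_sum]
        simp only [I_succ, Finset.mul_sum]
        rw [Finset.sum_comm]
        refine Finset.sum_congr rfl fun x _ => Finset.sum_congr rfl fun b _ => ?_
        rw [I_congr e (G := fun S => F (x ::ₘ b ::ₘ S))
          (fun S => by rw [Multiset.cons_swap])]
        ring
      rw [h2]
      have h3 : ∑ x, m x * (g x * I m (e + 1) (fun S => F (x ::ₘ S)))
          = ∑ x, m x * g x * I m (e + 1) (fun S => F (x ::ₘ S)) :=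
        Finset.sum_congr rfl fun x _ => by ring
      rw [h3]
      push_cast
      ring

section coord

variable {Ω : Type*} {ι : Type*} [DecidableEq ι] (c : Ω → ι)

/-- Pairwise distinct coordinates. -/
def Dst (S : Multiset Ω) : Prop := (S.map c).Nodup

instance (S : Multiset Ω) : Decidable (Dst c S) := by unfold Dst; infer_instance

/-- Number of elements of `S` with the same coordinate as `a`. -/
def cnt (a : Ω) (S : Multiset Ω) : ℝ := (S.map (fun x => if c x = c a then (1 : ℝ) else 0)).sum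

lemma cnt_nonneg (a : Ω) (S : Multiset Ω) : 0 ≤ cnt c a S := by
  apply Multiset.sum_nonneg
  intro x hx
  obtain ⟨y, _, rfl⟩ := Multiset.mem_map.1 hx
  split_ifs <;> norm_num

lemma one_le_cnt {a : Ω} {S : Multiset Ω} (h : c a ∈ S.map c) : 1 ≤ cnt c a S := by
  obtain ⟨y, hy, hya⟩ := Multiset.mem_map.1 h
  obtain ⟨S', rfl⟩ := Multiset.exists_cons_of_mem hy
  have := cnt_nonneg c a S'
  unfold cnt at this ⊢
  rw [Multiset.map_cons, Multiset.sum_cons, if_pos hya]
  linarith

lemma ind_cons_le (b : Ω) (S : Multiset Ω) :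
    (if Dst c (b ::ₘ S) then (0 : ℝ) else 1) ≤ (if Dst c S then (0 : ℝ) else 1) + cnt c b S := by
  have h0 := cnt_nonneg c b S
  by_cases h1 : Dst c (b ::ₘ S)
  · rw [if_pos h1]; split_ifs <;> linarith
  · rw [if_neg h1]
    by_cases h2 : Dst c S
    · rw [if_pos h2]
      have : c b ∈ S.map c := by
        by_contra h3
        apply h1
        unfold Dst at *
        rw [Multiset.map_cons]
        exact Multiset.nodup_cons.2 ⟨h3, h2⟩
      linarith [one_le_cnt c this]
    · rw [if_neg h2]; linarith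

end coord

variable {ι : Type*} [DecidableEq ι] (c : Ω → ι)

/-- Integral over two elements with the same coordinate. -/
def PP (m : Ω → ℝ) (e : ℕ) (F : Multiset Ω → ℝ) : ℝ :=
  ∑ x, ∑ y, (if c y = c x then (1 : ℝ) else 0) * (m x * m y * I m e (fun S => F (x ::ₘ y ::ₘ S)))

lemma PP_succ (e : ℕ) (F : Multiset Ω → ℝ) :
    ∑ b, m b * PP c m e (fun S => F (b ::ₘ S)) = PP c m (e + 1) F := by
  unfold PP
  simp only [Finset.mul_sum]
  rw [Finset.sum_comm]
  refine Finset.sum_congr rfl fun x _ => ?_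
  rw [Finset.sum_comm]
  refine Finset.sum_congr rfl fun y _ => ?_
  rw [I_succ, Finset.mul_sum, Finset.mul_sum]
  refine Finset.sum_congr rfl fun b _ => ?_
  rw [I_congr e (F := fun S => F (b ::ₘ x ::ₘ y ::ₘ S))
    (G := fun S => F (x ::ₘ y ::ₘ b ::ₘ S))
    (fun S => by rw [Multiset.cons_swap b x, Multiset.cons_swap b y])]
  ring

lemma union_aux (hm : ∀ a, 0 ≤ m a) (e : ℕ) (F : Multiset Ω → ℝ) (hF : ∀ S, 0 ≤ F S) :
    I m e (fun S => (if Dst c S then (0 : ℝ) else 1) * F S)
      ≤ (e.choose 2 : ℝ) * PP c m (e - 2) F := by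
  induction e generalizing F with
  | zero => simp [Dst]
  | succ e ih =>
    rw [I_succ]
    have h1 : ∀ b : Ω, I m e (fun S => (if Dst c (b ::ₘ S) then (0 : ℝ) else 1) * F (b ::ₘ S))
        ≤ (e.choose 2 : ℝ) * PP c m (e - 2) (fun S => F (b ::ₘ S))
          + e * ∑ x, m x * (if c x = c b then (1 : ℝ) else 0)
              * I m (e - 1) (fun S => F (b ::ₘ x ::ₘ S)) := by
      intro b
      have h2 : I m e (fun S => (if Dst c (b ::ₘ S) then (0 : ℝ) else 1) * F (b ::ₘ S))
          ≤ I m e (fun S => (if Dst c S then (0 : ℝ) else 1) * F (b ::ₘ S))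
            + I m e (fun S => cnt c b S * F (b ::ₘ S)) := by
        rw [← I_add]
        apply I_mono hm
        intro S
        have := mul_le_mul_of_nonneg_right (ind_cons_le c b S) (hF (b ::ₘ S))
        linarith
      have h3 := I_sum_mem (m := m) e (fun x => if c x = c b then (1 : ℝ) else 0)
        (fun S => F (b ::ₘ S))
      have h4 : I m e (fun S => cnt c b S * F (b ::ₘ S))
          = e * ∑ x, m x * (if c x = c b then (1 : ℝ) else 0)
              * I m (e - 1) (fun S => F (b ::ₘ x ::ₘ S)) := h3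
      have h5 := ih (fun S => F (b ::ₘ S)) (fun S => hF _)
      linarith
    have h6 : ∑ b, m b * I m e
          (fun S => (if Dst c (b ::ₘ S) then (0 : ℝ) else 1) * F (b ::ₘ S))
        ≤ ∑ b, m b * ((e.choose 2 : ℝ) * PP c m (e - 2) (fun S => F (b ::ₘ S))
          + e * ∑ x, m x * (if c x = c b then (1 : ℝ) else 0)
              * I m (e - 1) (fun S => F (b ::ₘ x ::ₘ S))) :=
      Finset.sum_le_sum fun b _ => mul_le_mul_of_nonneg_left (h1 b) (hm b)
    refine h6.trans (le_of_eq ?_)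
    rw [show e + 1 - 2 = e - 1 from by omega]
    have h7 : ∑ b, m b * ((e : ℝ) * ∑ x, m x * (if c x = c b then (1 : ℝ) else 0)
              * I m (e - 1) (fun S => F (b ::ₘ x ::ₘ S))) = e * PP c m (e - 1) F := by
      unfold PP
      rw [Finset.mul_sum]
      refine Finset.sum_congr rfl fun b _ => ?_
      rw [Finset.mul_sum, Finset.mul_sum, Finset.mul_sum]
      refine Finset.sum_congr rfl fun x _ => ?_
      ring
    have h8 : ∑ b, m b * ((e.choose 2 : ℝ) * PP c m (e - 2) (fun S => F (b ::ₘ S)))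
        = (e.choose 2 : ℝ) * PP c m (e - 1) F := by
      rcases Nat.lt_or_ge e 2 with he | he
      · rw [Nat.choose_eq_zero_of_lt he]; simp
      · obtain ⟨k, rfl⟩ := Nat.exists_eq_add_of_le he
        rw [show 2 + k - 2 = k from by omega, show 2 + k - 1 = k + 1 from by omega,
          ← PP_succ, Finset.mul_sum]
        exact Finset.sum_congr rfl fun b _ => by ring
    simp only [mul_add, Finset.sum_add_distrib]
    rw [h7, h8, Nat.choose_succ_succ' e 1]
    push_cast
    rw [Nat.choose_one_right]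
    ring

/-- Union bound for totals. -/
lemma union_tot (hm : ∀ a, 0 ≤ m a) (e : ℕ) (F : Multiset Ω → ℝ) (hF : ∀ S, 0 ≤ F S) :
    I m e F ≤ I m e (fun S => if Dst c S then F S else 0)
      + (e.choose 2 : ℝ) * PP c m (e - 2) F := by
  refine le_trans (le_of_eq ?_) (add_le_add_right (union_aux c hm e F hF) _)
  rw [← I_add]
  refine I_congr e fun S => ?_
  split_ifs <;> ring

/-- Union bound for rows. -/
lemma union_row (hm : ∀ a, 0 ≤ m a) (e : ℕ) (a : Ω) (F : Multiset Ω → ℝ) (hF : ∀ S, 0 ≤ F S) :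
    I m e F ≤ I m e (fun S => if Dst c (a ::ₘ S) then F S else 0)
      + (e : ℝ) * ∑ x, m x * (if c x = c a then (1 : ℝ) else 0)
          * I m (e - 1) (fun S => F (x ::ₘ S))
      + (e.choose 2 : ℝ) * PP c m (e - 2) F := by
  have h3 := I_sum_mem (m := m) e (fun x => if c x = c a then (1 : ℝ) else 0) F
  have h4 := union_aux c hm e F hF
  rw [← h3]
  refine le_trans ?_ (add_le_add_right h4 _)
  rw [← I_add, ← I_add]
  apply I_mono hm
  intro S
  have := mul_le_mul_of_nonneg_right (ind_cons_le c a S) (hF S)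
  have e1 : (Multiset.map (fun x => if c x = c a then (1 : ℝ) else 0) S).sum = cnt c a S := rfl
  rw [e1]
  by_cases h1 : Dst c (a ::ₘ S)
  · rw [if_pos h1] at this ⊢
    linarith
  · rw [if_neg h1] at this ⊢
    linarith

/-! ### the recursions for rows and totals -/

lemma PP_nonneg (hm : ∀ a, 0 ≤ m a) (e : ℕ) {F : Multiset Ω → ℝ} (hF : ∀ S, 0 ≤ F S) :
    0 ≤ PP c m e F := by
  unfold PP
  refine Finset.sum_nonneg fun x _ => Finset.sum_nonneg fun y _ => ?_
  have := I_nonneg (m := m) hm e (F := fun S => F (x ::ₘ y ::ₘ S)) (fun S => hF _)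
  have h1 := hm x
  have h2 := hm y
  split_ifs
  · positivity
  · simp

/-- Convolution with binomial coefficients. -/
def cv (e : ℕ) (u v : ℕ → ℝ) : ℝ := ∑ p ∈ antidiagonal e, (e.choose p.1 : ℝ) * (u p.1 * v p.2)

lemma cv_nonneg {e : ℕ} {u v : ℕ → ℝ} (hu : ∀ n, 0 ≤ u n) (hv : ∀ n, 0 ≤ v n) : 0 ≤ cv e u v :=
  Finset.sum_nonneg fun _ _ => mul_nonneg (Nat.cast_nonneg _) (mul_nonneg (hu _) (hv _))

lemma cv_comm (e : ℕ) (u v : ℕ → ℝ) : cv e u v = cv e v u := by
  unfold cv
  refine Finset.sum_nbij' Prod.swap Prod.swap ?_ ?_ (fun _ _ => rfl) (fun _ _ => rfl) ?_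
  · intro p hp
    have := Finset.HasAntidiagonal.mem_antidiagonal.1 hp
    exact Finset.HasAntidiagonal.mem_antidiagonal.2 (by simp only [Prod.fst_swap, Prod.snd_swap]; omega)
  · intro p hp
    have := Finset.HasAntidiagonal.mem_antidiagonal.1 hp
    exact Finset.HasAntidiagonal.mem_antidiagonal.2 (by simp only [Prod.fst_swap, Prod.snd_swap]; omega)
  · intro p hp
    have hp' : p.1 + p.2 = e := Finset.HasAntidiagonal.mem_antidiagonal.1 hp
    simp only [Prod.fst_swap, Prod.snd_swap]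
    rw [Nat.choose_symm_of_eq_add hp'.symm]; ring

lemma cv_le {e : ℕ} {u v u' v' : ℕ → ℝ} (hu : ∀ n, 0 ≤ u n) (hv' : ∀ n, 0 ≤ v' n)
    (h1 : ∀ n ≤ e, u n ≤ u' n) (h2 : ∀ n ≤ e, v n ≤ v' n) : cv e u v ≤ cv e u' v' := by
  unfold cv
  refine Finset.sum_le_sum fun p hp => ?_
  have hp' : p.1 + p.2 = e := Finset.HasAntidiagonal.mem_antidiagonal.1 hp
  apply mul_le_mul_of_nonneg_left _ (Nat.cast_nonneg _)
  calc u p.1 * v p.2 ≤ u p.1 * v' p.2 := mul_le_mul_of_nonneg_left (h2 _ (by omega)) (hu _)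
    _ ≤ u' p.1 * v' p.2 := mul_le_mul_of_nonneg_right (h1 _ (by omega)) (hv' _)

variable {c}

/-- The cumulants of a moment function vanishing on repeated coordinates. -/
structure IsCumC (c : Ω → ι) (M T : Multiset Ω → ℝ) : Prop extends IsCum M T where
  rep0 : ∀ a b S, c a = c b → M (a ::ₘ b ::ₘ S) = 0

omit [Fintype Ω] [DecidableEq ι] in
theorem IsCumC.rep' {M T : Multiset Ω → ℝ} (h : IsCumC c M T) {a b : Ω} (hab : c a = c b)
    (S : Multiset Ω) :
    T (a ::ₘ b ::ₘ S) = - sp S (fun x y => T (a ::ₘ x) * T (b ::ₘ y)) :=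
  h.toIsCum.rep (fun S => h.rep0 a b S hab) S

/-- Row of `T` at `a`. -/
noncomputable def rw' (m : Ω → ℝ) (T : Multiset Ω → ℝ) (e : ℕ) (a : Ω) : ℝ :=
  nrm m e (fun S => T (a ::ₘ S))

lemma sqrt_add_le' {x y : ℝ} (hx : 0 ≤ x) (hy : 0 ≤ y) :
    Real.sqrt (x + y) ≤ Real.sqrt x + Real.sqrt y := by
  apply Real.sqrt_le_iff.2
  refine ⟨by positivity, ?_⟩
  nlinarith [Real.sq_sqrt hx, Real.sq_sqrt hy, Real.sqrt_nonneg x, Real.sqrt_nonneg y,
    mul_nonneg (Real.sqrt_nonneg x) (Real.sqrt_nonneg y)]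

/-- Totals: recursion. -/
theorem total_rec {M T : Multiset Ω → ℝ} (h : IsCumC c M T) (hm : ∀ a, 0 ≤ m a) {s : ℝ}
    (hs0 : 0 ≤ s) (hs : ∀ x, ∑ y, (if c y = c x then (1 : ℝ) else 0) * m y ≤ s ^ 2)
    (e : ℕ) (r : ℕ → ℝ) (hr : ∀ n ≤ e, ∀ a, rw' m T n a ≤ r n) (hr0 : ∀ n, 0 ≤ r n) :
    nrm m (e + 2) T ≤ nrm m (e + 2) (fun S => if Dst c S then T S else 0)
      + (e + 2) * s * cv e (fun n => nrm m (n + 1) T) r := by
  have hU := union_tot c hm (e + 2) (fun S => T S ^ 2) (fun S => sq_nonneg _)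
  rw [show e + 2 - 2 = e from rfl] at hU
  have h1 : nrm m (e + 2) T ≤ nrm m (e + 2) (fun S => if Dst c S then T S else 0)
      + Real.sqrt (((e + 2).choose 2 : ℝ) * PP c m e (fun S => T S ^ 2)) := by
    have hn1 : 0 ≤ I m (e + 2) (fun S => if Dst c S then T S ^ 2 else 0) :=
      I_nonneg hm _ fun S => by split_ifs; exacts [sq_nonneg _, le_rfl]
    have hn2 : 0 ≤ ((e + 2).choose 2 : ℝ) * PP c m e (fun S => T S ^ 2) :=
      mul_nonneg (Nat.cast_nonneg _) (PP_nonneg c hm _ fun S => sq_nonneg _)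
    refine (Real.sqrt_le_sqrt hU).trans ((sqrt_add_le' hn1 hn2).trans (le_of_eq ?_))
    congr 1
    unfold nrm
    congr 1
    refine I_congr _ fun S => ?_
    by_cases hD : Dst c S <;> simp [hD]
  have h2 : PP c m e (fun S => T S ^ 2) ≤ (s * cv e (fun n => nrm m (n + 1) T) r) ^ 2 := by
    -- for each pair
    have h3 : ∀ x y : Ω, c y = c x → I m e (fun S => T (x ::ₘ y ::ₘ S) ^ 2)
        ≤ (cv e (fun n => rw' m T n x) r) ^ 2 := by
      intro x y hxy
      rw [← nrm_sq hm e (fun S => T (x ::ₘ y ::ₘ S))]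
      apply pow_le_pow_left₀ (nrm_nonneg _ _)
      rw [nrm_congr e (G := fun S => - sp S (fun u v => T (x ::ₘ u) * T (y ::ₘ v)))
        (fun S => h.rep' hxy.symm S), nrm_neg]
      refine (nrm_shuffle hm e (fun u => T (x ::ₘ u)) (fun v => T (y ::ₘ v))).trans ?_
      exact cv_le (u := fun n => rw' m T n x) (v := fun n => rw' m T n y)
        (fun n => nrm_nonneg _ _) hr0 (fun n _ => le_rfl) (fun n hn => hr n hn y)
    have h4 : PP c m e (fun S => T S ^ 2)
        ≤ ∑ x, m x * (s ^ 2 * (cv e (fun n => rw' m T n x) r) ^ 2) := by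
      unfold PP
      refine Finset.sum_le_sum fun x _ => ?_
      have h5 : ∑ y, (if c y = c x then (1 : ℝ) else 0) *
            (m x * m y * I m e (fun S => T (x ::ₘ y ::ₘ S) ^ 2))
          ≤ ∑ y, ((if c y = c x then (1 : ℝ) else 0) * m y)
              * (m x * (cv e (fun n => rw' m T n x) r) ^ 2) := by
        refine Finset.sum_le_sum fun y _ => ?_
        by_cases hxy : c y = c x
        · rw [if_pos hxy, one_mul, one_mul]
          have := mul_le_mul_of_nonneg_left (h3 x y hxy) (mul_nonneg (hm x) (hm y))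
          refine this.trans (le_of_eq ?_)
          ring
        · rw [if_neg hxy]; simp
      refine h5.trans ?_
      rw [← Finset.sum_mul]
      have := mul_le_mul_of_nonneg_right (hs x)
        (mul_nonneg (hm x) (sq_nonneg (cv e (fun n => rw' m T n x) r)))
      refine this.trans (le_of_eq ?_)
      ring
    refine h4.trans ?_
    have h6 : ∑ x, m x * (s ^ 2 * (cv e (fun n => rw' m T n x) r) ^ 2)
        = s ^ 2 * ∑ x, m x * (cv e (fun n => rw' m T n x) r) ^ 2 := by
      rw [Finset.mul_sum]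
      exact Finset.sum_congr rfl fun x _ => by ring
    rw [h6, mul_pow]
    apply mul_le_mul_of_nonneg_left _ (sq_nonneg s)
    have h7 : Real.sqrt (∑ x, m x * (cv e (fun n => rw' m T n x) r) ^ 2)
        ≤ cv e (fun n => nrm m (n + 1) T) r := by
      have h8 : ∀ x, cv e (fun n => rw' m T n x) r
          = ∑ p ∈ antidiagonal e, ((e.choose p.1 : ℝ) * r p.2) * rw' m T p.1 x := by
        intro x
        exact Finset.sum_congr rfl fun p _ => by ring
      simp only [h8]
      refine (mink_sum Finset.univ hm (antidiagonal e) (fun p => (e.choose p.1 : ℝ) * r p.2)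
        (fun p => mul_nonneg (Nat.cast_nonneg _) (hr0 _)) (fun p x => rw' m T p.1 x)).trans ?_
      apply le_of_eq
      unfold cv
      refine Finset.sum_congr rfl fun p _ => ?_
      have : Real.sqrt (∑ a, m a * rw' m T p.1 a ^ 2) = nrm m (p.1 + 1) T := by
        rw [nrm_succ hm]; rfl
      rw [this]; ring
    have h9 : 0 ≤ ∑ x, m x * (cv e (fun n => rw' m T n x) r) ^ 2 :=
      Finset.sum_nonneg fun x _ => mul_nonneg (hm x) (sq_nonneg _)
    calc _ = Real.sqrt (∑ x, m x * (cv e (fun n => rw' m T n x) r) ^ 2) ^ 2 :=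
          (Real.sq_sqrt h9).symm
      _ ≤ _ := pow_le_pow_left₀ (Real.sqrt_nonneg _) h7 2
  have hcv : 0 ≤ cv e (fun n => nrm m (n + 1) T) r := cv_nonneg (fun n => nrm_nonneg _ _) hr0
  have h10 : Real.sqrt (((e + 2).choose 2 : ℝ) * PP c m e (fun S => T S ^ 2))
      ≤ (e + 2) * s * cv e (fun n => nrm m (n + 1) T) r := by
    apply Real.sqrt_le_iff.2
    refine ⟨by positivity, ?_⟩
    have h11 : ((e + 2).choose 2 : ℝ) ≤ ((e : ℝ) + 2) ^ 2 := by
      have := Nat.choose_le_pow (e + 2) 2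
      exact_mod_cast this
    calc ((e + 2).choose 2 : ℝ) * PP c m e (fun S => T S ^ 2)
        ≤ ((e : ℝ) + 2) ^ 2 * (s * cv e (fun n => nrm m (n + 1) T) r) ^ 2 :=
          mul_le_mul h11 h2 (PP_nonneg c hm _ fun S => sq_nonneg _) (sq_nonneg _)
      _ = _ := by ring
  linarith

/-- Rows: recursion. -/
theorem row_rec {M T : Multiset Ω → ℝ} (h : IsCumC c M T) (hm : ∀ a, 0 ≤ m a) {s : ℝ}
    (hs0 : 0 ≤ s) (hs : ∀ x, ∑ y, (if c y = c x then (1 : ℝ) else 0) * m y ≤ s ^ 2)
    (e : ℕ) (r : ℕ → ℝ) (hr : ∀ n < e, ∀ a, rw' m T n a ≤ r n) (hr0 : ∀ n, 0 ≤ r n) (a : Ω) :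
    rw' m T e a ≤ nrm m e (fun S => if Dst c (a ::ₘ S) then T (a ::ₘ S) else 0)
      + e * s * cv (e - 1) r r
      + (if e < 2 then 0 else e * s * (2 * cv (e - 2) (fun n => r (n + 1)) r)) := by
  rcases Nat.eq_zero_or_pos e with rfl | he
  · have : Dst c {a} := by simp [Dst]
    simp [rw', nrm_zero, this]
  have hU := union_row c hm e a (fun S => T (a ::ₘ S) ^ 2) (fun S => sq_nonneg _)
  have hQ2 : 0 ≤ PP c m (e - 2) (fun S => T (a ::ₘ S) ^ 2) :=
    PP_nonneg c hm _ fun S => sq_nonneg _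
  have hcv1 : 0 ≤ cv (e - 1) r r := cv_nonneg hr0 hr0
  have hcv2 : 0 ≤ cv (e - 2) (fun n => r (n + 1)) r := cv_nonneg (fun n => hr0 _) hr0
  -- second term
  have h2 : (e : ℝ) * ∑ x, m x * (if c x = c a then (1 : ℝ) else 0)
      * I m (e - 1) (fun S => T (a ::ₘ x ::ₘ S) ^ 2) ≤ (e * s * cv (e - 1) r r) ^ 2 := by
    have h3 : ∀ x, c x = c a → I m (e - 1) (fun S => T (a ::ₘ x ::ₘ S) ^ 2)
        ≤ cv (e - 1) r r ^ 2 := by
      intro x hx
      rw [← nrm_sq hm (e - 1) (fun S => T (a ::ₘ x ::ₘ S))]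
      apply pow_le_pow_left₀ (nrm_nonneg _ _)
      rw [nrm_congr (e - 1) (G := fun S => - sp S (fun u v => T (a ::ₘ u) * T (x ::ₘ v)))
        (fun S => h.rep' hx.symm S), nrm_neg]
      refine (nrm_shuffle hm (e - 1) (fun u => T (a ::ₘ u)) (fun v => T (x ::ₘ v))).trans ?_
      exact cv_le (u := fun n => rw' m T n a) (v := fun n => rw' m T n x)
        (fun n => nrm_nonneg _ _) hr0 (fun n hn => hr n (by omega) a)
        (fun n hn => hr n (by omega) x)
    have h4 : ∑ x, m x * (if c x = c a then (1 : ℝ) else 0)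
        * I m (e - 1) (fun S => T (a ::ₘ x ::ₘ S) ^ 2)
        ≤ ∑ x, ((if c x = c a then (1 : ℝ) else 0) * m x) * cv (e - 1) r r ^ 2 := by
      refine Finset.sum_le_sum fun x _ => ?_
      by_cases hx : c x = c a
      · rw [if_pos hx, one_mul, mul_one]
        exact mul_le_mul_of_nonneg_left (h3 x hx) (hm x)
      · rw [if_neg hx]; simp
    rw [← Finset.sum_mul] at h4
    have h5 := h4.trans (mul_le_mul_of_nonneg_right (hs a) (sq_nonneg _))
    have he1 : (1 : ℝ) ≤ e := by exact_mod_cast he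
    calc _ ≤ (e : ℝ) * (s ^ 2 * cv (e - 1) r r ^ 2) :=
          mul_le_mul_of_nonneg_left h5 (Nat.cast_nonneg _)
      _ ≤ (e : ℝ) * ((e : ℝ) * (s ^ 2 * cv (e - 1) r r ^ 2)) := by
          apply mul_le_mul_of_nonneg_left _ (Nat.cast_nonneg _)
          have : 0 ≤ s ^ 2 * cv (e - 1) r r ^ 2 := by positivity
          nlinarith
      _ = _ := by ring
  -- third term
  have h6 : (e.choose 2 : ℝ) * PP c m (e - 2) (fun S => T (a ::ₘ S) ^ 2)
      ≤ (if e < 2 then 0 else e * s * (2 * cv (e - 2) (fun n => r (n + 1)) r)) ^ 2 := by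
    rcases Nat.lt_or_ge e 2 with he2 | he2
    · rw [Nat.choose_eq_zero_of_lt he2]
      simp only [Nat.cast_zero, zero_mul]
      exact sq_nonneg _
    rw [if_neg (by omega)]
    obtain ⟨k, rfl⟩ := Nat.exists_eq_add_of_le he2
    rw [show 2 + k - 2 = k from by omega] at *
    -- row of pairs
    set τ : Ω → ℕ → ℝ := fun y n => nrm m n (fun S => T (y ::ₘ a ::ₘ S)) with hτ
    have hτ0 : ∀ y n, 0 ≤ τ y n := fun y n => nrm_nonneg _ _
    have hτs : ∀ n, Real.sqrt (∑ y, m y * τ y n ^ 2) = rw' m T (n + 1) a := by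
      intro n
      unfold rw'
      rw [nrm_succ hm]
      congr 1
      refine Finset.sum_congr rfl fun y _ => ?_
      rw [hτ]
      simp only
      rw [nrm_congr n (G := fun S => T (a ::ₘ y ::ₘ S)) (fun S => by rw [Multiset.cons_swap])]
    have h7 : ∀ x y, c y = c x → I m k (fun S => T (a ::ₘ x ::ₘ y ::ₘ S) ^ 2)
        ≤ (cv k r (τ y) + cv k (τ x) r) ^ 2 := by
      intro x y hxy
      rw [← nrm_sq hm k (fun S => T (a ::ₘ x ::ₘ y ::ₘ S))]
      apply pow_le_pow_left₀ (nrm_nonneg _ _)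
      have h8 : ∀ S, T (a ::ₘ x ::ₘ y ::ₘ S)
          = -(sp S (fun u v => T (x ::ₘ u) * T (y ::ₘ a ::ₘ v))
            + sp S (fun u v => T (x ::ₘ a ::ₘ u) * T (y ::ₘ v))) := by
        intro S
        rw [Multiset.cons_swap a x, Multiset.cons_swap a y, h.rep' hxy.symm, sp_cons]
      rw [nrm_congr k h8, nrm_neg]
      refine (nrm_add_le hm k _ _).trans ?_
      apply add_le_add
      · refine (nrm_shuffle hm k (fun u => T (x ::ₘ u)) (fun v => T (y ::ₘ a ::ₘ v))).trans ?_
        exact cv_le (u := fun n => rw' m T n x) (v := τ y)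
          (fun n => nrm_nonneg _ _) (hτ0 y) (fun n hn => hr n (by omega) x) (fun n _ => le_rfl)
      · refine (nrm_shuffle hm k (fun u => T (x ::ₘ a ::ₘ u)) (fun v => T (y ::ₘ v))).trans ?_
        exact cv_le (u := τ x) (v := fun n => rw' m T n y)
          (hτ0 x) hr0 (fun n _ => le_rfl) (fun n hn => hr n (by omega) y)
    set w : Ω × Ω → ℝ := fun p => (if c p.2 = c p.1 then (1 : ℝ) else 0) * (m p.1 * m p.2)
      with hw
    have hw0 : ∀ p, 0 ≤ w p := by
      intro p
      have h1 := hm p.1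
      have h2 := hm p.2
      rw [hw]
      simp only
      split_ifs
      · positivity
      · simp
    have h9 : PP c m k (fun S => T (a ::ₘ S) ^ 2)
        ≤ ∑ p : Ω × Ω, w p * (cv k r (τ p.2) + cv k (τ p.1) r) ^ 2 := by
      unfold PP
      rw [Fintype.sum_prod_type]
      refine Finset.sum_le_sum fun x _ => Finset.sum_le_sum fun y _ => ?_
      rw [hw]
      simp only
      by_cases hxy : c y = c x
      · rw [if_pos hxy, one_mul, one_mul]
        exact mul_le_mul_of_nonneg_left (h7 x y hxy) (mul_nonneg (hm x) (hm y))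
      · rw [if_neg hxy]; simp
    -- the two one-sided sums
    have hone : ∀ u : Ω → ℝ, ∑ p : Ω × Ω, w p * u p.1 ^ 2 ≤ s ^ 2 * ∑ x, m x * u x ^ 2 := by
      intro u
      rw [Fintype.sum_prod_type, Finset.mul_sum]
      refine Finset.sum_le_sum fun x _ => ?_
      rw [hw]
      simp only
      have : ∑ y, (if c y = c x then (1 : ℝ) else 0) * (m x * m y) * u x ^ 2
          = (∑ y, (if c y = c x then (1 : ℝ) else 0) * m y) * (m x * u x ^ 2) := by
        rw [Finset.sum_mul]
        exact Finset.sum_congr rfl fun y _ => by ring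
      rw [this]
      exact mul_le_mul_of_nonneg_right (hs x) (mul_nonneg (hm x) (sq_nonneg _))
    have htwo : ∀ u : Ω → ℝ, ∑ p : Ω × Ω, w p * u p.2 ^ 2 ≤ s ^ 2 * ∑ x, m x * u x ^ 2 := by
      intro u
      refine le_trans (le_of_eq ?_) (hone u)
      rw [Fintype.sum_prod_type, Fintype.sum_prod_type, Finset.sum_comm]
      refine Finset.sum_congr rfl fun x _ => Finset.sum_congr rfl fun y _ => ?_
      rw [hw]
      simp only
      by_cases hxy : c x = c y
      · rw [if_pos hxy, if_pos hxy.symm]; ring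
      · rw [if_neg hxy, if_neg (fun h => hxy h.symm)]; ring
    have hbnd : ∀ u : Ω → ℝ, (∀ x, u x = cv k (τ x) r) →
        Real.sqrt (s ^ 2 * ∑ x, m x * u x ^ 2) ≤ s * cv k (fun n => r (n + 1)) r := by
      intro u hu
      rw [Real.sqrt_mul (sq_nonneg s), Real.sqrt_sq hs0]
      apply mul_le_mul_of_nonneg_left _ hs0
      have h8 : ∀ x, u x
          = ∑ p ∈ antidiagonal k, ((k.choose p.1 : ℝ) * r p.2) * τ x p.1 := by
        intro x
        rw [hu]
        exact Finset.sum_congr rfl fun p _ => by ring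
      simp only [h8]
      refine (mink_sum Finset.univ hm (antidiagonal k) (fun p => (k.choose p.1 : ℝ) * r p.2)
        (fun p => mul_nonneg (Nat.cast_nonneg _) (hr0 _)) (fun p x => τ x p.1)).trans ?_
      unfold cv
      refine Finset.sum_le_sum fun p hp => ?_
      have hp' : p.1 + p.2 = k := Finset.HasAntidiagonal.mem_antidiagonal.1 hp
      rw [hτs]
      have := hr (p.1 + 1) (by omega) a
      calc _ ≤ ((k.choose p.1 : ℝ) * r p.2) * r (p.1 + 1) :=
            mul_le_mul_of_nonneg_left this (mul_nonneg (Nat.cast_nonneg _) (hr0 _))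
        _ = _ := by ring
    have h10 : Real.sqrt (∑ p : Ω × Ω, w p * (cv k r (τ p.2) + cv k (τ p.1) r) ^ 2)
        ≤ 2 * (s * cv k (fun n => r (n + 1)) r) := by
      refine (mink Finset.univ hw0 (fun p => cv k r (τ p.2)) (fun p => cv k (τ p.1) r)).trans ?_
      have e1 := (Real.sqrt_le_sqrt (htwo (fun y => cv k r (τ y)))).trans
        (hbnd (fun y => cv k r (τ y)) (fun y => cv_comm _ _ _))
      have e2 := (Real.sqrt_le_sqrt (hone (fun y => cv k (τ y) r))).trans
        (hbnd (fun y => cv k (τ y) r) (fun y => rfl))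
      linarith
    have h11 : PP c m k (fun S => T (a ::ₘ S) ^ 2)
        ≤ (2 * (s * cv k (fun n => r (n + 1)) r)) ^ 2 := by
      refine h9.trans ?_
      have hn : 0 ≤ ∑ p : Ω × Ω, w p * (cv k r (τ p.2) + cv k (τ p.1) r) ^ 2 :=
        Finset.sum_nonneg fun p _ => mul_nonneg (hw0 p) (sq_nonneg _)
      calc _ = Real.sqrt _ ^ 2 := (Real.sq_sqrt hn).symm
        _ ≤ _ := pow_le_pow_left₀ (Real.sqrt_nonneg _) h10 2
    have h12 : ((2 + k).choose 2 : ℝ) ≤ (((2 + k : ℕ) : ℝ)) ^ 2 := by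
      have := Nat.choose_le_pow (2 + k) 2
      exact_mod_cast this
    calc _ ≤ (((2 + k : ℕ) : ℝ)) ^ 2 * (2 * (s * cv k (fun n => r (n + 1)) r)) ^ 2 :=
          mul_le_mul h12 h11 hQ2 (sq_nonneg _)
      _ = _ := by ring
  -- assemble
  have hA0 : 0 ≤ I m e (fun S => if Dst c (a ::ₘ S) then T (a ::ₘ S) ^ 2 else 0) :=
    I_nonneg hm _ fun S => by split_ifs; exacts [sq_nonneg _, le_rfl]
  have hA : Real.sqrt (I m e (fun S => if Dst c (a ::ₘ S) then T (a ::ₘ S) ^ 2 else 0))
      = nrm m e (fun S => if Dst c (a ::ₘ S) then T (a ::ₘ S) else 0) := by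
    unfold nrm
    congr 1
    refine I_congr _ fun S => ?_
    by_cases hD : Dst c (a ::ₘ S) <;> simp [hD]
  set A := nrm m e (fun S => if Dst c (a ::ₘ S) then T (a ::ₘ S) else 0) with hAdef
  set B := (e : ℝ) * s * cv (e - 1) r r with hB
  set C := (if e < 2 then 0 else (e : ℝ) * s * (2 * cv (e - 2) (fun n => r (n + 1)) r)) with hC
  have hA' : 0 ≤ A := nrm_nonneg _ _
  have hB' : 0 ≤ B := by positivity
  have hC' : 0 ≤ C := by
    rw [hC]; split_ifs
    · exact le_rfl
    · positivity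
  have hAsq : I m e (fun S => if Dst c (a ::ₘ S) then T (a ::ₘ S) ^ 2 else 0) = A ^ 2 := by
    rw [← hA, Real.sq_sqrt hA0]
  unfold rw' nrm
  apply Real.sqrt_le_iff.2
  refine ⟨by positivity, ?_⟩
  beta_reduce at hU
  rw [hAsq] at hU
  nlinarith [mul_nonneg hA' hB', mul_nonneg hA' hC', mul_nonneg hB' hC']

end Vale.Agent.P042.H232
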