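import Vale.Agent.P042.H232.BdFin
import Vale.Agent.P042.H365.TB

/-!
# P042, row F.B3: the typed bounds with a top scale at most `(2 - 4 G) p`
-/

set_option linter.unusedSectionVars false

namespace Vale.Agent.P042.H232

open Finset Vale.Agent.P042.H461 Vale.Agent.P042.H742 Vale.Agent.P042.H365
open Vale.Agent.P042.H779 (marg m1)
open Vale.Agent.P042.H284 (BV Lt pr pr_nonneg pr_perm pr_cons pr_nil BdT)
open Vale.Agent.P042.H416

variable {ι : Type*} [Fintype ι] [DecidableEq ι] {V : ι → Type*} [∀ i, Fintype (V i)]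
  [∀ i, DecidableEq (V i)] {J : Type*} [DecidableEq J] {lam : ∀ i, V i → ℝ}
  {mu : (∀ i, V i) → ℝ} {sc : ι → J} {ell : J → ℝ} {s : J} {b : ℕ}
  {p G h Kf σ L Λ ε κ δ g c1 c2 : ℝ} {R E : ι → ℝ}

theorem Nn_eq_NN : Nn ell g c2 = NN ell g c2 := rfl

/-- **The typed bounds with top scale `s`, `ell s ≤ (2 - 4 G) p`.** -/
theorem tb_lo (H : TopH lam mu sc ell s b p G h Kf σ L Λ ε κ δ R E)
    (hs : ell s ≤ (2 - 4 * G) * p) {VV : J → Finset (Σ i, Option (V i))}
    (hV : ∀ l ω, ω ∈ VV l ↔ sc ω.1 = l) (hg : 8 * h ≤ g) (hc1 : 0 ≤ c1)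
    (hc2 : 2 * c2 ≤ 1 / 2 - 4 * h) (hc : 2 * (c1 + g) ≤ G / 96 - 3 * h) :
    TB VV ell s b g c1 c2 (Tn lam mu R E) := by
  have hh0 := H.h0
  have hG1 := H.G1
  have hh : h ≤ 1 / 8 := by linarith
  refine ⟨fun l hl => ?_, fun l hl => ?_, fun τ hsτ hτs h3 hb => ?_⟩
  · have h1 := (fin_two H hV hg hh hc2 hl).1
    rw [Nn_eq_NN, NN_eq hl] at h1
    exact h1
  · have h1 := op_num H hs hV s l
    refine bv_mono h1 ?_
    have h2 : Real.exp (-(G / 2) * ell s + 4 * h * ell s) * Real.exp (-(G / 2) * ell l +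
        4 * h * ell l) = Real.exp ((-(G / 2) * ell s + 4 * h * ell s + (-(G / 2) * ell l +
        4 * h * ell l)) / 2) ^ 2 := by
      rw [← Real.exp_add, ← Real.exp_nat_mul]
      congr 1
      push_cast
      ring
    rw [h2, Real.sqrt_sq (Real.exp_nonneg _), Real.exp_le_exp]
    have h3 := TopH.ell0 H s
    have h4 := TopH.ell0 H l
    have h5 : 0 ≤ (G / 4 - 2 * h - (c1 + g)) * ell s := mul_nonneg (by linarith) h3
    have h6 : 0 ≤ (G / 4 - 2 * h + g) * ell l := mul_nonneg (by linarith) h4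
    linarith
  · refine (H.hs_top hV hs hsτ hτs h3 hb).trans ?_
    rw [← Real.exp_nat_mul, Real.exp_le_exp]
    have h4 : 0 ≤ (τ.map ell).sum := List.sum_nonneg fun x hx => by
      obtain ⟨l, _, rfl⟩ := List.mem_map.1 hx
      exact TopH.ell0 H l
    have := mul_le_mul_of_nonneg_right hc h4
    push_cast
    linarith

end Vale.Agent.P042.H232
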